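import Vale.Agent.BDU.Setup

/-!
# P250: the automorphisms of the ball
-/

open scoped ComplexConjugate

namespace Vale.BDU

theorem defect_sq {a : V2} (ha : ‖a‖ ≤ 1) : (defect a : ℂ) ^ 2 = 1 - inner ℂ a a := by
  have h : 0 ≤ 1 - ‖a‖ ^ 2 := by nlinarith [norm_nonneg a]
  rw [inner_self_eq_norm_sq_to_K, ← Complex.ofReal_pow, defect, Real.sq_sqrt h]
  simp

theorem defect_nonneg (a : V2) : 0 ≤ defect a := Real.sqrt_nonneg _

theorem defect_pos {a : V2} (ha : a ∈ ball2) : 0 < defect a :=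
  Real.sqrt_pos.2 (by nlinarith [norm_nonneg a, mem_ball_zero_iff.1 ha])

theorem one_add_defect_ne (a : V2) : (1 + (defect a : ℂ)) ≠ 0 := fun h => by
  have h' := congrArg Complex.re h
  simp at h'
  linarith [defect_nonneg a]

theorem one_sub_inner_ne {a z : V2} (h : ‖a‖ * ‖z‖ < 1) : 1 - inner ℂ a z ≠ 0 := fun h0 => by
  have h1 : inner ℂ a z = (1 : ℂ) := (sub_eq_zero.1 h0).symm
  have h2 := norm_inner_le_norm (𝕜 := ℂ) a z
  rw [h1, norm_one] at h2
  linarith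

theorem norm_mul_norm_lt {a z : V2} (ha : a ∈ ball2) (hz : ‖z‖ ≤ 1) : ‖a‖ * ‖z‖ < 1 :=
  lt_of_le_of_lt (mul_le_of_le_one_right (norm_nonneg a) hz) (mem_ball_zero_iff.1 ha)

theorem inner_ballMap (a ξ z : V2) :
    inner ℂ ξ (ballMap a z) = (1 - inner ℂ a z)⁻¹ *
      (inner ℂ ξ a - (defect a : ℂ) * inner ℂ ξ z
        - inner ℂ a z / (1 + (defect a : ℂ)) * inner ℂ ξ a) := by
  simp only [ballMap, inner_smul_right, inner_sub_right]

theorem conj_one_sub_inner (a z : V2) : conj (1 - inner ℂ a z) = 1 - inner ℂ z a := by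
  simp [inner_conj_symm]

/-- The fundamental identity of the automorphisms. -/
theorem one_sub_inner_ballMap {a w z : V2} (ha : a ∈ ball2) (hw : ‖w‖ ≤ 1) (hz : ‖z‖ ≤ 1) :
    1 - inner ℂ (ballMap a w) (ballMap a z) =
      (1 - inner ℂ a a) * (1 - inner ℂ w z) / ((1 - inner ℂ a z) * (1 - inner ℂ w a)) := by
  have h1 := one_sub_inner_ne (norm_mul_norm_lt ha hz)
  have h2 : 1 - inner ℂ w a ≠ (0 : ℂ) :=
    one_sub_inner_ne (by rw [mul_comm]; exact norm_mul_norm_lt ha hw)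
  have ht := one_add_defect_ne a
  have hs := defect_sq (mem_ball_zero_iff.1 ha).le
  rw [inner_ballMap]
  simp only [ballMap, inner_smul_left, inner_sub_left, map_inv₀, map_div₀, map_add, map_one,
    Complex.conj_ofReal, inner_conj_symm, conj_one_sub_inner]
  field_simp
  have hg : inner ℂ a a = 1 - (defect a : ℂ) ^ 2 := by rw [hs]; ring
  rw [hg]
  ring

theorem one_sub_norm_ballMap_sq {a z : V2} (ha : a ∈ ball2) (hz : ‖z‖ ≤ 1) :
    1 - ‖ballMap a z‖ ^ 2 = (1 - ‖a‖ ^ 2) * (1 - ‖z‖ ^ 2) / ‖1 - inner ℂ a z‖ ^ 2 := by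
  have h := one_sub_inner_ballMap ha hz hz
  rw [← conj_one_sub_inner a z, Complex.mul_conj'] at h
  simp only [inner_self_eq_norm_sq_to_K, RCLike.ofReal_eq_complex_ofReal] at h
  exact_mod_cast h

theorem ballMap_mem {a z : V2} (ha : a ∈ ball2) (hz : z ∈ ball2) : ballMap a z ∈ ball2 := by
  have h1 := mem_ball_zero_iff.1 ha
  have h2 := mem_ball_zero_iff.1 hz
  have h3 := one_sub_norm_ballMap_sq ha h2.le
  have h4 : 0 < ‖1 - inner ℂ a z‖ := norm_pos_iff.2 (one_sub_inner_ne (norm_mul_norm_lt ha h2.le))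
  have h5 : 0 < (1 - ‖a‖ ^ 2) * (1 - ‖z‖ ^ 2) / ‖1 - inner ℂ a z‖ ^ 2 :=
    div_pos (mul_pos (by nlinarith [norm_nonneg a]) (by nlinarith [norm_nonneg z])) (pow_pos h4 2)
  rw [mem_ball_zero_iff]
  nlinarith [norm_nonneg (ballMap a z)]

theorem norm_ballMap_le {a z : V2} (ha : a ∈ ball2) (hz : ‖z‖ ≤ 1) : ‖ballMap a z‖ ≤ 1 := by
  have h1 := mem_ball_zero_iff.1 ha
  have h3 := one_sub_norm_ballMap_sq ha hz
  have h5 : 0 ≤ (1 - ‖a‖ ^ 2) * (1 - ‖z‖ ^ 2) / ‖1 - inner ℂ a z‖ ^ 2 :=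
    div_nonneg (mul_nonneg (by nlinarith [norm_nonneg a]) (by nlinarith [norm_nonneg z]))
      (sq_nonneg _)
  nlinarith [norm_nonneg (ballMap a z)]

theorem norm_ballMap_eq_one {a z : V2} (ha : a ∈ ball2) (hz : ‖z‖ = 1) : ‖ballMap a z‖ = 1 := by
  have h := one_sub_norm_ballMap_sq ha hz.le
  rw [hz] at h
  have h' : ‖ballMap a z‖ ^ 2 = 1 ^ 2 := by
    simp at h
    linarith
  exact (pow_left_inj₀ (norm_nonneg _) zero_le_one two_ne_zero).1 h'

@[simp] theorem ballMap_zero (a : V2) : ballMap a 0 = a := by simp [ballMap]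

theorem ballMap_ballMap {a z : V2} (ha : a ∈ ball2) (hz : ‖z‖ ≤ 1) :
    ballMap a (ballMap a z) = z := by
  have h1 := one_sub_inner_ne (norm_mul_norm_lt ha hz)
  have ht := one_add_defect_ne a
  have hs0 : (defect a : ℂ) ≠ 0 := Complex.ofReal_ne_zero.2 (defect_pos ha).ne'
  have hs := defect_sq (mem_ball_zero_iff.1 ha).le
  have hg : inner ℂ a a = 1 - (defect a : ℂ) ^ 2 := by rw [hs]; ring
  have hα : inner ℂ a (ballMap a z) =
      1 - (defect a : ℂ) ^ 2 / (1 - inner ℂ a z) := by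
    rw [inner_ballMap, hg]
    field_simp
    ring
  conv_lhs => rw [ballMap, hα]
  rw [ballMap]
  match_scalars <;> field_simp <;> ring

theorem differentiableOn_ballMap (a : V2) :
    DifferentiableOn ℂ (ballMap a) {z | ‖a‖ * ‖z‖ < 1} := by
  intro z hz
  have hα : DifferentiableAt ℂ (fun z : V2 => inner ℂ a z) z :=
    (innerSL ℂ a).differentiableAt
  exact (((differentiableAt_const (1 : ℂ)).sub hα).inv (one_sub_inner_ne hz) |>.smul
    (((differentiableAt_const a).sub (differentiableAt_id.const_smul (defect a : ℂ))).sub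
      (DifferentiableAt.smul_const (f := a)
        (show DifferentiableAt ℂ (fun z : V2 => inner ℂ a z / (1 + (defect a : ℂ))) z by
          simp only [div_eq_mul_inv]; exact hα.mul_const _)))).differentiableWithinAt

theorem differentiableOn_ballMap_ball {a : V2} (ha : a ∈ ball2) :
    DifferentiableOn ℂ (ballMap a) ball2 :=
  (differentiableOn_ballMap a).mono fun _ hz =>
    norm_mul_norm_lt ha (mem_ball_zero_iff.1 hz).le

/-- `q` read after recentring at `a`. -/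
theorem qfun_ballMap : ∃ C : ℝ, ∀ N : ℝ, 1 ≤ N → ∀ ξ : V2, ‖ξ‖ = 1 → ∀ a ∈ ball2,
    ∃ d m : V2, ‖m‖ ≤ C ∧ ‖d‖ ≤ C ∧ ‖d‖ ≤ C * Real.sqrt (N * (1 - ‖a‖)) ∧
      ∀ z : V2, ‖z‖ * C < 1 →
        qfun N ξ (ballMap a z) = qfun N ξ a * (1 + inner ℂ d z / (1 - inner ℂ m z)) := by
  refine ⟨4, fun N hN ξ hξ a ha => ?_⟩
  have ha1 := mem_ball_zero_iff.1 ha
  set s : ℝ := defect a
  set c : ℂ := inner ℂ ξ a with hc
  set u : ℂ := (N : ℂ) * (1 - c) with hu
  set k : ℂ := (N : ℂ) * (s : ℂ) / (1 + u) with hk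
  set d : V2 := conj k • ((conj c / (1 + (s : ℂ))) • a - ξ) with hd
  have hN0 : 0 < N := by linarith
  have hcn : ‖c‖ ≤ ‖a‖ := by
    have := norm_inner_le_norm (𝕜 := ℂ) ξ a
    rwa [hξ, one_mul] at this
  have hre : N * (1 - ‖a‖) ≤ u.re := by
    have : u.re = N * (1 - c.re) := by simp [hu]
    rw [this]
    exact mul_le_mul_of_nonneg_left (by linarith [Complex.re_le_norm c]) hN0.le
  have hre0 : 0 ≤ u.re := le_trans (mul_nonneg hN0.le (by linarith)) hre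
  have hu1 : 1 + u.re ≤ ‖1 + u‖ := by simpa using Complex.re_le_norm (1 + u)
  have hune : 1 + u ≠ 0 := norm_pos_iff.1 (by linarith)
  have huu : ‖u‖ ≤ ‖1 + u‖ := by
    refine (pow_le_pow_iff_left₀ (norm_nonneg _) (norm_nonneg _) two_ne_zero).1 ?_
    rw [Complex.sq_norm, Complex.sq_norm, Complex.normSq_apply, Complex.normSq_apply]
    simp
    nlinarith
  have hg : inner ℂ a a = 1 - (s : ℂ) ^ 2 := by rw [defect_sq ha1.le]; ring
  have hs0 : 0 ≤ s := defect_nonneg a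
  have hss : s ^ 2 = 1 - ‖a‖ ^ 2 := Real.sq_sqrt (by nlinarith [norm_nonneg a])
  have ht : 1 + (s : ℂ) ≠ 0 := one_add_defect_ne a
  have hv : ‖(conj c / (1 + (s : ℂ))) • a - ξ‖ ^ 2 = 1 - ‖c‖ ^ 2 := by
    have h : inner ℂ ((conj c / (1 + (s : ℂ))) • a - ξ) ((conj c / (1 + (s : ℂ))) • a - ξ)
        = 1 - c * conj c := by
      have h1 : inner ℂ ξ ξ = (1 : ℂ) := by rw [inner_self_eq_norm_sq_to_K, hξ]; simp
      simp only [inner_sub_left, inner_sub_right, inner_smul_left, inner_smul_right, map_div₀,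
        map_add, map_one, Complex.conj_ofReal, Complex.conj_conj, hg, h1,
        ← inner_conj_symm a ξ, ← hc]
      field_simp
      ring
    rw [inner_self_eq_norm_sq_to_K, Complex.mul_conj', RCLike.ofReal_eq_complex_ofReal] at h
    exact_mod_cast h
  have hdn : ‖d‖ ^ 2 ≤ 4 * N * (1 - ‖a‖) / ‖1 + u‖ := by
    have hc1 : N * (1 - ‖c‖ ^ 2) ≤ 2 * ‖u‖ := by
      have h1 : 1 - ‖c‖ ≤ ‖1 - c‖ := by simpa using norm_sub_norm_le (1 : ℂ) c
      have h2 : ‖u‖ = N * ‖1 - c‖ := by simp [hu, abs_of_pos hN0]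
      rw [h2]
      nlinarith [mul_le_mul_of_nonneg_left h1 hN0.le,
        mul_nonneg hN0.le (sq_nonneg (1 - ‖c‖))]
    have e : ‖d‖ ^ 2 = N * s ^ 2 * (N * (1 - ‖c‖ ^ 2)) / ‖1 + u‖ ^ 2 := by
      rw [hd, norm_smul, mul_pow, hv, RCLike.norm_conj, hk]
      simp [abs_of_pos hN0, abs_of_nonneg hs0, div_pow, mul_pow]
      ring
    rw [e, div_le_div_iff₀ (by positivity) (by linarith)]
    have hs2 : s ^ 2 ≤ 2 * (1 - ‖a‖) := by nlinarith [norm_nonneg a]
    calc N * s ^ 2 * (N * (1 - ‖c‖ ^ 2)) * ‖1 + u‖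
        ≤ N * s ^ 2 * (2 * ‖1 + u‖) * ‖1 + u‖ := by
          refine mul_le_mul_of_nonneg_right (mul_le_mul_of_nonneg_left ?_ (by positivity))
            (norm_nonneg _)
          linarith
      _ ≤ N * (2 * (1 - ‖a‖)) * (2 * ‖1 + u‖) * ‖1 + u‖ := by gcongr
      _ = _ := by ring
  have hd2 : ‖d‖ ≤ 2 := by
    refine (pow_le_pow_iff_left₀ (norm_nonneg _) zero_le_two two_ne_zero).1 (hdn.trans ?_)
    rw [div_le_iff₀ (by linarith)]
    linarith
  have hdN : ‖d‖ ≤ 4 * Real.sqrt (N * (1 - ‖a‖)) := by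
    have h0 : 0 ≤ N * (1 - ‖a‖) := mul_nonneg hN0.le (by linarith)
    refine (pow_le_pow_iff_left₀ (norm_nonneg _) (by positivity) two_ne_zero).1 (hdn.trans ?_)
    rw [mul_pow, Real.sq_sqrt h0, div_le_iff₀ (by linarith)]
    nlinarith
  refine ⟨d, d + a, (norm_add_le _ _).trans (by linarith), hd2.trans (by norm_num), hdN,
    fun z hz => ?_⟩
  have hz4 : ‖z‖ < 1 / 4 := by linarith
  have haz : 1 - inner ℂ a z ≠ 0 := one_sub_inner_ne (norm_mul_norm_lt ha (by linarith))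
  have hmz : 1 - inner ℂ (d + a) z ≠ 0 := one_sub_inner_ne (by
    nlinarith [norm_add_le d a, norm_nonneg z, norm_nonneg (d + a)])
  have hdz : inner ℂ d z = k * (c / (1 + (s : ℂ)) * inner ℂ a z - inner ℂ ξ z) := by
    simp [hd]
    ring
  have key : (1 + (N : ℂ) * (1 - inner ℂ ξ (ballMap a z))) * (1 - inner ℂ a z)
      = (1 + u) * (1 - inner ℂ (d + a) z) := by
    rw [inner_ballMap, inner_add_left, hdz, hk, hu, ← hc, show (defect a : ℂ) = (s : ℂ) from rfl]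
    have h' : 1 + (N : ℂ) * (1 - c) ≠ 0 := hune
    field_simp
    ring
  have hden : 1 + (N : ℂ) * (1 - inner ℂ ξ (ballMap a z)) ≠ 0 := fun h0 => by
    rw [h0, zero_mul] at key
    exact mul_ne_zero hune hmz key.symm
  have h2 : (3 / 2 : ℂ) / (1 + (N : ℂ) * (1 - inner ℂ ξ (ballMap a z)))
      = (3 / 2) / (1 + u) * ((1 - inner ℂ a z) / (1 - inner ℂ (d + a) z)) := by
    rw [div_mul_div_comm, ← key, mul_div_mul_right _ _ haz]
  simp only [qfun, ← hc, ← hu]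
  rw [h2]
  congr 1
  rw [inner_add_left] at hmz ⊢
  field_simp
  ring

end Vale.BDU
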