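import Vale.Agent.BDU.BaseJet

/-!
# P250: the curvature tensor at an adapted point
-/

open scoped ContDiff
open ComplexConjugate

namespace Vale.BDU

variable {M : Set C3} {f g : C3 → ℝ}

lemma herm_add_mul (hM : IsOpen M) (hf : ContDiffOn ℝ ∞ f M) (hg : ContDiffOn ℝ ∞ g M) (b : ℝ)
    (X Y : C3) : Set.EqOn (herm (fun r => f r + b * g r) X Y)
      (fun r => herm f X Y r + (b : ℂ) * herm g X Y r) M := by
  have h1 : Set.EqOn (pb Y (cplx fun r => f r + b * g r))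
      (fun r => pb Y (cplx f) r + (b : ℂ) * pb Y (cplx g) r) M := fun r hr => by
    have e : cplx (fun s => f s + b * g s) = fun s => cplx f s + (b : ℂ) * cplx g s := by
      funext s; simp [cplx]
    rw [e]
    exact ((hw_self (differentiableAt_of_contDiffOn hM (contDiffOn_cplx hf) hr)).add
      ((hw_self (differentiableAt_of_contDiffOn hM (contDiffOn_cplx hg) hr)).const_mul b)).pb_eq Y
  intro r hr
  show pd X (pb Y (cplx fun s => f s + b * g s)) r = _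
  rw [pd_congr_on hM h1 X hr]
  exact ((hw_self (differentiableAt_of_contDiffOn hM
      (contDiffOn_pb hM (contDiffOn_cplx hf) Y) hr)).add
    ((hw_self (differentiableAt_of_contDiffOn hM
      (contDiffOn_pb hM (contDiffOn_cplx hg) Y) hr)).const_mul b)).pd_eq X

lemma third_add_mul (hM : IsOpen M) (hf : ContDiffOn ℝ ∞ f M) (hg : ContDiffOn ℝ ∞ g M) (b : ℝ)
    (Z X Y : C3) : Set.EqOn (third (fun r => f r + b * g r) Z X Y)
      (fun r => third f Z X Y r + (b : ℂ) * third g Z X Y r) M := by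
  intro r hr
  show pd Z (herm (fun s => f s + b * g s) X Y) r = _
  rw [pd_congr_on hM (herm_add_mul hM hf hg b X Y) Z hr]
  exact ((hw_self (differentiableAt_of_contDiffOn hM (contDiffOn_herm hM hf X Y) hr)).add
    ((hw_self (differentiableAt_of_contDiffOn hM (contDiffOn_herm hM hg X Y) hr)).const_mul
      b)).pd_eq Z

lemma fourth_add_mul (hM : IsOpen M) (hf : ContDiffOn ℝ ∞ f M) (hg : ContDiffOn ℝ ∞ g M) (b : ℝ)
    (Z X W Y : C3) : Set.EqOn (fourth (fun r => f r + b * g r) Z X W Y)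
      (fun r => fourth f Z X W Y r + (b : ℂ) * fourth g Z X W Y r) M := by
  intro r hr
  show pb W (third (fun s => f s + b * g s) Z X Y) r = _
  rw [pb_congr_on hM (third_add_mul hM hf hg b Z X Y) W hr]
  exact ((hw_self (differentiableAt_of_contDiffOn hM (contDiffOn_third hM hf Z X Y) hr)).add
    ((hw_self (differentiableAt_of_contDiffOn hM (contDiffOn_third hM hg Z X Y) hr)).const_mul
      b)).pb_eq W

lemma contDiffOn_ballPot : ContDiffOn ℝ ∞ ballPot cyl :=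
  ((contDiffOn_const.sub contDiff_baseSq.contDiffOn).log fun _ hr => (sub_pos.2 hr).ne').neg

lemma contDiffOn_fibPot {Ψ : C3 → ℝ} (hΨ : ContDiffOn ℝ ∞ Ψ cyl) :
    ContDiffOn ℝ ∞ (fibPot Ψ) (modelDom Ψ) :=
  ((contDiffOn_const.sub ((contDiffOn_fibT hΨ).mono (modelDom_subset Ψ))).log
    fun _ hr => (sub_pos.2 hr.2).ne').neg

/-- An adapted point: the centre of the base, a real fibre coordinate `w`, the twist normalised to
second order, with diagonal Levi form. -/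
structure Adapted (φ : V2 → ℝ) (q : C3) (w d1 d2 : ℝ) : Prop where
  smooth : ContDiffOn ℝ ∞ φ ball2
  q0 : q 0 = 0
  q1 : q 1 = 0
  q2 : q 2 = (w : ℂ)
  wlt : w ^ 2 < 1
  val : φ (zc q) = 0
  first : ∀ X, pd X (cplx fun r => φ (zc r)) q = 0
  second : ∀ Z X, pd Z (pd X (cplx fun r => φ (zc r))) q = 0
  levi : ∀ X Y, herm (fun r => φ (zc r)) X Y q
    = d1 * X 0 * conj (Y 0) + d2 * X 1 * conj (Y 1)

/-- Positivity of the model form near `q`. -/
def PosNear (b : ℝ) (φ : V2 → ℝ) (q : C3) : Prop :=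
  ∃ V : Set C3, IsOpen V ∧ q ∈ V ∧ V ⊆ modelDom (fun r => φ (zc r)) ∧
    PosOn (modelPot b fun r => φ (zc r)) V

/-- The fibre weight `b/(1-t)²`. -/
noncomputable def cAt (b w : ℝ) : ℝ := b / (1 - w ^ 2) ^ 2

/-- `u = t/(1-t)`. -/
noncomputable def uAt (w : ℝ) : ℝ := w ^ 2 / (1 - w ^ 2)

/-- The mixed symmetric form. -/
def sMix (i : Fin 2) (A B : C3) : ℂ := A 2 * B i.castSucc + B 2 * A i.castSucc

/-- The component `j` of the third derivative of the twist. -/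
noncomputable def tForm (φ : V2 → ℝ) (q : C3) (j : Fin 2) (A B : C3) : ℂ :=
  ∑ k : Fin 2, ∑ l : Fin 2, jet3 φ q j k l * A k.castSucc * B l.castSucc

/-- The weight of a base direction. -/
noncomputable def hAt (b w d1 d2 : ℝ) (i : Fin 2) : ℝ := 1 + b * uAt w * (if i = 0 then d1 else d2)

variable {φ : V2 → ℝ} {q : C3} {w d1 d2 b : ℝ}

lemma Adapted.mem (h : Adapted φ q w d1 d2) : q ∈ modelDom (fun r => φ (zc r)) := by
  refine ⟨?_, ?_⟩
  · simp [baseSq, h.q0, h.q1]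
  · simp [fibT, h.q2, h.val, Complex.normSq_ofReal, ← sq, h.wlt]

lemma Adapted.herm_at (h : Adapted φ q w d1 d2) (b : ℝ) (X Y : C3) :
    herm (modelPot b fun r => φ (zc r)) X Y q =
      (hAt b w d1 d2 0 : ℂ) * X 0 * conj (Y 0) + (hAt b w d1 d2 1 : ℂ) * X 1 * conj (Y 1)
        + (cAt b w : ℂ) * X 2 * conj (Y 2) := by
  have hΨ := contDiffOn_base h.smooth
  obtain ⟨hk, hu, hc⟩ := at_values (Ψ := fun r => φ (zc r)) h.q2 h.val h.wlt
  rw [show modelPot b (fun r => φ (zc r)) = fun r => ballPot r + b * fibPot (fun s => φ (zc s)) r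
    from rfl, herm_add_mul (isOpen_modelDom hΨ) (contDiffOn_ballPot.mono (modelDom_subset _))
      (contDiffOn_fibPot hΨ) b X Y h.mem]
  simp only [(ballPot_at h.q0 h.q1 0 X 0 Y).1, fibPot_herm hΨ h.mem, theta, h.first, h.levi,
    hu, hc, mul_zero, add_zero, dot2, hAt, cAt, uAt, if_true, Fin.one_eq_zero_iff,
    OfNat.ofNat_ne_one, if_false]
  push_cast
  ring

lemma Adapted.third_at (h : Adapted φ q w d1 d2) (b : ℝ) (Z X Y : C3) :
    third (modelPot b fun r => φ (zc r)) Z X Y q =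
      ((cAt b w * w * d1 : ℝ) : ℂ) * sMix 0 Z X * conj (Y 0)
        + ((cAt b w * w * d2 : ℝ) : ℂ) * sMix 1 Z X * conj (Y 1)
        + ((b * uAt w : ℝ) : ℂ) * (conj (Y 0) * tForm φ q 0 Z X + conj (Y 1) * tForm φ q 1 Z X)
        + ((cAt b w * (2 * w / (1 - w ^ 2)) : ℝ) : ℂ) * (Z 2 * X 2) * conj (Y 2) := by
  have hΨ := contDiffOn_base h.smooth
  obtain ⟨hk, hu, hc⟩ := at_values (Ψ := fun r => φ (zc r)) h.q2 h.val h.wlt
  rw [show modelPot b (fun r => φ (zc r)) = fun r => ballPot r + b * fibPot (fun s => φ (zc s)) r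
    from rfl, third_add_mul (isOpen_modelDom hΨ) (contDiffOn_ballPot.mono (modelDom_subset _))
      (contDiffOn_fibPot hΨ) b Z X Y h.mem]
  simp only [(ballPot_at h.q0 h.q1 Z X 0 Y).2.1, fibPot_third hΨ h.mem, theta, h.first, h.second,
    h.levi, h.q2, hk, hu, hc, Complex.conj_ofReal, mul_zero, add_zero, zero_add, tForm,
    third_base h.smooth (modelDom_subset _ h.mem), Fin.sum_univ_two, sMix, cAt, uAt,
    Fin.castSucc_zero, show (Fin.castSucc (1 : Fin 2)) = (1 : Fin 3) from rfl]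
  push_cast
  ring

/-- The value of the connection at an adapted point. -/
noncomputable def gammaAt (φ : V2 → ℝ) (q : C3) (b w d1 d2 : ℝ) (Z X : C3) : C3 :=
  ![(((cAt b w * w * d1 : ℝ) : ℂ) * sMix 0 Z X + ((b * uAt w : ℝ) : ℂ) * tForm φ q 0 Z X)
      / (hAt b w d1 d2 0 : ℂ),
    (((cAt b w * w * d2 : ℝ) : ℂ) * sMix 1 Z X + ((b * uAt w : ℝ) : ℂ) * tForm φ q 1 Z X)
      / (hAt b w d1 d2 1 : ℂ),
    ((2 * w / (1 - w ^ 2) : ℝ) : ℂ) * (Z 2 * X 2)]

lemma hAt_pos (hb : 0 ≤ b) (hw : w ^ 2 < 1) (hd1 : 0 ≤ d1) (hd2 : 0 ≤ d2) (i : Fin 2) :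
    0 < hAt b w d1 d2 i := by
  have hu : 0 ≤ uAt w := div_nonneg (sq_nonneg w) (sub_pos.2 hw).le
  have : 0 ≤ b * uAt w * (if i = 0 then d1 else d2) :=
    mul_nonneg (mul_nonneg hb hu) (by split_ifs <;> assumption)
  rw [hAt]; linarith

lemma Adapted.herm_gammaAt (h : Adapted φ q w d1 d2) (hb : 0 ≤ b) (hd1 : 0 ≤ d1) (hd2 : 0 ≤ d2)
    (Z X Y : C3) :
    herm (modelPot b fun r => φ (zc r)) (gammaAt φ q b w d1 d2 Z X) Y q =
      third (modelPot b fun r => φ (zc r)) Z X Y q := by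
  have h0 : (hAt b w d1 d2 0 : ℂ) ≠ 0 := Complex.ofReal_ne_zero.2 (hAt_pos hb h.wlt hd1 hd2 0).ne'
  have h1 : (hAt b w d1 d2 1 : ℂ) ≠ 0 := Complex.ofReal_ne_zero.2 (hAt_pos hb h.wlt hd1 hd2 1).ne'
  rw [h.herm_at, h.third_at]
  simp only [gammaAt, Matrix.cons_val_zero, Matrix.cons_val_one, Matrix.cons_val,
    mul_div_cancel₀ _ h0, mul_div_cancel₀ _ h1]
  push_cast
  ring

lemma Adapted.gamma_eq (h : Adapted φ q w d1 d2) (hb : 0 ≤ b) (hd1 : 0 ≤ d1) (hd2 : 0 ≤ d2)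
    (hpos : PosNear b φ q) (Z X : C3) :
    gamma (modelPot b fun r => φ (zc r)) q Z X = gammaAt φ q b w d1 d2 Z X := by
  have hΨ := contDiffOn_base h.smooth
  have hM := isOpen_modelDom hΨ
  have hP := contDiffOn_modelPot hΨ b
  set G := gamma (modelPot b fun r => φ (zc r)) q Z X
  set V := gammaAt φ q b w d1 d2 Z X
  by_contra hne
  obtain ⟨N, hN, hqN, hNsub, hposN⟩ := hpos
  have h0 := hposN q hqN (G - V) (sub_ne_zero.2 hne)
  have e : herm (modelPot b fun r => φ (zc r)) (G - V) (G - V) q = 0 := by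
    have hs : G - V = G + (-1 : ℂ) • V := by rw [neg_one_smul, sub_eq_add_neg]
    nth_rewrite 1 [hs]
    show pd (G + (-1 : ℂ) • V) (pb (G - V) (cplx _)) q = 0
    rw [pd_add, pd_smul]
    show herm _ G (G - V) q + (-1) * herm _ V (G - V) q = 0
    rw [herm_gamma hN (hP.mono hNsub) hposN hqN, h.herm_gammaAt hb hd1 hd2]
    ring
  rw [← herm_re hM hP h.mem, e] at h0
  exact absurd h0 (by simp)

/-- The value of the curvature tensor at an adapted point. -/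
noncomputable def tensorAt (φ : V2 → ℝ) (q : C3) (b w d1 d2 : ℝ) (Z X W Y : C3) : ℂ :=
  (dot2 X Y * dot2 Z W + dot2 Z Y * dot2 X W)
  + ((cAt b w * w ^ 2 : ℝ) : ℂ)
      * ((d1 * Z 0 * conj (W 0) + d2 * Z 1 * conj (W 1))
          * (d1 * X 0 * conj (Y 0) + d2 * X 1 * conj (Y 1))
        + (d1 * X 0 * conj (W 0) + d2 * X 1 * conj (W 1))
          * (d1 * Z 0 * conj (Y 0) + d2 * Z 1 * conj (Y 1)))
  + (((1 + 2 * uAt w) * d1 - cAt b w * w ^ 2 * d1 ^ 2 / hAt b w d1 d2 0 : ℝ) : ℂ)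
      * ((cAt b w : ℂ) * (sMix 0 Z X * conj (sMix 0 W Y)))
  + (((1 + 2 * uAt w) * d2 - cAt b w * w ^ 2 * d2 ^ 2 / hAt b w d1 d2 1 : ℝ) : ℂ)
      * ((cAt b w : ℂ) * (sMix 1 Z X * conj (sMix 1 W Y)))
  + ((2 / b : ℝ) : ℂ) * ((cAt b w ^ 2 : ℝ) : ℂ) * (Z 2 * X 2 * conj (W 2 * Y 2))
  + ((b * uAt w : ℝ) : ℂ) * ((∑ k : Fin 2, ∑ l : Fin 2, ∑ m : Fin 2, ∑ n : Fin 2, jet4 φ q k l m n
        * Z k.castSucc * X l.castSucc * conj (W m.castSucc) * conj (Y n.castSucc))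
      - ((b * uAt w / hAt b w d1 d2 0 : ℝ) : ℂ) * (tForm φ q 0 Z X * conj (tForm φ q 0 W Y))
      - ((b * uAt w / hAt b w d1 d2 1 : ℝ) : ℂ) * (tForm φ q 1 Z X * conj (tForm φ q 1 W Y)))
  + ((cAt b w * w / hAt b w d1 d2 0 : ℝ) : ℂ)
      * (tForm φ q 0 Z X * conj (sMix 0 W Y) + sMix 0 Z X * conj (tForm φ q 0 W Y))
  + ((cAt b w * w / hAt b w d1 d2 1 : ℝ) : ℂ)
      * (tForm φ q 1 Z X * conj (sMix 1 W Y) + sMix 1 Z X * conj (tForm φ q 1 W Y))

lemma Adapted.curvTensor_eq (h : Adapted φ q w d1 d2) (hb : 0 < b) (hd1 : 0 ≤ d1) (hd2 : 0 ≤ d2)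
    (hpos : PosNear b φ q) (Z X W Y : C3) :
    curvTensor (modelPot b fun r => φ (zc r)) q Z X W Y = tensorAt φ q b w d1 d2 Z X W Y := by
  have hΨ := contDiffOn_base h.smooth
  obtain ⟨hk, hu, hc⟩ := at_values (Ψ := fun r => φ (zc r)) h.q2 h.val h.wlt
  have hcy := modelDom_subset _ h.mem
  rw [curvTensor, h.gamma_eq hb.le hd1 hd2 hpos, h.gamma_eq hb.le hd1 hd2 hpos, h.herm_at,
    show modelPot b (fun r => φ (zc r)) = fun r => ballPot r + b * fibPot (fun s => φ (zc s)) r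
    from rfl, fourth_add_mul (isOpen_modelDom hΨ) (contDiffOn_ballPot.mono (modelDom_subset _))
      (contDiffOn_fibPot hΨ) b Z X W Y h.mem]
  beta_reduce
  rw [(ballPot_at h.q0 h.q1 Z X W Y).2.2, fibPot_fourth_at hΨ h.mem h.q2 h.first h.second Z X W Y]
  rw [fourth_base h.smooth hcy Z X W Y]
  have ht : ∀ A B D : C3, third (fun r => φ (zc r)) A B D q
      = conj (D 0) * tForm φ q 0 A B + conj (D 1) * tForm φ q 1 A B := fun A B D => by
    rw [third_base h.smooth hcy A B D, Fin.sum_univ_two]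
    rfl
  rw [ht Z X Y, ht Z X W, ht W Y X, ht W Y Z]
  simp only [h.levi]
  rw [hk, hu, hc]
  have h0 : (hAt b w d1 d2 0 : ℂ) ≠ 0 :=
    Complex.ofReal_ne_zero.2 (hAt_pos hb.le h.wlt hd1 hd2 0).ne'
  have h1 : (hAt b w d1 d2 1 : ℂ) ≠ 0 :=
    Complex.ofReal_ne_zero.2 (hAt_pos hb.le h.wlt hd1 hd2 1).ne'
  have hbc : (b : ℂ) ≠ 0 := Complex.ofReal_ne_zero.2 hb.ne'
  simp only [gammaAt, Matrix.cons_val_zero, Matrix.cons_val_one, Matrix.cons_val, tensorAt]
  generalize (∑ k : Fin 2, ∑ l : Fin 2, ∑ m : Fin 2, ∑ n : Fin 2, jet4 φ q k l m n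
    * Z k.castSucc * X l.castSucc * conj (W m.castSucc) * conj (Y n.castSucc)) = R
  simp only [sMix, Fin.castSucc_zero, show (Fin.castSucc (1 : Fin 2)) = (1 : Fin 3) from rfl,
    map_add, map_mul, map_div₀, Complex.conj_conj, Complex.conj_ofReal]
  generalize tForm φ q 0 Z X = A0
  generalize tForm φ q 1 Z X = A1
  generalize conj (tForm φ q 0 W Y) = B0
  generalize conj (tForm φ q 1 W Y) = B1
  have hw : ((1 : ℂ) - (w : ℂ) ^ 2) ≠ 0 := by
    rw [← Complex.ofReal_one, ← Complex.ofReal_pow, ← Complex.ofReal_sub, Complex.ofReal_ne_zero]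
    exact (sub_pos.2 h.wlt).ne'
  simp only [cAt, uAt, Complex.ofReal_mul, Complex.ofReal_div, Complex.ofReal_sub,
    Complex.ofReal_add, Complex.ofReal_pow, Complex.ofReal_one, Complex.ofReal_ofNat]
  have e0 : (hAt b w d1 d2 0 : ℂ) = ((1 - (w : ℂ) ^ 2) + b * w ^ 2 * d1) / (1 - (w : ℂ) ^ 2) := by
    simp only [hAt, uAt, if_true]; push_cast; field_simp
  have e1 : (hAt b w d1 d2 1 : ℂ) = ((1 - (w : ℂ) ^ 2) + b * w ^ 2 * d2) / (1 - (w : ℂ) ^ 2) := by
    simp only [hAt, uAt, Fin.one_eq_zero_iff, OfNat.ofNat_ne_one, if_false]; push_cast; field_simp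
  rw [e0] at h0 ⊢
  rw [e1] at h1 ⊢
  have h0' := (div_ne_zero_iff.1 h0).1
  have h1' := (div_ne_zero_iff.1 h1).1
  field_simp
  ring

end Vale.BDU
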