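import Vale.Agent.BDU.Transform
import Vale.Agent.BDU.PointTensor
import Vale.Agent.BDU.Ball

/-!
# P250: an adapted chart at every point of the domain
-/

open scoped ContDiff
open ComplexConjugate Filter Topology

namespace Vale.BDU

/-- The inclusion of the base. -/
noncomputable def lift : V2 →L[ℂ] C3 :=
  LinearMap.toContinuousLinearMap
    { toFun := fun v => ![v 0, v 1, 0]
      map_add' := fun x y => by ext i; fin_cases i <;> simp
      map_smul' := fun c x => by ext i; fin_cases i <;> simp }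

lemma lift_apply (v : V2) : lift v = ![v 0, v 1, 0] := rfl

@[simp] lemma zc_lift (v : V2) : zc (lift v) = v := by
  ext i
  fin_cases i <;> simp [zc, lift_apply]

lemma norm_zc_le (r : C3) : ‖zc r‖ ≤ 2 * ‖r‖ := by
  have h : ‖zc r‖ ^ 2 ≤ (2 * ‖r‖) ^ 2 := by
    rw [EuclideanSpace.norm_sq_eq, Fin.sum_univ_two]
    have h0 := norm_le_pi_norm r 0
    have h1 := norm_le_pi_norm r 1
    simp only [zc, Matrix.cons_val_zero, Matrix.cons_val_one]
    nlinarith [norm_nonneg (r 0), norm_nonneg (r 1), norm_nonneg r]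
  exact abs_le_of_sq_le_sq' h (by positivity) |>.2

/-- `U ∘ zc`, over the reals. -/
noncomputable def baseMap (U : V2 ≃ₗᵢ[ℂ] V2) : C3 →L[ℝ] V2 :=
  ((U.toContinuousLinearEquiv : V2 →L[ℂ] V2).comp zcL).restrictScalars ℝ

@[simp] lemma baseMap_apply (U : V2 ≃ₗᵢ[ℂ] V2) (r : C3) : baseMap U r = U (zc r) := rfl

lemma norm_baseMap_le (U : V2 ≃ₗᵢ[ℂ] V2) : ‖baseMap U‖ ≤ 2 :=
  ContinuousLinearMap.opNorm_le_bound _ zero_le_two fun r => by
    rw [baseMap_apply, LinearIsometryEquiv.norm_map]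
    exact norm_zc_le r

variable {f : V2 → ℝ} {G : C3 → ℂ} {r : C3}

lemma mem_ball2_of_cyl (U : V2 ≃ₗᵢ[ℂ] V2) (hr : r ∈ cyl) : U (zc r) ∈ ball2 := by
  rw [mem_ball_zero_iff, LinearIsometryEquiv.norm_map]
  exact (mem_cyl_iff r).1 hr

lemma contDiffOn_baseFun (hf : ContDiffOn ℝ ∞ f ball2) (U : V2 ≃ₗᵢ[ℂ] V2) :
    ContDiffOn ℝ ∞ (fun v => f (U v)) ball2 :=
  hf.comp (((U.toContinuousLinearEquiv : V2 →L[ℂ] V2).restrictScalars ℝ).contDiff.contDiffOn)
    fun v hv => by simpa [mem_ball_zero_iff] using hv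

lemma iterated_baseMap (hf : ContDiffOn ℝ ∞ f ball2) (U : V2 ≃ₗᵢ[ℂ] V2) (hr : r ∈ cyl) (n : ℕ) :
    iteratedFDeriv ℝ n (fun s => f (U (zc s))) r =
      (iteratedFDeriv ℝ n f (U (zc r))).compContinuousLinearMap fun _ => baseMap U := by
  have hopen : IsOpen (baseMap U ⁻¹' ball2) :=
    Metric.isOpen_ball.preimage (baseMap U).continuous
  have hz := mem_ball2_of_cyl U hr
  have h := (baseMap U).iteratedFDerivWithin_comp_right hf Metric.isOpen_ball.uniqueDiffOn
    hopen.uniqueDiffOn (x := r) hz (i := n) (WithTop.coe_le_coe.2 le_top)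
  simp only [baseMap_apply] at h
  rw [iteratedFDerivWithin_of_isOpen n Metric.isOpen_ball hz,
    iteratedFDerivWithin_of_isOpen n hopen (x := r) hz] at h
  exact h

lemma norm_iterated_baseMap (hf : ContDiffOn ℝ ∞ f ball2) (U : V2 ≃ₗᵢ[ℂ] V2) (hr : r ∈ cyl)
    (n : ℕ) : ‖iteratedFDeriv ℝ n (cplx fun s => f (U (zc s))) r‖
      ≤ 2 ^ n * ‖iteratedFDeriv ℝ n f (U (zc r))‖ := by
  have hd : ContDiffAt ℝ ∞ (fun s => f (U (zc s))) r :=
    (hf.contDiffAt (Metric.isOpen_ball.mem_nhds (mem_ball2_of_cyl U hr))).comp r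
      (baseMap U).contDiff.contDiffAt
  refine (Complex.ofRealCLM.norm_iteratedFDeriv_comp_left hd (WithTop.coe_le_coe.2 le_top)).trans ?_
  rw [Complex.ofRealCLM_norm, one_mul, iterated_baseMap hf U hr]
  refine (ContinuousMultilinearMap.norm_compContinuousLinearMap_le _ _).trans ?_
  rw [Finset.prod_const, Finset.card_univ, Fintype.card_fin, mul_comm]
  exact mul_le_mul_of_nonneg_right (pow_le_pow_left₀ (norm_nonneg _) (norm_baseMap_le U) n)
    (norm_nonneg _)

lemma norm_jmap_smul (Z : C3) : ‖Complex.I • Z‖ = ‖Z‖ := by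
  rw [norm_smul, Complex.norm_I, one_mul]

lemma norm_iterated_wirtinger (hG : ContDiffOn ℝ ∞ G cyl) (hr : r ∈ cyl) (X : C3) (n : ℕ) :
    ‖iteratedFDeriv ℝ n (pd X G) r‖ ≤ ‖X‖ * ‖iteratedFDeriv ℝ (n + 1) G r‖ ∧
      ‖iteratedFDeriv ℝ n (pb X G) r‖ ≤ ‖X‖ * ‖iteratedFDeriv ℝ (n + 1) G r‖ := by
  have hd : ContDiffAt ℝ ∞ (fderiv ℝ G) r :=
    (hG.fderiv_of_isOpen isOpen_cyl (by simp)).contDiffAt (isOpen_cyl.mem_nhds hr)
  have key : ∀ (c : ℂ), ‖c‖ ≤ 1 → ∀ f' : C3 → ℂ,
      (∀ s, f' s = (1 / 2) * (fderiv ℝ G s X + c * fderiv ℝ G s (Complex.I • X))) →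
      ‖iteratedFDeriv ℝ n f' r‖ ≤ ‖X‖ * ‖iteratedFDeriv ℝ (n + 1) G r‖ := by
    intro c hc f' hf'
    set L : (C3 →L[ℝ] ℂ) →L[ℝ] ℂ := (1 / 2 : ℂ) •
      (ContinuousLinearMap.apply ℝ ℂ X + c • ContinuousLinearMap.apply ℝ ℂ (Complex.I • X))
    have hL : ‖L‖ ≤ ‖X‖ := ContinuousLinearMap.opNorm_le_bound _ (norm_nonneg _) fun A => by
      have h1 : L A = (1 / 2 : ℂ) * (A X + c * A (Complex.I • X)) := rfl
      have h2 := A.le_opNorm X
      have h3 := A.le_opNorm (Complex.I • X)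
      rw [norm_jmap_smul] at h3
      have h4 : ‖c * A (Complex.I • X)‖ ≤ ‖A‖ * ‖X‖ := by
        rw [norm_mul]
        exact (mul_le_of_le_one_left (norm_nonneg _) hc).trans h3
      rw [h1, norm_mul]
      have h5 := norm_add_le (A X) (c * A (Complex.I • X))
      have h6 : ‖(1 / 2 : ℂ)‖ = 1 / 2 := by norm_num
      rw [h6]
      linarith
    have e : f' = fun s => L (fderiv ℝ G s) := funext fun s => hf' s
    rw [e]
    refine (L.norm_iteratedFDeriv_comp_left hd (WithTop.coe_le_coe.2 le_top)).trans ?_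
    rw [norm_iteratedFDeriv_fderiv]
    exact mul_le_mul_of_nonneg_right hL (norm_nonneg _)
  exact ⟨key (-Complex.I) (by simp) _ fun s => by simp only [pd]; ring,
    key Complex.I (by simp) _ fun s => rfl⟩

variable {P : C3 → ℝ}

lemma norm_herm_le (hP : ContDiffOn ℝ ∞ P cyl) (hr : r ∈ cyl) (X Y : C3) :
    ‖herm P X Y r‖ ≤ ‖X‖ * ‖Y‖ * ‖iteratedFDeriv ℝ 2 (cplx P) r‖ := by
  have hc := contDiffOn_cplx hP
  have h1 := (norm_iterated_wirtinger (contDiffOn_pb isOpen_cyl hc Y) hr X 0).1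
  rw [norm_iteratedFDeriv_zero] at h1
  refine h1.trans ?_
  rw [mul_assoc]
  exact mul_le_mul_of_nonneg_left (norm_iterated_wirtinger hc hr Y 1).2 (norm_nonneg _)

lemma norm_third_le (hP : ContDiffOn ℝ ∞ P cyl) (hr : r ∈ cyl) (Z X Y : C3) :
    ‖third P Z X Y r‖ ≤ ‖Z‖ * ‖X‖ * ‖Y‖ * ‖iteratedFDeriv ℝ 3 (cplx P) r‖ := by
  have hc := contDiffOn_cplx hP
  have h1 := (norm_iterated_wirtinger (contDiffOn_herm isOpen_cyl hP X Y) hr Z 0).1
  rw [norm_iteratedFDeriv_zero] at h1
  refine h1.trans ?_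
  simp only [mul_assoc]
  refine mul_le_mul_of_nonneg_left ?_ (norm_nonneg _)
  refine ((norm_iterated_wirtinger (contDiffOn_pb isOpen_cyl hc Y) hr X 1).1).trans ?_
  exact mul_le_mul_of_nonneg_left (norm_iterated_wirtinger hc hr Y 2).2 (norm_nonneg _)

lemma norm_fourth_le (hP : ContDiffOn ℝ ∞ P cyl) (hr : r ∈ cyl) (Z X W Y : C3) :
    ‖fourth P Z X W Y r‖ ≤ ‖Z‖ * ‖X‖ * ‖W‖ * ‖Y‖ * ‖iteratedFDeriv ℝ 4 (cplx P) r‖ := by
  have hc := contDiffOn_cplx hP
  have h1 := (norm_iterated_wirtinger (contDiffOn_third isOpen_cyl hP Z X Y) hr W 0).2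
  rw [norm_iteratedFDeriv_zero] at h1
  refine h1.trans ?_
  have h2 : ‖iteratedFDeriv ℝ (0 + 1) (third P Z X Y) r‖
      ≤ ‖Z‖ * (‖X‖ * (‖Y‖ * ‖iteratedFDeriv ℝ 4 (cplx P) r‖)) := by
    refine ((norm_iterated_wirtinger (contDiffOn_herm isOpen_cyl hP X Y) hr Z 1).1).trans ?_
    refine mul_le_mul_of_nonneg_left ?_ (norm_nonneg _)
    refine ((norm_iterated_wirtinger (contDiffOn_pb isOpen_cyl hc Y) hr X 2).1).trans ?_
    exact mul_le_mul_of_nonneg_left (norm_iterated_wirtinger hc hr Y 3).2 (norm_nonneg _)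
  refine (mul_le_mul_of_nonneg_left h2 (norm_nonneg W)).trans (le_of_eq ?_)
  ring

lemma herm_baseMap (hf : ContDiffOn ℝ ∞ f ball2) (U : V2 ≃ₗᵢ[ℂ] V2) (hr : r ∈ cyl) (X Y : C3) :
    herm (fun s => f (U (zc s))) X Y r =
      herm (fun s => f (zc s)) (lift (U (zc X))) (lift (U (zc Y))) (lift (U (zc r))) := by
  set A : C3 →L[ℂ] C3 := lift.comp ((U.toContinuousLinearEquiv : V2 →L[ℂ] V2).comp zcL)
  have hA : ∀ s, A s = lift (U (zc s)) := fun s => rfl
  have e : (fun s => f (U (zc s))) = fun s => (fun t => f (zc t)) (A s) := by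
    funext s; simp [hA]
  rw [e, herm_comp (F := A) isOpen_cyl isOpen_cyl (contDiffOn_base hf) A.contDiff.contDiffOn
    (fun s hs => (mem_cyl_iff _).2 (by
      rw [hA, zc_lift, ← mem_ball_zero_iff]; exact mem_ball2_of_cyl U hs)) hr]
  simp only [dfield, ContinuousLinearMap.fderiv, hA]

/-- A unitary change of the base coordinates diagonalising the Levi form at the centre. -/
lemma exists_diag (hf : ContDiffOn ℝ ∞ f ball2) :
    ∃ (U : V2 ≃ₗᵢ[ℂ] V2) (μ : Fin 2 → ℝ), ∀ r : C3, zc r = 0 → ∀ X Y : C3,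
      herm (fun s => f (U (zc s))) X Y r
        = μ 0 * X 0 * conj (Y 0) + μ 1 * X 1 * conj (Y 1) := by
  set H : V2 → V2 → ℂ := fun v w => herm (fun s => f (zc s)) (lift v) (lift w) 0
  have h0 : (0 : C3) ∈ cyl := by simp [cyl, baseSq]
  have hfs := contDiffOn_base hf
  have hadd : ∀ u v w, H (u + v) w = H u w + H v w := fun u v w => by
    simp only [H, map_add, herm_add_left]
  have hsmul : ∀ (c : ℂ) v w, H (c • v) w = c * H v w := fun c v w => by
    simp only [H, map_smul, herm_smul_left]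
  have haddr : ∀ u v w, H u (v + w) = H u v + H u w := fun u v w => by
    simp only [H, map_add]; exact herm_add_right isOpen_cyl hfs _ _ _ h0
  have hsmulr : ∀ (c : ℂ) v w, H v (c • w) = conj c * H v w := fun c v w => by
    simp only [H, map_smul]; exact herm_smul_right isOpen_cyl hfs _ _ c h0
  let T : V2 →ₗ[ℂ] V2 :=
    { toFun := fun v => WithLp.toLp 2 fun i => H v (EuclideanSpace.single i 1)
      map_add' := fun u v => by ext i; simp [hadd]
      map_smul' := fun c v => by ext i; simp [hsmul] }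
  have hdec : ∀ w : V2, w = w 0 • EuclideanSpace.single 0 1 + w 1 • EuclideanSpace.single 1 1 :=
    fun w => by ext i; fin_cases i <;> simp
  have hinner : ∀ v w, inner ℂ w (T v) = H v w := by
    intro v w
    conv_rhs => rw [hdec w, haddr, hsmulr, hsmulr]
    simp [PiLp.inner_apply, Fin.sum_univ_two, T]
    ring
  have hT : T.IsSymmetric := fun v w => by
    rw [← inner_conj_symm, hinner, hinner]
    exact conj_herm isOpen_cyl hfs (lift v) (lift w) h0
  have hn : Module.finrank ℂ V2 = 2 := by simp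
  set b := hT.eigenvectorBasis hn
  refine ⟨b.repr.symm, hT.eigenvalues hn, fun r hr X Y => ?_⟩
  have hb : ∀ i j, H (b i) (b j) = if j = i then (hT.eigenvalues hn i : ℂ) else 0 := by
    intro i j
    rw [← hinner, hT.apply_eigenvectorBasis hn i, inner_smul_right,
      orthonormal_iff_ite.1 b.orthonormal j i]
    split_ifs <;> simp
  have hU : ∀ Z : C3, b.repr.symm (zc Z) = Z 0 • b 0 + Z 1 • b 1 := fun Z => by
    rw [hdec (zc Z), map_add, map_smul, map_smul, OrthonormalBasis.repr_symm_single,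
      OrthonormalBasis.repr_symm_single]
    simp [zc]
  rw [herm_baseMap hf _ ((mem_cyl_iff r).2 (by simp [hr])), hr, map_zero, map_zero]
  show H (b.repr.symm (zc X)) (b.repr.symm (zc Y)) = _
  simp only [hU, hadd, haddr, hsmul, hsmulr, hb]
  simp
  ring

lemma leviQ_le_herm (hf : ContDiffOn ℝ ∞ f ball2) (U : V2 ≃ₗᵢ[ℂ] V2) (hr : r ∈ cyl) (X : C3) :
    (herm (fun s => f (U (zc s))) X X r).re = leviQ f (U (zc r)) (U (zc X)) / 4 := by
  have hs : ContDiffOn ℝ ∞ (fun s => f (U (zc s))) cyl :=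
    contDiffOn_base (contDiffOn_baseFun hf U)
  rw [herm_re isOpen_cyl hs hr, metricOf_apply]
  have e : ∀ A : C3, fderiv ℝ (fderiv ℝ fun s => f (U (zc s))) r A A
      = fderiv ℝ (fderiv ℝ f) (U (zc r)) (U (zc A)) (U (zc A)) := fun A => by
    have h := congrArg (fun T => T ![A, A]) (iterated_baseMap hf U hr 2)
    simp only [iteratedFDeriv_two_apply, ContinuousMultilinearMap.compContinuousLinearMap_apply,
      Matrix.cons_val_zero, Matrix.cons_val_one, baseMap_apply] at h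
    exact h
  have hI : U (zc (Complex.I • X)) = Complex.I • U (zc X) := by
    rw [← zcL_apply, map_smul, map_smul, zcL_apply]
  rw [e, e, hI, leviQ]
  ring

/-- The quadratic polynomial removing the second-order jet. -/
noncomputable def ell (c : ℂ) (a : Fin 2 → ℂ) (m : Fin 2 → Fin 2 → ℂ) (r : C3) : ℂ :=
  c + (a 0 * r 0 + a 1 * r 1) +
    (m 0 0 * (r 0 * r 0) + (m 0 1 + m 1 0) * (r 0 * r 1) + m 1 1 * (r 1 * r 1))

/-- Its differential. -/
noncomputable def ellD (a : Fin 2 → ℂ) (m : Fin 2 → Fin 2 → ℂ) (X r : C3) : ℂ :=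
  a 0 * X 0 + a 1 * X 1 + (m 0 0 * (2 * X 0 * r 0) + (m 0 1 + m 1 0) * (X 0 * r 1 + r 0 * X 1)
    + m 1 1 * (2 * X 1 * r 1))

/-- Twice its real part. -/
noncomputable def ellRe (c : ℂ) (a : Fin 2 → ℂ) (m : Fin 2 → Fin 2 → ℂ) (r : C3) : ℝ :=
  2 * (ell c a m r).re

variable {c : ℂ} {a : Fin 2 → ℂ} {m : Fin 2 → Fin 2 → ℂ}

lemma hw_ell (r : C3) : HW (ell c a m) r (fun X => ellD a m X r) (fun _ => 0) :=
  (((hw_const c).add (((hw_const (a 0)).mul (hw_coord 0)).add
      ((hw_const (a 1)).mul (hw_coord 1)))).add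
    ((((hw_const (m 0 0)).mul ((hw_coord 0).mul (hw_coord 0))).add
      ((hw_const (m 0 1 + m 1 0)).mul ((hw_coord 0).mul (hw_coord 1)))).add
        ((hw_const (m 1 1)).mul ((hw_coord 1).mul (hw_coord 1))))).congr_val
    (fun X => by simp only [ellD]; ring) (fun _ => by ring)

lemma hw_ellD (X r : C3) :
    HW (ellD a m X) r (fun Z => m 0 0 * (2 * X 0 * Z 0)
      + (m 0 1 + m 1 0) * (X 0 * Z 1 + Z 0 * X 1) + m 1 1 * (2 * X 1 * Z 1)) (fun _ => 0) :=
  ((((hw_const (a 0)).mul (hw_const (X 0))).add ((hw_const (a 1)).mul (hw_const (X 1)))).add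
    ((((hw_const (m 0 0)).mul (((hw_const 2).mul (hw_const (X 0))).mul (hw_coord 0))).add
      ((hw_const (m 0 1 + m 1 0)).mul
        (((hw_const (X 0)).mul (hw_coord 1)).add ((hw_coord 0).mul (hw_const (X 1)))))).add
      ((hw_const (m 1 1)).mul (((hw_const 2).mul (hw_const (X 1))).mul (hw_coord 1))))).congr_val
    (fun Z => by ring) (fun _ => by ring)

lemma hw_ellRe (r : C3) :
    HW (cplx (ellRe c a m)) r (fun X => ellD a m X r) (fun Y => conj (ellD a m Y r)) :=
  (((hw_ell (c := c) (a := a) (m := m) r).add (hw_ell (c := c) (a := a) (m := m) r).conj).congr_val (fun X => by simp) (fun Y => by simp)).congr_fun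
    (Eventually.of_forall fun s => by
      simp only [cplx, ellRe, Complex.add_conj])

lemma herm_ellRe (X Y r : C3) : herm (ellRe c a m) X Y r = 0 := by
  have e : pb Y (cplx (ellRe c a m)) = fun s => conj (ellD a m Y s) :=
    funext fun s => (hw_ellRe s).pb_eq Y
  show pd X (pb Y (cplx (ellRe c a m))) r = 0
  rw [e, (hw_ellD Y r).conj.pd_eq]
  simp

lemma contDiff_ell {𝕜 : Type*} [NontriviallyNormedField 𝕜] [NormedAlgebra 𝕜 ℂ] :
    ContDiff 𝕜 ∞ (ell c a m) := by
  unfold ell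
  have h : ∀ i : Fin 3, ContDiff 𝕜 ∞ fun r : C3 => r i := fun i => contDiff_apply 𝕜 ℂ i
  exact (contDiff_const.add ((contDiff_const.mul (h 0)).add (contDiff_const.mul (h 1)))).add
    (((contDiff_const.mul ((h 0).mul (h 0))).add (contDiff_const.mul ((h 0).mul (h 1)))).add
      (contDiff_const.mul ((h 1).mul (h 1))))

lemma contDiff_ellRe : ContDiff ℝ ∞ (ellRe c a m) :=
  contDiff_const.mul (Complex.reCLM.contDiff.comp contDiff_ell)

lemma contDiffOn_ballMapC {a : V2} (ha : a ∈ ball2) : ContDiffOn ℂ ∞ (ballMap a) ball2 := by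
  have hi : ContDiff ℂ ∞ fun z : V2 => inner ℂ a z := (innerSL ℂ a).contDiff
  exact ((contDiff_const.sub hi).contDiffOn.inv fun z hz =>
      one_sub_inner_ne (norm_mul_norm_lt ha (mem_ball_zero_iff.1 hz).le)).smul
    ((contDiff_const.sub (contDiff_id.const_smul (defect a : ℂ))).sub
      (((hi.div_const _)).smul contDiff_const)).contDiffOn

lemma fderiv_ballMap_injective {a : V2} (ha : a ∈ ball2) :
    Function.Injective (fderiv ℂ (ballMap a) 0) := by
  have hd : ∀ z ∈ ball2, DifferentiableAt ℂ (ballMap a) z := fun z hz =>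
    (differentiableOn_ballMap_ball ha).differentiableAt (Metric.isOpen_ball.mem_nhds hz)
  have h0 : (0 : V2) ∈ ball2 := Metric.mem_ball_self one_pos
  have h2 := (hd _ (ballMap_mem ha h0)).hasFDerivAt.comp 0 (hd _ h0).hasFDerivAt
  have h3 : HasFDerivAt (ballMap a ∘ ballMap a) (ContinuousLinearMap.id ℂ V2) 0 :=
    (hasFDerivAt_id 0).congr_of_eventuallyEq (eventuallyEq_of_mem
      (Metric.isOpen_ball.mem_nhds h0) fun z hz =>
        ballMap_ballMap ha (mem_ball_zero_iff.1 hz).le)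
  intro x y hxy
  have h4 := DFunLike.congr_fun (h2.unique h3) x
  have h5 := DFunLike.congr_fun (h2.unique h3) y
  simp only [ContinuousLinearMap.comp_apply, ContinuousLinearMap.id_apply] at h4 h5
  rw [← h4, ← h5, hxy]

/-- The chart: an automorphism of the base and a zero-free factor on the fibre. -/
noncomputable def chartMap (a : V2) (U : V2 ≃ₗᵢ[ℂ] V2) (θ : ℂ) (L : C3 → ℂ) (r : C3) : C3 :=
  lift (ballMap a (U (zc r))) + (θ * (r 2 * Complex.exp (L r))) • ev 2

lemma zc_chartMap (a : V2) (U : V2 ≃ₗᵢ[ℂ] V2) (θ : ℂ) (L : C3 → ℂ) (r : C3) :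
    zc (chartMap a U θ L r) = ballMap a (U (zc r)) := by
  simp only [← zcL_apply, chartMap, map_add, map_smul]
  simp only [zcL_apply, zc_lift, zc_ev_two, smul_zero, add_zero]

lemma chartMap_two (a : V2) (U : V2 ≃ₗᵢ[ℂ] V2) (θ : ℂ) (L : C3 → ℂ) (r : C3) :
    chartMap a U θ L r 2 = θ * (r 2 * Complex.exp (L r)) := by
  simp [chartMap, lift_apply, ev]

/-- An adapted chart at every point, with bounds not depending on the point. -/
theorem exists_adapted {ψ : V2 → ℝ} (hψ : GoodTwist ψ) :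
    ∃ K : ℝ, 1 ≤ K ∧ ∀ (b : ℝ), ∀ p0 ∈ hartogs ψ, ∃ (φ : V2 → ℝ) (F : C3 → C3) (w d1 d2 : ℝ),
      Adapted φ ![0, 0, (w : ℂ)] w d1 d2 ∧ 0 ≤ w ∧ F ![0, 0, (w : ℂ)] = p0 ∧
      ContDiffOn ℂ ∞ F (modelDom fun r => φ (zc r)) ∧
      Set.MapsTo F (modelDom fun r => φ (zc r)) (hartogs ψ) ∧
      (∀ r ∈ modelDom (fun r => φ (zc r)), ∀ X Y,
        herm (modelPot b fun r => φ (zc r)) X Y r = herm (fun s => potential b ψ (F s)) X Y r) ∧
      Function.Bijective (fderiv ℂ F ![0, 0, (w : ℂ)]) ∧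
      1 ≤ d1 ∧ d1 ≤ K ∧ 1 ≤ d2 ∧ d2 ≤ K ∧
      (∀ Z X Y, ‖third (fun r => φ (zc r)) Z X Y ![0, 0, (w : ℂ)]‖ ≤ K * ‖Z‖ * ‖X‖ * ‖Y‖) ∧
      ∀ Z X W Y, ‖fourth (fun r => φ (zc r)) Z X W Y ![0, 0, (w : ℂ)]‖
        ≤ K * ‖Z‖ * ‖X‖ * ‖W‖ * ‖Y‖ := by
  obtain ⟨hsm, hlevi, B, hB⟩ := hψ
  refine ⟨max 1 (16 * B), le_max_left _ _, fun b p0 hp0 => ?_⟩
  set α := zc p0
  have hα : α ∈ ball2 := mem_ball_zero_iff.2 hp0.1
  set f : V2 → ℝ := fun z => ψ (ballMap α z) with hfdef
  have hf : ContDiffOn ℝ ∞ f ball2 :=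
    hsm.comp ((contDiffOn_ballMapC hα).restrict_scalars ℝ) fun z hz => ballMap_mem hα hz
  have hb : ∀ n : ℕ, 1 ≤ n → n ≤ 4 → ‖iteratedFDeriv ℝ n f 0‖ ≤ B := hB α hα
  obtain ⟨U, μ, hμ⟩ := exists_diag hf
  set f1 : C3 → ℝ := fun s => f (U (zc s)) with hf1def
  have hfU := contDiffOn_baseFun hf U
  have hf1 : ContDiffOn ℝ ∞ f1 cyl := contDiffOn_base hfU
  -- the fibre coordinate
  set w : ℝ := ‖p0 2‖ * Real.exp (f 0 / 2) with hwdef
  set q : C3 := ![0, 0, (w : ℂ)] with hqdef
  have hzq : zc q = 0 := by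
    ext i; fin_cases i <;> simp [zc, hqdef]
  have hq0 : U (zc q) = 0 := by rw [hzq, map_zero]
  have hqc : q ∈ cyl := (mem_cyl_iff q).2 (by simp [hzq])
  -- the jet to remove
  set c : ℂ := -((f 0 : ℂ) / 2)
  set a : Fin 2 → ℂ := fun i => -pd (ev i.castSucc) (cplx f1) q
  set m : Fin 2 → Fin 2 → ℂ :=
    fun i j => -(pd (ev i.castSucc) (pd (ev j.castSucc) (cplx f1)) q / 2)
  set φ : V2 → ℝ := fun v => f (U v) + ellRe c a m (lift v) with hφdef
  have hφ : ContDiffOn ℝ ∞ φ ball2 :=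
    hfU.add (contDiff_ellRe.comp (lift.restrictScalars ℝ).contDiff).contDiffOn
  have hΨ : (fun r => φ (zc r)) = fun r => f1 r + 1 * ellRe c a m r := by
    funext r
    have : ell c a m (lift (zc r)) = ell c a m r := by simp [ell, lift_apply, zc]
    simp [hφdef, hf1def, ellRe, this]
  have hhe : ∀ X Y, Set.EqOn (herm (fun r => φ (zc r)) X Y) (herm f1 X Y) cyl := by
    intro X Y r hr
    rw [hΨ, herm_add_mul isOpen_cyl hf1 contDiff_ellRe.contDiffOn 1 X Y hr]
    simp [herm_ellRe]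
  have hth : ∀ Z X Y, Set.EqOn (third (fun r => φ (zc r)) Z X Y) (third f1 Z X Y) cyl :=
    fun Z X Y => pd_congr_on isOpen_cyl (hhe X Y) Z
  have hfo : ∀ Z X W Y, Set.EqOn (fourth (fun r => φ (zc r)) Z X W Y) (fourth f1 Z X W Y) cyl :=
    fun Z X W Y => pb_congr_on isOpen_cyl (hth Z X Y) W
  -- first and second derivatives
  have hvert : ∀ r ∈ cyl, pd (ev 2) (cplx f1) r = 0 := fun r hr => pd_base_vert hfU hr
  have hexp : ∀ X, Set.EqOn (pd X (cplx f1))
      (fun r => X 0 * pd (ev 0) (cplx f1) r + X 1 * pd (ev 1) (cplx f1) r) cyl := fun X r hr => by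
    conv_lhs => rw [ev_decomp X]
    simp only [pd_add, pd_smul, hvert r hr, mul_zero, add_zero]
  have hdiff : ∀ X, ∀ r ∈ cyl, DifferentiableAt ℝ (pd X (cplx f1)) r := fun X r hr =>
    differentiableAt_of_contDiffOn isOpen_cyl
      (contDiffOn_pd isOpen_cyl (contDiffOn_cplx hf1) X) hr
  have hpd : ∀ X, Set.EqOn (pd X (cplx fun r => φ (zc r)))
      (fun r => pd X (cplx f1) r + ellD a m X r) cyl := fun X r hr => by
    have e : cplx (fun s => φ (zc s)) = fun s => cplx f1 s + cplx (ellRe c a m) s := by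
      rw [hΨ]; funext s; simp [cplx]
    rw [e]
    exact ((hw_self (differentiableAt_of_contDiffOn isOpen_cyl (contDiffOn_cplx hf1) hr)).add
      (hw_ellRe r)).pd_eq X
  have hsym : pd (ev 0) (pd (ev 1) (cplx f1)) q = pd (ev 1) (pd (ev 0) (cplx f1)) q :=
    pd_pd_comm isOpen_cyl (contDiffOn_cplx hf1) _ _ hqc
  have hcast : (Fin.castSucc (1 : Fin 2)) = (1 : Fin 3) := rfl
  have hfirst : ∀ X, pd X (cplx fun r => φ (zc r)) q = 0 := fun X => by
    rw [hpd X hqc]
    beta_reduce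
    rw [hexp X hqc]
    simp only [ellD, a, hqdef, Fin.castSucc_zero, hcast, Matrix.cons_val_zero,
      Matrix.cons_val_one]
    ring
  have hsecond : ∀ Z X, pd Z (pd X (cplx fun r => φ (zc r))) q = 0 := fun Z X => by
    rw [pd_congr_on isOpen_cyl (hpd X) Z hqc, ((hw_self (hdiff X q hqc)).add (hw_ellD X q)).pd_eq,
      pd_congr_on isOpen_cyl (hexp X) Z hqc]
    rw [(((hw_self (hdiff (ev 0) q hqc)).const_mul (X 0)).add
      ((hw_self (hdiff (ev 1) q hqc)).const_mul (X 1))).pd_eq]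
    have e2 : ∀ i, pd (ev 2) (pd (ev i) (cplx f1)) q = 0 := fun i => by
      rw [pd_pd_comm isOpen_cyl (contDiffOn_cplx hf1) _ _ hqc,
        pd_congr_on isOpen_cyl (g := fun _ => (0 : ℂ)) hvert _ hqc]
      simp [pd]
    conv_lhs => rw [ev_decomp Z]
    simp only [pd_add, pd_smul, e2, m, Fin.castSucc_zero, hcast, hsym]
    simp [ev]
    ring
  have hval : φ (zc q) = 0 := by
    rw [hzq]
    simp [hφdef, ellRe, ell, c, lift_apply]
    ring
  -- the bounds
  have hbound : ∀ n : ℕ, 1 ≤ n → n ≤ 4 →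
      ‖iteratedFDeriv ℝ n (cplx f1) q‖ ≤ max 1 (16 * B) := fun n h1 h4 => by
    refine (norm_iterated_baseMap hf U hqc n).trans (le_trans ?_ (le_max_right _ _))
    rw [hq0]
    exact mul_le_mul (le_trans (pow_le_pow_right₀ one_le_two h4) (by norm_num)) (hb n h1 h4)
      (norm_nonneg _) (by norm_num)
  have hd : ∀ i : Fin 2, 1 ≤ μ i ∧ μ i ≤ max 1 (16 * B) := by
    intro i
    have h1 : herm f1 (ev i.castSucc) (ev i.castSucc) q = μ i := by
      rw [hμ q hzq]
      fin_cases i <;> simp [ev]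
    constructor
    · have h2 := leviQ_le_herm hf U hqc (ev i.castSucc)
      rw [← hf1def, h1, hq0, Complex.ofReal_re] at h2
      have h3 := hlevi α hα (U (zc (ev i.castSucc)))
      have h4 : ‖zc (ev i.castSucc)‖ = 1 := by
        rw [EuclideanSpace.norm_eq, Fin.sum_univ_two]
        fin_cases i <;> simp [zc, ev]
      rw [LinearIsometryEquiv.norm_map, h4] at h3
      linarith
    · have h2 := norm_herm_le hf1 hqc (ev i.castSucc) (ev i.castSucc)
      rw [h1, norm_ev, one_mul, one_mul, Complex.norm_real] at h2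
      exact (le_abs_self _).trans (h2.trans (hbound 2 one_le_two (by norm_num)))
  -- the fibre
  set θ : ℂ := Complex.exp ((p0 2).arg * Complex.I)
  have hθ : ‖θ‖ = 1 := Complex.norm_exp_ofReal_mul_I _
  have hw0 : 0 ≤ w := mul_nonneg (norm_nonneg _) (Real.exp_pos _).le
  have hw1 : w ^ 2 < 1 := by
    have h := hp0.2
    rw [Complex.normSq_eq_norm_sq] at h
    rw [hwdef, mul_pow, sq (Real.exp _), ← Real.exp_add]
    convert h using 3
    simp [hfdef, α]
  set F : C3 → C3 := chartMap α U θ (ell c a m) with hFdef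
  have hFq : F q = p0 := by
    have h2 : F q 2 = p0 2 := by
      rw [hFdef, chartMap_two]
      have : ell c a m q = c := by simp [ell, hqdef]
      rw [this, show q 2 = (w : ℂ) by simp [hqdef], hwdef, Complex.ofReal_mul,
        Complex.ofReal_exp]
      calc θ * ((‖p0 2‖ : ℂ) * Complex.exp ((f 0 / 2 : ℝ) : ℂ) * Complex.exp c)
          = (‖p0 2‖ : ℂ) * θ * (Complex.exp ((f 0 / 2 : ℝ) : ℂ) * Complex.exp c) := by ring
        _ = p0 2 := by
          rw [← Complex.exp_add, Complex.norm_mul_exp_arg_mul_I]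
          simp [c]
    have hz : zc (F q) = zc p0 := by rw [hFdef, zc_chartMap, hq0, ballMap_zero]
    funext i
    fin_cases i
    · exact congrArg (fun v : V2 => v 0) hz
    · exact congrArg (fun v : V2 => v 1) hz
    · exact h2
  have hFd : ContDiffOn ℂ ∞ F cyl := by
    have hin : ContDiffOn ℂ ∞ (fun r => ballMap α (U (zc r))) cyl :=
      (contDiffOn_ballMapC hα).comp
        ((U.toContinuousLinearEquiv : V2 →L[ℂ] V2).comp zcL).contDiff.contDiffOn
        fun r hr => mem_ball2_of_cyl U hr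
    exact (lift.contDiff.comp_contDiffOn hin).add (((contDiff_const.mul ((contDiff_apply ℂ ℂ 2).mul
      (Complex.contDiff_exp.comp contDiff_ell))).smul contDiff_const).contDiffOn)
  have hfib : ∀ r, Complex.normSq (F r 2) * Real.exp (ψ (zc (F r)))
      = fibT (fun r => φ (zc r)) r := fun r => by
    rw [hFdef, chartMap_two, zc_chartMap, map_mul, map_mul, Complex.normSq_eq_norm_sq θ, hθ,
      Complex.normSq_eq_norm_sq (Complex.exp _), Complex.norm_exp, fibT]
    have : φ (zc r) = f1 r + ellRe c a m r := by rw [congrFun hΨ r]; ring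
    rw [this, Real.exp_add, ellRe, two_mul, Real.exp_add]
    simp [hf1def, hfdef]
    ring
  have hmaps : Set.MapsTo F (modelDom fun r => φ (zc r)) (hartogs ψ) := fun r hr => by
    refine ⟨?_, (hfib r).trans_lt hr.2⟩
    rw [hFdef, zc_chartMap, ← mem_ball_zero_iff]
    exact ballMap_mem hα (mem_ball2_of_cyl U hr.1)
  refine ⟨φ, F, w, μ 0, μ 1, ⟨hφ, by simp, by simp, by simp, hw1, hval, hfirst, hsecond,
    fun X Y => (hhe X Y hqc).trans (hμ q hzq X Y)⟩, hw0, hFq, hFd.mono (modelDom_subset _),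
    hmaps, ?_, ?_, (hd 0).1, (hd 0).2, (hd 1).1, (hd 1).2, fun Z X Y => ?_, fun Z X W Y => ?_⟩
  · -- the potential changes by a pluriharmonic function
    set hh : C3 → ℂ := fun r => 1 - inner ℂ α (U (zc r))
    set kk : C3 → ℂ := fun Y => -inner ℂ α (U (zc Y))
    set Gf : C3 → ℝ := fun r => -Real.log (1 - ‖α‖ ^ 2) + Real.log (Complex.normSq (hh r))
    have hne : ∀ r ∈ cyl, hh r ≠ 0 := fun r hr =>
      one_sub_inner_ne (norm_mul_norm_lt hα (mem_ball_zero_iff.1 (mem_ball2_of_cyl U hr)).le)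
    have hhd : ∀ r, HasFDerivAt hh
        (-((innerSL ℂ α).comp ((U.toContinuousLinearEquiv : V2 →L[ℂ] V2).comp zcL))) r :=
      fun r => (((innerSL ℂ α).comp
        ((U.toContinuousLinearEquiv : V2 →L[ℂ] V2).comp zcL)).hasFDerivAt (x := r)).const_sub 1
    have hhw : ∀ r, HW hh r kk (fun _ => 0) := fun r =>
      (hw_hol (hhd r).differentiableAt).congr_val
        (fun Z => by rw [(hhd r).fderiv]; rfl) (fun _ => rfl)
    have hpG : ∀ Y, Set.EqOn (pb Y (cplx Gf)) (fun r => conj (kk Y * (hh r)⁻¹)) cyl := by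
      intro Y r hr
      have hn : HW (cplx fun s => Complex.normSq (hh s)) r (fun Z => kk Z * conj (hh r))
          (fun W => hh r * conj (kk W)) :=
        hw_cplx_of_eq (((hhw r).mul (hhw r).conj).congr_val (fun Z => by simp) (fun W => by simp))
          fun s => (Complex.mul_conj (hh s)).symm
      have hN : Complex.normSq (hh r) ≠ 0 := fun h0 => hne r hr (Complex.normSq_eq_zero.1 h0)
      rw [(hn.comp_real ((Real.hasDerivAt_log hN).const_add _)).pb_eq]
      have hc : conj (hh r) ≠ 0 := (map_ne_zero _).2 (hne r hr)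
      have := hne r hr
      simp only [map_mul, map_inv₀, Complex.ofReal_inv, ← Complex.mul_conj]
      field_simp
    have hhs : ContDiff ℝ ∞ hh := contDiff_const.sub (((innerSL ℂ α).comp
      ((U.toContinuousLinearEquiv : V2 →L[ℂ] V2).comp zcL)).restrictScalars ℝ).contDiff
    have hcG : ContDiffOn ℝ ∞ Gf cyl := by
      refine contDiffOn_const.add (ContDiffOn.log ?_ fun r hr h0 =>
        hne r hr (Complex.normSq_eq_zero.1 h0))
      simp only [Complex.normSq_eq_norm_sq]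
      exact ((contDiff_norm_sq ℝ).comp hhs).contDiffOn
    have hΨs := contDiffOn_base hφ
    have hM := isOpen_modelDom hΨs
    have hpot : Set.EqOn (fun s => potential b ψ (F s))
        (fun s => modelPot b (fun r => φ (zc r)) s + 1 * Gf s) (modelDom fun r => φ (zc r)) := by
      intro s hs
      have hsc : s ∈ cyl := hs.1
      have hz : ‖U (zc s)‖ ≤ 1 := (mem_ball_zero_iff.1 (mem_ball2_of_cyl U hsc)).le
      have hn0 : 0 < ‖hh s‖ ^ 2 := pow_pos (norm_pos_iff.2 (hne s hsc)) 2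
      have h1a : 0 < 1 - ‖α‖ ^ 2 := by nlinarith [mem_ball_zero_iff.1 hα, norm_nonneg α]
      have h1b : 0 < 1 - ‖zc s‖ ^ 2 := by nlinarith [(mem_cyl_iff s).1 hsc, norm_nonneg (zc s)]
      show -Real.log _ - b * Real.log (1 - _) = -Real.log _ + b * -Real.log _ + 1 * (_ + _)
      rw [hfib s, hFdef, zc_chartMap, one_sub_norm_ballMap_sq hα hz, LinearIsometryEquiv.norm_map,
        baseSq_eq, Complex.normSq_eq_norm_sq (hh s)]
      rw [Real.log_div (mul_pos h1a h1b).ne' hn0.ne', Real.log_mul h1a.ne' h1b.ne']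
      ring
    intro r hr X Y
    have e : Set.EqOn (pb Y (cplx fun s => potential b ψ (F s)))
        (pb Y (cplx fun s => modelPot b (fun r => φ (zc r)) s + 1 * Gf s))
        (modelDom fun r => φ (zc r)) :=
      pb_congr_on hM (fun s hs => congrArg Complex.ofReal (hpot hs)) Y
    show _ = pd X (pb Y (cplx fun s => potential b ψ (F s))) r
    rw [pd_congr_on hM e X hr]
    show _ = herm (fun s => modelPot b (fun r => φ (zc r)) s + 1 * Gf s) X Y r
    rw [herm_add_mul hM (contDiffOn_modelPot hΨs b) (hcG.mono (modelDom_subset _)) 1 X Y hr]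
    have hz : herm Gf X Y r = 0 := by
      show pd X (pb Y (cplx Gf)) r = 0
      rw [pd_congr_on isOpen_cyl (hpG Y) X hr.1,
        ((hw_const (kk Y)).mul (hw_hol ((hhd r).differentiableAt.fun_inv (hne r hr.1)))).conj.pd_eq]
      simp
    simp [hz]
  · -- the differential is invertible
    have hFq' : DifferentiableAt ℂ F q :=
      (hFd.contDiffAt (isOpen_cyl.mem_nhds hqc)).differentiableAt (by simp)
    have hinj : Function.Injective (fderiv ℂ F q) := by
      refine (injective_iff_map_eq_zero _).2 fun Z hZ => ?_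
      have h1 : HasFDerivAt (fun r => zc (F r)) (zcL.comp (fderiv ℂ F q)) q :=
        zcL.hasFDerivAt.comp q hFq'.hasFDerivAt
      set UL : C3 →L[ℂ] V2 := (U.toContinuousLinearEquiv : V2 →L[ℂ] V2).comp zcL
      have h2 : HasFDerivAt (fun r => zc (F r)) ((fderiv ℂ (ballMap α) 0).comp UL) q := by
        have hd0 : HasFDerivAt (ballMap α) (fderiv ℂ (ballMap α) 0) (UL q) := by
          rw [show UL q = 0 from hq0]
          exact ((differentiableOn_ballMap_ball hα).differentiableAt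
            (Metric.isOpen_ball.mem_nhds (Metric.mem_ball_self one_pos))).hasFDerivAt
        exact (hd0.comp q UL.hasFDerivAt).congr_of_eventuallyEq
          (Eventually.of_forall fun r => zc_chartMap α U θ _ r)
      have h3 : fderiv ℂ (ballMap α) 0 (U (zc Z)) = 0 := by
        have := DFunLike.congr_fun (h1.unique h2) Z
        simp only [ContinuousLinearMap.comp_apply, hZ, map_zero] at this
        exact this.symm
      have h4 : zc Z = 0 := U.injective
        ((fderiv_ballMap_injective hα (h3.trans (map_zero _).symm)).trans (map_zero U).symm)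
      have hZ0 : Z 0 = 0 := congrArg (fun v : V2 => v 0) h4
      have hZ1 : Z 1 = 0 := congrArg (fun v : V2 => v 1) h4
      have hw2 : HW (fun r => θ * (r 2 * Complex.exp (ell c a m r))) q
          (fun X => θ * (X 2 * Complex.exp (ell c a m q)
            + q 2 * (Complex.exp (ell c a m q) * ellD a m X q))) (fun _ => 0) := by
        have he : HW (fun r => Complex.exp (ell c a m r)) q
            (fun X => Complex.exp (ell c a m q) * ellD a m X q) (fun _ => 0) := by
          have hde : DifferentiableAt ℂ (ell c a m) q :=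
            ((contDiff_ell.differentiable (by simp : (∞ : WithTop ℕ∞) ≠ 0)) q)
          refine (hw_hol hde.cexp).congr_val (fun X => ?_) (fun _ => rfl)
          rw [hde.hasFDerivAt.cexp.fderiv, ← (hw_ell (c := c) (a := a) (m := m) q).pd_eq X, (hw_hol hde).pd_eq]
          simp
        exact (((hw_coord 2).mul he).const_mul θ).congr_val (fun X => by ring) (fun _ => by ring)
      have h5 : HW (fun r => F r 2) q (fun X => fderiv ℂ F q X 2) (fun _ => 0) :=
        (hw_hol ((differentiableAt_pi.1 hFq') 2)).congr_val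
          (fun X => (fderiv_pi (differentiableAt_pi.1 hFq')).symm ▸ rfl) (fun _ => rfl)
      have h6 : (fun r => F r 2) = fun r => θ * (r 2 * Complex.exp (ell c a m r)) :=
        funext fun r => chartMap_two α U θ _ r
      have h7 := h5.pd_eq Z
      rw [h6, hw2.pd_eq] at h7
      have hθ0 : θ ≠ 0 := Complex.exp_ne_zero _
      simp [hZ, ellD, hZ0, hZ1, hθ0, Complex.exp_ne_zero] at h7
      rw [sum_bas Z, hZ0, hZ1, h7]
      simp
    exact ⟨hinj, (LinearMap.injective_iff_surjective (f := (fderiv ℂ F q : C3 →ₗ[ℂ] C3))).1 hinj⟩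
  · rw [hth Z X Y hqc]
    refine (norm_third_le hf1 hqc Z X Y).trans ((mul_le_mul_of_nonneg_left
      (hbound 3 (by norm_num) (by norm_num)) (by positivity)).trans (le_of_eq ?_))
    ring
  · rw [hfo Z X W Y hqc]
    refine (norm_fourth_le hf1 hqc Z X W Y).trans ((mul_le_mul_of_nonneg_left
      (hbound 4 (by norm_num) le_rfl) (by positivity)).trans (le_of_eq ?_))
    ring

end Vale.BDU
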