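import Vale.Agent.BDU.Model

/-!
# P250: functions of the base coordinates
-/

open scoped ContDiff
open ComplexConjugate

namespace Vale.BDU

/-- The projection as a complex linear map. -/
noncomputable def zcL : C3 →L[ℂ] V2 :=
  LinearMap.toContinuousLinearMap
    { toFun := zc
      map_add' := fun x y => by ext i; fin_cases i <;> simp [zc]
      map_smul' := fun c x => by ext i; fin_cases i <;> simp [zc] }

@[simp] lemma zcL_apply (p : C3) : zcL p = zc p := rfl

/-- The basis vectors of complex three-space. -/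
noncomputable def ev (i : Fin 3) : C3 := Pi.single i 1

lemma ev_decomp (Z : C3) : Z = Z 0 • ev 0 + Z 1 • ev 1 + Z 2 • ev 2 := by
  funext i
  fin_cases i <;> simp [ev]

lemma zc_ev_two : zc (ev 2) = 0 := by
  ext i
  fin_cases i <;> simp [zc, ev]

lemma norm_ev (i : Fin 3) : ‖ev i‖ = 1 := by
  simp [ev, Pi.norm_single]

variable {φ : V2 → ℝ}

lemma contDiffOn_base (hφ : ContDiffOn ℝ ∞ φ ball2) :
    ContDiffOn ℝ ∞ (fun r => φ (zc r)) cyl :=
  hφ.comp (zcL.restrictScalars ℝ).contDiff.contDiffOn fun r hr => by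
    simpa [mem_ball_zero_iff] using (mem_cyl_iff r).1 hr

variable (hφ : ContDiffOn ℝ ∞ φ ball2) {r : C3}
include hφ

lemma fderiv_base_vert (hr : r ∈ cyl) {A : C3} (hA : zc A = 0) :
    fderiv ℝ (cplx fun s => φ (zc s)) r A = 0 := by
  have hz : zc r ∈ ball2 := by simpa [mem_ball_zero_iff] using (mem_cyl_iff r).1 hr
  have hd : DifferentiableAt ℝ φ (zc r) :=
    (hφ.contDiffAt (Metric.isOpen_ball.mem_nhds hz)).differentiableAt (by simp)
  have h1 : HasFDerivAt (fun s => φ (zc s)) ((fderiv ℝ φ (zc r)).comp (zcL.restrictScalars ℝ)) r :=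
    hd.hasFDerivAt.comp r (zcL.restrictScalars ℝ).hasFDerivAt
  have h2 := (Complex.ofRealCLM.hasFDerivAt.comp r h1).fderiv
  rw [show fderiv ℝ (cplx fun s => φ (zc s)) r = _ from h2]
  simp [hA]

lemma pd_base_vert (hr : r ∈ cyl) : pd (ev 2) (cplx fun s => φ (zc s)) r = 0 := by
  have h : zc (Complex.I • ev 2) = 0 := by
    rw [← zcL_apply, map_smul, zcL_apply, zc_ev_two, smul_zero]
  simp [pd, fderiv_base_vert hφ hr zc_ev_two, fderiv_base_vert hφ hr h]

lemma pb_base_vert (hr : r ∈ cyl) : pb (ev 2) (cplx fun s => φ (zc s)) r = 0 := by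
  have h : zc (Complex.I • ev 2) = 0 := by
    rw [← zcL_apply, map_smul, zcL_apply, zc_ev_two, smul_zero]
  simp [pb, fderiv_base_vert hφ hr zc_ev_two, fderiv_base_vert hφ hr h]

lemma third_right_vert (hr : r ∈ cyl) (Z X : C3) :
    third (fun s => φ (zc s)) Z X (ev 2) r = 0 := by
  have h0 : Set.EqOn (pb (ev 2) (cplx fun s => φ (zc s))) (fun _ => (0 : ℂ)) cyl :=
    fun s hs => pb_base_vert hφ hs
  have h1 : Set.EqOn (herm (fun s => φ (zc s)) X (ev 2)) (fun _ => (0 : ℂ)) cyl := fun s hs =>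
    (pd_congr_on isOpen_cyl h0 X hs).trans (by simp [pd])
  exact (pd_congr_on isOpen_cyl h1 Z hr).trans (by simp [pd])

lemma third_mid_vert (hr : r ∈ cyl) (Z Y : C3) :
    third (fun s => φ (zc s)) Z (ev 2) Y r = 0 := by
  have h0 : Set.EqOn (pd (ev 2) (cplx fun s => φ (zc s))) (fun _ => (0 : ℂ)) cyl :=
    fun s hs => pd_base_vert hφ hs
  have h1 : Set.EqOn (herm (fun s => φ (zc s)) (ev 2) Y) (fun _ => (0 : ℂ)) cyl := fun s hs => by
    show pd (ev 2) (pb Y (cplx fun s => φ (zc s))) s = 0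
    rw [pd_pb_comm isOpen_cyl (contDiffOn_cplx (contDiffOn_base hφ)) (ev 2) Y hs,
      pb_congr_on isOpen_cyl h0 Y hs]
    simp [pb]
  exact (pd_congr_on isOpen_cyl h1 Z hr).trans (by simp [pd])

lemma fourth_right_vert (hr : r ∈ cyl) (Z X W : C3) :
    fourth (fun s => φ (zc s)) Z X W (ev 2) r = 0 :=
  (pb_congr_on isOpen_cyl (g := fun _ => (0 : ℂ))
    (fun s hs => third_right_vert hφ hs Z X) W hr).trans (by simp [pb])

/-- The components of `∂∂∂̄φ`, antiholomorphic index first. -/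
noncomputable def jet3 (φ : V2 → ℝ) (q : C3) (j k l : Fin 2) : ℂ :=
  third (fun s => φ (zc s)) (ev k.castSucc) (ev l.castSucc) (ev j.castSucc) q

/-- The components of `∂∂∂̄∂̄φ`. -/
noncomputable def jet4 (φ : V2 → ℝ) (q : C3) (k l m n : Fin 2) : ℂ :=
  fourth (fun s => φ (zc s)) (ev k.castSucc) (ev l.castSucc) (ev m.castSucc) (ev n.castSucc) q

lemma third_base_right (hr : r ∈ cyl) (Z X Y : C3) :
    third (fun s => φ (zc s)) Z X Y r =
      conj (Y 0) * third (fun s => φ (zc s)) Z X (ev 0) r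
        + conj (Y 1) * third (fun s => φ (zc s)) Z X (ev 1) r := by
  have hΨ := contDiffOn_base hφ
  conv_lhs => rw [ev_decomp Y]
  simp only [third_add_right isOpen_cyl hΨ _ _ _ _ hr, third_smul_right isOpen_cyl hΨ _ _ _ _ hr,
    third_right_vert hφ hr, mul_zero, add_zero]

lemma third_base_left (hr : r ∈ cyl) (Z X Y : C3) :
    third (fun s => φ (zc s)) Z X Y r =
      Z 0 * third (fun s => φ (zc s)) (ev 0) X Y r
        + Z 1 * third (fun s => φ (zc s)) (ev 1) X Y r := by
  have hΨ := contDiffOn_base hφ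
  have h2 : third (fun s => φ (zc s)) (ev 2) X Y r = 0 := by
    rw [third_comm isOpen_cyl hΨ (ev 2) X Y hr, third_mid_vert hφ hr]
  conv_lhs => rw [ev_decomp Z]
  show pd _ (herm (fun s => φ (zc s)) X Y) r = _
  simp only [pd_add, pd_smul]
  rw [show pd (ev 2) (herm (fun s => φ (zc s)) X Y) r = 0 from h2]
  show _ = Z 0 * pd (ev 0) (herm (fun s => φ (zc s)) X Y) r + Z 1 * pd (ev 1) _ r
  ring

lemma third_base (hr : r ∈ cyl) (Z X Y : C3) :
    third (fun s => φ (zc s)) Z X Y r = ∑ j : Fin 2, conj (Y j.castSucc) *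
      ∑ k : Fin 2, ∑ l : Fin 2, jet3 φ r j k l * Z k.castSucc * X l.castSucc := by
  have hΨ := contDiffOn_base hφ
  have hX : ∀ k j : C3, third (fun s => φ (zc s)) k X j r =
      X 0 * third (fun s => φ (zc s)) k (ev 0) j r
        + X 1 * third (fun s => φ (zc s)) k (ev 1) j r := fun k j => by
    rw [third_comm isOpen_cyl hΨ k X j hr, third_base_left hφ hr,
      third_comm isOpen_cyl hΨ (ev 0) k j hr, third_comm isOpen_cyl hΨ (ev 1) k j hr]
  rw [third_base_right hφ hr, third_base_left hφ hr Z X (ev 0), third_base_left hφ hr Z X (ev 1)]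
  simp only [hX, jet3, Fin.sum_univ_two]
  simp only [Fin.castSucc_zero, show (Fin.castSucc (1 : Fin 2)) = (1 : Fin 3) from rfl]
  ring

lemma fourth_base_right (hr : r ∈ cyl) (Z X W Y : C3) :
    fourth (fun s => φ (zc s)) Z X W Y r =
      conj (Y 0) * fourth (fun s => φ (zc s)) Z X W (ev 0) r
        + conj (Y 1) * fourth (fun s => φ (zc s)) Z X W (ev 1) r := by
  have hΨ := contDiffOn_base hφ
  have hsm : ∀ A B : C3, ∀ c : ℂ, fourth (fun s => φ (zc s)) Z X A (c • B) r
      = conj c * fourth (fun s => φ (zc s)) Z X A B r := fun A B c => by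
    rw [fourth_comm_right isOpen_cyl hΨ Z X A (c • B) hr,
      fourth_comm_right isOpen_cyl hΨ Z X A B hr]
    exact pb_smul c B r
  have had : ∀ A B D : C3, fourth (fun s => φ (zc s)) Z X A (B + D) r
      = fourth (fun s => φ (zc s)) Z X A B r + fourth (fun s => φ (zc s)) Z X A D r :=
    fun A B D => by
    rw [fourth_comm_right isOpen_cyl hΨ Z X A (B + D) hr,
      fourth_comm_right isOpen_cyl hΨ Z X A B hr, fourth_comm_right isOpen_cyl hΨ Z X A D hr]
    exact pb_add B D r
  conv_lhs => rw [ev_decomp Y]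
  simp only [had, hsm, fourth_right_vert hφ hr, mul_zero, add_zero]

lemma fourth_base (hr : r ∈ cyl) (Z X W Y : C3) :
    fourth (fun s => φ (zc s)) Z X W Y r =
      ∑ k : Fin 2, ∑ l : Fin 2, ∑ m : Fin 2, ∑ n : Fin 2, jet4 φ r k l m n
        * Z k.castSucc * X l.castSucc * conj (W m.castSucc) * conj (Y n.castSucc) := by
  have hΨ := contDiffOn_base hφ
  have hc : ∀ A B D E : C3, fourth (fun s => φ (zc s)) A B D E r
      = conj (fourth (fun s => φ (zc s)) D E A B r) := fun A B D E =>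
    (conj_fourth isOpen_cyl hΨ D E A B hr).symm
  have hY := fourth_base_right hφ hr
  have hW : ∀ A B D E : C3, fourth (fun s => φ (zc s)) A B D E r =
      conj (D 0) * fourth (fun s => φ (zc s)) A B (ev 0) E r
        + conj (D 1) * fourth (fun s => φ (zc s)) A B (ev 1) E r := fun A B D E => by
    rw [fourth_comm_right isOpen_cyl hΨ A B D E hr, hY,
      fourth_comm_right isOpen_cyl hΨ A B E (ev 0) hr,
      fourth_comm_right isOpen_cyl hΨ A B E (ev 1) hr]
  have hX : ∀ A B D E : C3, fourth (fun s => φ (zc s)) A B D E r =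
      B 0 * fourth (fun s => φ (zc s)) A (ev 0) D E r
        + B 1 * fourth (fun s => φ (zc s)) A (ev 1) D E r := fun A B D E => by
    rw [hc A B D E, hY D E A B]
    simp only [map_add, map_mul, Complex.conj_conj, ← hc]
  have hZ : ∀ A B D E : C3, fourth (fun s => φ (zc s)) A B D E r =
      A 0 * fourth (fun s => φ (zc s)) (ev 0) B D E r
        + A 1 * fourth (fun s => φ (zc s)) (ev 1) B D E r := fun A B D E => by
    rw [fourth_comm_left isOpen_cyl hΨ A B D E hr, hX,
      fourth_comm_left isOpen_cyl hΨ B (ev 0) D E hr,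
      fourth_comm_left isOpen_cyl hΨ B (ev 1) D E hr]
  rw [hZ]
  simp only [hX _ X W Y, hW _ _ W Y, hY _ _ _ Y, jet4, Fin.sum_univ_two]
  simp only [Fin.castSucc_zero, show (Fin.castSucc (1 : Fin 2)) = (1 : Fin 3) from rfl]
  ring

end Vale.BDU
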