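import Vale.Agent.BDU.Kahler

/-!
# P250: rules for the two Wirtinger derivatives at a point
-/

open scoped ContDiff
open ComplexConjugate

namespace Vale.BDU

/-- `a` and `b` are the holomorphic and the antiholomorphic differential of `f` at `q`. -/
def HW (f : C3 → ℂ) (q : C3) (a b : C3 → ℂ) : Prop :=
  DifferentiableAt ℝ f q ∧ ∀ Z : C3, pd Z f q = a Z ∧ pb Z f q = b Z

variable {f g : C3 → ℂ} {q : C3} {a b a' b' : C3 → ℂ}

lemma HW.pd_eq (h : HW f q a b) (Z : C3) : pd Z f q = a Z := (h.2 Z).1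

lemma HW.pb_eq (h : HW f q a b) (Z : C3) : pb Z f q = b Z := (h.2 Z).2

lemma HW.diff (h : HW f q a b) : DifferentiableAt ℝ f q := h.1

lemma hw_self (hf : DifferentiableAt ℝ f q) : HW f q (fun Z => pd Z f q) (fun Z => pb Z f q) :=
  ⟨hf, fun _ => ⟨rfl, rfl⟩⟩

lemma HW.congr_val (h : HW f q a b) (ha : ∀ Z, a Z = a' Z) (hb : ∀ Z, b Z = b' Z) :
    HW f q a' b' :=
  ⟨h.1, fun Z => ⟨(h.pd_eq Z).trans (ha Z), (h.pb_eq Z).trans (hb Z)⟩⟩

lemma HW.congr_fun (h : HW f q a b) (hfg : g =ᶠ[nhds q] f) : HW g q a b :=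
  ⟨h.1.congr_of_eventuallyEq hfg,
    fun Z => ⟨(pd_congr hfg Z).trans (h.pd_eq Z), (pb_congr hfg Z).trans (h.pb_eq Z)⟩⟩

lemma hw_const (c : ℂ) : HW (fun _ => c) q (fun _ => 0) (fun _ => 0) :=
  ⟨differentiableAt_const c, fun Z => by simp [pd, pb]⟩

lemma hw_coord (i : Fin 3) : HW (fun r : C3 => r i) q (fun Z => Z i) (fun _ => 0) := by
  have h : HasFDerivAt (fun r : C3 => r i)
      (ContinuousLinearMap.proj (R := ℝ) (φ := fun _ : Fin 3 => ℂ) i) q :=
    (ContinuousLinearMap.proj (R := ℝ) (φ := fun _ : Fin 3 => ℂ) i).hasFDerivAt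
  refine ⟨h.differentiableAt, fun Z => ?_⟩
  simp only [pd, pb, h.fderiv, ContinuousLinearMap.proj_apply, Pi.smul_apply, smul_eq_mul,
    ← mul_assoc, Complex.I_mul_I]
  constructor <;> ring

lemma HW.conj (h : HW f q a b) :
    HW (fun r => conj (f r)) q (fun Z => conj (b Z)) (fun Z => conj (a Z)) := by
  refine ⟨Complex.conjCLE.toContinuousLinearMap.differentiableAt.comp q h.1, fun Z => ⟨?_, ?_⟩⟩
  · simp only [← h.pb_eq, conj_pb Z h.1]
  · simp only [← h.pd_eq, conj_pd Z h.1]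

lemma HW.add (h : HW f q a b) (h' : HW g q a' b') :
    HW (fun r => f r + g r) q (fun Z => a Z + a' Z) (fun Z => b Z + b' Z) := by
  refine ⟨h.1.fun_add h'.1, fun Z => ?_⟩
  simp only [← h.pd_eq, ← h.pb_eq, ← h'.pd_eq, ← h'.pb_eq, pd, pb, fderiv_fun_add h.1 h'.1,
    add_apply]
  constructor <;> ring

lemma HW.mul (h : HW f q a b) (h' : HW g q a' b') :
    HW (fun r => f r * g r) q (fun Z => a Z * g q + f q * a' Z)
      (fun Z => b Z * g q + f q * b' Z) := by
  refine ⟨h.1.fun_mul h'.1, fun Z => ?_⟩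
  simp only [← h.pd_eq, ← h.pb_eq, ← h'.pd_eq, ← h'.pb_eq, pd, pb, fderiv_fun_mul h.1 h'.1,
    add_apply, smul_apply, smul_eq_mul]
  constructor <;> ring

lemma HW.const_mul (h : HW f q a b) (c : ℂ) :
    HW (fun r => c * f r) q (fun Z => c * a Z) (fun Z => c * b Z) :=
  ((hw_const c).mul h).congr_val (fun Z => by ring) (fun Z => by ring)

/-- Composition with a function of one real variable. -/
lemma HW.comp_real {t : C3 → ℝ} (h : HW (cplx t) q a b) {G : ℝ → ℝ} {G' : ℝ}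
    (hG : HasDerivAt G G' (t q)) :
    HW (cplx (fun r => G (t r))) q (fun Z => G' * a Z) (fun Z => G' * b Z) := by
  have ht : DifferentiableAt ℝ t q := by
    have h2 := Complex.reCLM.differentiableAt.comp q h.1
    have e : Complex.reCLM ∘ cplx t = t := rfl
    rwa [e] at h2
  have hc : HasFDerivAt (cplx t) (Complex.ofRealCLM.comp (fderiv ℝ t q)) q :=
    Complex.ofRealCLM.hasFDerivAt.comp q ht.hasFDerivAt
  have hd : HasFDerivAt (cplx (fun r => G (t r)))
      (Complex.ofRealCLM.comp (G' • fderiv ℝ t q)) q :=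
    Complex.ofRealCLM.hasFDerivAt.comp q (hG.comp_hasFDerivAt q ht.hasFDerivAt)
  refine ⟨hd.differentiableAt, fun Z => ?_⟩
  simp only [← h.pd_eq, ← h.pb_eq]
  simp only [pd, pb, hd.fderiv, hc.fderiv, ContinuousLinearMap.comp_apply,
    Complex.ofRealCLM_apply, smul_apply, smul_eq_mul, Complex.ofReal_mul]
  constructor <;> ring

lemma hw_cplx_of_eq {t : C3 → ℝ} (h : HW f q a b) (e : ∀ r, (t r : ℂ) = f r) :
    HW (cplx t) q a b :=
  h.congr_fun (Filter.Eventually.of_forall e)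

end Vale.BDU
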