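import Vale.Agent.BDU.Defs

/-!
# P250: geodesic completeness from an exhaustion with bounded gradient

The geodesic field, cut off, is complete; along its flow the energy is constant and the exhaustion
grows at most linearly, so on bounded time intervals the cut-off is not felt.
-/

open scoped ContDiff NNReal
open Set Filter Topology Metric

set_option maxSynthPendingDepth 3

namespace Vale.BDU

variable {g : Form} {Γ : C3 → C3 → C3 → C3} {M : Set C3}

/-- The geodesic field on the tangent bundle. -/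
def geoField (Γ : C3 → C3 → C3 → C3) (z : C3 × C3) : C3 × C3 := (z.2, -(Γ z.1 z.2 z.2))

lemma contDiffOn_metric (hg : IsKahlerMetricOn g M) : ContDiffOn ℝ ∞ g M :=
  contDiffOn_clm_apply.2 fun v => contDiffOn_clm_apply.2 fun w => hg.1 v w

lemma dForm_eq_fderiv (hM : IsOpen M) (hg : IsKahlerMetricOn g M) {p : C3} (hp : p ∈ M)
    (u v w : C3) : dForm g p u v w = fderiv ℝ g p u v w := by
  have h : DifferentiableAt ℝ g p :=
    ((contDiffOn_metric hg).contDiffAt (hM.mem_nhds hp)).differentiableAt (by simp)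
  have := ((h.hasFDerivAt.clm_apply (hasFDerivAt_const v p)).clm_apply
    (hasFDerivAt_const w p)).fderiv
  rw [dForm, this]
  simp

/-- The metric as an invertible map to the dual. -/
lemma exists_dual_equiv (hg : IsKahlerMetricOn g M) {p : C3} (hp : p ∈ M) :
    ∃ e : C3 ≃L[ℝ] (C3 →L[ℝ] ℝ), (e : C3 →L[ℝ] C3 →L[ℝ] ℝ) = g p := by
  have hi : Function.Injective (g p).toLinearMap := by
    rw [injective_iff_map_eq_zero]
    intro v hv
    by_contra hne
    have h1 : g p v = 0 := hv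
    have := (hg.2 p hp).2.1 v hne
    simp only [gVal, gRow] at this
    rw [h1] at this
    simp at this
  have hd : Module.finrank ℝ C3 = Module.finrank ℝ (C3 →L[ℝ] ℝ) := by
    rw [← (LinearMap.toContinuousLinearMap (𝕜 := ℝ) (E := C3) (F' := ℝ)).finrank_eq]
    exact Subspace.dual_finrank_eq.symm
  exact ⟨(LinearMap.linearEquivOfInjective _ hi hd).toContinuousLinearEquiv,
    ContinuousLinearMap.ext fun v => rfl⟩

/-- Half of Koszul's functional on the diagonal. -/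
noncomputable def koszul (g : Form) (z : C3 × C3) : C3 →L[ℝ] ℝ :=
  fderiv ℝ g z.1 z.2 z.2 - (1 / 2 : ℝ) • ((ContinuousLinearMap.apply ℝ ℝ z.2).comp
    ((ContinuousLinearMap.apply ℝ (C3 →L[ℝ] ℝ) z.2).comp (fderiv ℝ g z.1)))

lemma gamma_eq (hM : IsOpen M) (hg : IsKahlerMetricOn g M) (hΓ : IsLeviCivitaOn g Γ M)
    {p : C3} (hp : p ∈ M) (v : C3) :
    Γ p v v = ContinuousLinearMap.inverse (g p) (koszul g (p, v)) := by
  obtain ⟨e, he⟩ := exists_dual_equiv hg hp
  rw [← he, ContinuousLinearMap.inverse_equiv, ContinuousLinearEquiv.coe_coe]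
  apply e.injective
  rw [ContinuousLinearEquiv.apply_symm_apply]
  ext w
  have h := hΓ p hp v v w
  rw [dForm_eq_fderiv hM hg hp, dForm_eq_fderiv hM hg hp] at h
  have : e (Γ p v v) w = g p (Γ p v v) w := by rw [← he]; rfl
  rw [this]
  simp [koszul]
  linarith

lemma contDiffOn_geoField (hM : IsOpen M) (hg : IsKahlerMetricOn g M)
    (hΓ : IsLeviCivitaOn g Γ M) : ContDiffOn ℝ 1 (geoField Γ) (M ×ˢ univ) := by
  have hgC := contDiffOn_metric hg
  have hD : ContDiffOn ℝ 1 (fun z : C3 × C3 => fderiv ℝ g z.1) (M ×ˢ univ) :=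
    (hgC.fderiv_of_isOpen hM (m := 1) (WithTop.coe_le_coe.2 le_top)).comp contDiff_fst.contDiffOn
      fun z hz => hz.1
  have hv : ContDiffOn ℝ 1 (fun z : C3 × C3 => z.2) (M ×ˢ univ) := contDiff_snd.contDiffOn
  have h1 := (hD.clm_apply hv).clm_apply hv
  have h2 : ContDiffOn ℝ 1 (fun z : C3 × C3 => (ContinuousLinearMap.apply ℝ ℝ z.2).comp
      ((ContinuousLinearMap.apply ℝ (C3 →L[ℝ] ℝ) z.2).comp (fderiv ℝ g z.1))) (M ×ˢ univ) :=
    ((ContinuousLinearMap.apply ℝ ℝ).contDiff.comp_contDiffOn hv).clm_comp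
      (((ContinuousLinearMap.apply ℝ (C3 →L[ℝ] ℝ)).contDiff.comp_contDiffOn hv).clm_comp hD)
  have h3 : ContDiffOn ℝ 1 (fun z : C3 × C3 => ContinuousLinearMap.inverse (g z.1))
      (M ×ˢ univ) := fun z hz => by
    obtain ⟨e, he⟩ := exists_dual_equiv hg hz.1
    have hi : ContDiffAt ℝ 1 ContinuousLinearMap.inverse (g z.1) := he ▸ contDiffAt_map_inverse e
    exact hi.comp_contDiffWithinAt z
      (((hgC.of_le (WithTop.coe_le_coe.2 le_top)).comp contDiff_fst.contDiffOn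
        fun z hz => hz.1) z hz)
  have h4 : ContDiffOn ℝ 1 (fun z : C3 × C3 =>
      ContinuousLinearMap.inverse (g z.1) (koszul g z)) (M ×ˢ univ) :=
    h3.clm_apply (h1.sub (h2.const_smul (1 / 2 : ℝ)))
  refine hv.prodMk (h4.congr fun z hz => gamma_eq hM hg hΓ hz.1 z.2).neg

/-- A smooth cut-off of the geodesic field. -/
lemma exists_cutoff (hM : IsOpen M) (hg : IsKahlerMetricOn g M) (hΓ : IsLeviCivitaOn g Γ M)
    {C : Set (C3 × C3)} (hC : IsCompact C) (hCM : C ⊆ M ×ˢ univ) :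
    ∃ χ : C3 × C3 → ℝ, (∀ z, 0 ≤ χ z ∧ χ z ≤ 1) ∧ (∀ z ∈ C, χ z = 1) ∧
      (∀ z, χ z ≠ 0 → z.1 ∈ M) ∧
      ∃ L B : ℝ≥0, LipschitzWith L (fun z => χ z • geoField Γ z) ∧
        ∀ z, ‖χ z • geoField Γ z‖ ≤ B := by
  have hU : IsOpen (M ×ˢ (univ : Set C3)) := hM.prod isOpen_univ
  obtain ⟨K, hK, hCK, hKU⟩ := exists_compact_between hC hU hCM
  obtain ⟨f, hfs, hf, hfr⟩ := (isOpen_interior (s := K)).exists_contDiff_support_eq (n := 1)
  obtain ⟨h, hhs, hh, hhr⟩ := hC.isClosed.isOpen_compl.exists_contDiff_support_eq (n := 1)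
  have hf0 : ∀ z, 0 ≤ f z := fun z => (hfr (mem_range_self z)).1
  have hh0 : ∀ z, 0 ≤ h z := fun z => (hhr (mem_range_self z)).1
  have hpos : ∀ z, 0 < f z + h z := by
    intro z
    by_cases hz : z ∈ C
    · have : f z ≠ 0 := by rw [← Function.mem_support, hfs]; exact hCK hz
      have := lt_of_le_of_ne (hf0 z) (Ne.symm this)
      linarith [hh0 z]
    · have : h z ≠ 0 := by rw [← Function.mem_support, hhs]; exact hz
      have := lt_of_le_of_ne (hh0 z) (Ne.symm this)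
      linarith [hf0 z]
  set χ := fun z => f z / (f z + h z)
  have hχK : ∀ z, χ z ≠ 0 → z ∈ K := fun z hz => interior_subset
    (show z ∈ interior K by
      rw [← hfs]; intro h0; exact hz (by simp [χ, h0]))
  have hsupp : Function.support (fun z => χ z • geoField Γ z) ⊆ K := fun z hz =>
    hχK z fun h0 => hz (by simp [h0])
  have hcs : HasCompactSupport (fun z => χ z • geoField Γ z) :=
    HasCompactSupport.of_support_subset_isCompact hK hsupp
  have hd : ContDiff ℝ 1 (fun z => χ z • geoField Γ z) := by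
    refine contDiff_iff_contDiffAt.2 fun z => ?_
    by_cases hz : z ∈ M ×ˢ (univ : Set C3)
    · exact ((hf.div (hf.add hh) fun z => (hpos z).ne').contDiffAt).smul
        ((contDiffOn_geoField hM hg hΓ).contDiffAt (hU.mem_nhds hz))
    · refine (contDiffAt_const (c := (0 : C3 × C3))).congr_of_eventuallyEq ?_
      filter_upwards [hK.isClosed.isOpen_compl.mem_nhds fun h => hz (hKU h)] with w hw
      exact not_not.1 fun h0 => hw (hsupp h0)
  obtain ⟨L, hL⟩ := hd.lipschitzWith_of_hasCompactSupport hcs one_ne_zero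
  obtain ⟨B, hB⟩ := hcs.exists_bound_of_continuous hd.continuous
  refine ⟨χ, fun z => ⟨div_nonneg (hf0 z) (hpos z).le, ?_⟩, fun z hz => ?_,
    fun z hz => (hKU (hχK z hz)).1, L, B.toNNReal, hL, fun z => (hB z).trans (Real.le_coe_toNNReal B)⟩
  · rw [div_le_one (hpos z)]; linarith [hh0 z]
  · have : h z = 0 := by
      by_contra h0
      exact (hhs ▸ Function.mem_support.2 h0 : z ∈ Cᶜ) hz
    have := hpos z
    simp only [χ, ‹h z = 0›, add_zero] at this ⊢
    exact div_self this.ne'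

/-- A Lipschitz bounded field has solutions on every symmetric interval. -/
lemma exists_solution {F : C3 × C3 → C3 × C3} {L B : ℝ≥0} (hL : LipschitzWith L F)
    (hB : ∀ z, ‖F z‖ ≤ B) {T : ℝ} (hT : 0 < T) (z₀ : C3 × C3) :
    ∃ z : ℝ → C3 × C3, z 0 = z₀ ∧ ∀ t ∈ Ioo (-T) T, HasDerivAt z (F (z t)) t := by
  have hmem : (0 : ℝ) ∈ Icc (-T) T := ⟨by linarith, hT.le⟩
  have hP : IsPicardLindelof (fun _ : ℝ => F) ⟨0, hmem⟩ z₀ (B * T.toNNReal) 0 B L :=
    ⟨fun t _ => hL.lipschitzOnWith, fun x _ => continuousOn_const, fun t _ x _ => hB x, by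
      simp [Real.coe_toNNReal _ hT.le]⟩
  obtain ⟨z, h0, hz⟩ := hP.exists_eq_forall_mem_Icc_hasDerivWithinAt₀
  exact ⟨z, h0, fun t ht =>
    (hz t (Ioo_subset_Icc_self ht)).hasDerivAt (Icc_mem_nhds ht.1 ht.2)⟩

/-- The two components of a derivative in the tangent bundle. -/
lemma hasDerivAt_parts {z : ℝ → C3 × C3} {w : C3 × C3} {t : ℝ} (hz : HasDerivAt z w t) :
    HasDerivAt (fun s => (z s).1) w.1 t ∧ HasDerivAt (fun s => (z s).2) w.2 t :=
  ⟨(ContinuousLinearMap.fst ℝ C3 C3).hasFDerivAt.comp_hasDerivAt t hz,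
    (ContinuousLinearMap.snd ℝ C3 C3).hasFDerivAt.comp_hasDerivAt t hz⟩

/-- The derivative of a quadratic form field along a curve. -/
lemma hasDerivAt_quad {E : Type*} [NormedAddCommGroup E] [NormedSpace ℝ E]
    {G : E → E →L[ℝ] E →L[ℝ] ℝ} {x v : ℝ → E} {v' x' : E} {t : ℝ}
    {G' : E →L[ℝ] E →L[ℝ] E →L[ℝ] ℝ} (hG : HasFDerivAt G G' (x t)) (hx : HasDerivAt x x' t)
    (hv : HasDerivAt v v' t) :
    HasDerivAt (fun s => G (x s) (v s) (v s))
      (G' x' (v t) (v t) + G (x t) v' (v t) + G (x t) (v t) v') t := by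
  have h := ((hG.comp_hasDerivAt t hx).clm_apply hv).clm_apply hv
  simpa using h

/-- The energy is constant along the reparametrised geodesic field. -/
lemma hasDerivAt_energy (hM : IsOpen M) (hg : IsKahlerMetricOn g M) (hΓ : IsLeviCivitaOn g Γ M)
    {z : ℝ → C3 × C3} {t c : ℝ} (hz : HasDerivAt z (c • geoField Γ (z t)) t) (ht : (z t).1 ∈ M) :
    HasDerivAt (fun s => g (z s).1 (z s).2 (z s).2) 0 t := by
  have hx : HasDerivAt (fun s => (z s).1) (c • (z t).2) t :=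
    (hasDerivAt_parts hz).1
  have hv : HasDerivAt (fun s => (z s).2) (c • -(Γ (z t).1 (z t).2 (z t).2)) t :=
    (hasDerivAt_parts hz).2
  have hd : DifferentiableAt ℝ g (z t).1 :=
    ((contDiffOn_metric hg).contDiffAt (hM.mem_nhds ht)).differentiableAt (by simp)
  have := hasDerivAt_quad (G := g) hd.hasFDerivAt hx hv
  convert this using 1
  have k := hΓ (z t).1 ht (z t).2 (z t).2 (z t).2
  rw [dForm_eq_fderiv hM hg ht] at k
  have s := (hg.2 (z t).1 ht).1 (z t).2 (Γ (z t).1 (z t).2 (z t).2)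
  simp only [map_smul, smul_neg, map_neg, smul_apply, neg_apply, smul_eq_mul]
  linear_combination (c : ℝ) * k + c * s

/-- A geodesic on `(-T,T)` through given data. -/
lemma exists_geodesic_on (hM : IsOpen M) (hg : IsKahlerMetricOn g M) (hΓ : IsLeviCivitaOn g Γ M)
    (ρ : C3 → ℝ) (hρ : ContDiffOn ℝ ∞ ρ M) (hcpt : ∀ c, IsCompact {p | p ∈ M ∧ ρ p ≤ c})
    (hgrad : ∃ K, ∀ p ∈ M, ∀ v, |fderiv ℝ ρ p v| ≤ K * Real.sqrt (g p v v))
    {p : C3} (hp : p ∈ M) (v : C3) {T : ℝ} (hT : 0 < T) :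
    ∃ z : ℝ → C3 × C3, z 0 = (p, v) ∧
      ∀ t ∈ Ioo (-T) T, (z t).1 ∈ M ∧ HasDerivAt z (geoField Γ (z t)) t := by
  obtain ⟨K, hK⟩ := hgrad
  have hgC := contDiffOn_metric hg
  set E₀ := g p v v
  set A := {q | q ∈ M ∧ ρ q ≤ ρ p + |K| * Real.sqrt E₀ * T}
  have hA : IsCompact A := hcpt _
  have hpA : p ∈ A := ⟨hp, le_add_of_nonneg_right (by positivity)⟩
  have hq : ContinuousOn (fun x : C3 × C3 => g x.1 x.2 x.2) (A ×ˢ sphere (0 : C3) 1) :=
    ((hgC.continuousOn.comp continuous_fst.continuousOn fun x hx => hx.1.1).clm_apply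
      continuous_snd.continuousOn).clm_apply continuous_snd.continuousOn
  obtain ⟨u₀, hu₀⟩ : (sphere (0 : C3) 1).Nonempty := NormedSpace.sphere_nonempty.2 zero_le_one
  obtain ⟨x₀, hx₀, hmin⟩ := (hA.prod (isCompact_sphere 0 1)).exists_isMinOn
    ⟨(p, u₀), hpA, hu₀⟩ hq
  set m := g x₀.1 x₀.2 x₀.2
  have hm : 0 < m := (hg.2 x₀.1 hx₀.1.1).2.1 x₀.2 (ne_zero_of_mem_unit_sphere ⟨x₀.2, hx₀.2⟩)
  have hbound : ∀ q ∈ A, ∀ w : C3, m * ‖w‖ ^ 2 ≤ g q w w := by
    intro q hq w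
    rcases eq_or_ne w 0 with rfl | hw
    · simp
    have hn : 0 < ‖w‖ := norm_pos_iff.2 hw
    have hs : ‖‖w‖⁻¹ • w‖ = 1 := norm_smul_inv_norm hw
    have h1 : m ≤ g q (‖w‖⁻¹ • w) (‖w‖⁻¹ • w) :=
      hmin (show (q, ‖w‖⁻¹ • w) ∈ A ×ˢ sphere (0 : C3) 1 from ⟨hq, mem_sphere_zero_iff_norm.2 hs⟩)
    simp only [map_smul, smul_apply, smul_eq_mul] at h1
    calc m * ‖w‖ ^ 2 ≤ ‖w‖⁻¹ * (‖w‖⁻¹ * g q w w) * ‖w‖ ^ 2 := by gcongr
      _ = g q w w := by field_simp
  set C := A ×ˢ closedBall (0 : C3) (Real.sqrt (E₀ / m))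
  obtain ⟨χ, hχ, hχ1, hχM, L, B, hL, hB⟩ := exists_cutoff hM hg hΓ
    (hA.prod (isCompact_closedBall 0 _) : IsCompact C) fun x hx => ⟨hx.1.1, trivial⟩
  obtain ⟨z, hz0, hz⟩ := exists_solution hL hB hT (p, v)
  refine ⟨z, hz0, fun t ht => ?_⟩
  have hpv : (p, v) ∈ C := ⟨hpA, mem_closedBall_zero_iff.2 (Real.le_sqrt_of_sq_le
    ((le_div_iff₀ hm).2 (by rw [mul_comm]; exact hbound p hpA v)))⟩
  have h0T : (0 : ℝ) ∈ Ioo (-T) T := ⟨by linarith, hT⟩
  have hin : ∀ s ∈ Ioo (-T) T, (z s).1 ∈ M := by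
    intro s hs
    by_contra hsM
    have hc : χ (z s) = 0 := not_not.1 fun h => hsM (hχM _ h)
    have hEq : EqOn z (fun _ => z s) (Ioo (-T) T) :=
      ODE_solution_unique_of_mem_Ioo (v := fun _ w => χ w • geoField Γ w) (K := L)
        (s := fun _ => univ) (fun _ _ => hL.lipschitzOnWith) hs
        (fun r hr => ⟨hz r hr, trivial⟩)
        (fun r _ => ⟨by simpa [hc] using hasDerivAt_const r (z s), trivial⟩) rfl
    have := hEq h0T
    simp only [hz0] at this
    exact hsM (this ▸ hp)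
  have hE : ∀ s ∈ Ioo (-T) T, g (z s).1 (z s).2 (z s).2 = E₀ := by
    intro s hs
    have hd : ∀ r ∈ Ioo (-T) T, HasDerivAt (fun r => g (z r).1 (z r).2 (z r).2) 0 r :=
      fun r hr => hasDerivAt_energy hM hg hΓ (hz r hr) (hin r hr)
    have := (convex_Ioo (-T) T).norm_image_sub_le_of_norm_hasDerivWithin_le
      (fun r hr => (hd r hr).hasDerivWithinAt) (fun r _ => (norm_zero (E := ℝ)).le) h0T hs
    simp [hz0] at this
    linarith [sub_eq_zero.1 this]
  have hρd : ∀ r ∈ Ioo (-T) T, HasDerivAt (fun r => ρ (z r).1)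
      (χ (z r) * fderiv ℝ ρ (z r).1 (z r).2) r := by
    intro r hr
    have hx : HasDerivAt (fun s => (z s).1) (χ (z r) • (z r).2) r := by
      exact (hasDerivAt_parts (hz r hr)).1
    have := ((hρ.contDiffAt (hM.mem_nhds (hin r hr))).differentiableAt
      (by simp)).hasFDerivAt.comp_hasDerivAt r hx
    simpa [Function.comp_def] using this
  have hA' : ∀ s ∈ Ioo (-T) T, (z s).1 ∈ A := by
    intro s hs
    refine ⟨hin s hs, ?_⟩
    have := (convex_Ioo (-T) T).norm_image_sub_le_of_norm_hasDerivWithin_le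
      (C := |K| * Real.sqrt E₀) (fun r hr => (hρd r hr).hasDerivWithinAt) (fun r hr => ?_) h0T hs
    · simp only [hz0, sub_zero, Real.norm_eq_abs] at this
      have hsT : |s| ≤ T := abs_le.2 ⟨hs.1.le, hs.2.le⟩
      nlinarith [le_abs_self (ρ (z s).1 - ρ p), mul_nonneg (abs_nonneg K) (Real.sqrt_nonneg E₀)]
    · have := hK _ (hin r hr) (z r).2
      rw [hE r hr] at this
      rw [Real.norm_eq_abs, abs_mul, abs_of_nonneg (hχ _).1]
      calc χ (z r) * |fderiv ℝ ρ (z r).1 (z r).2| ≤ 1 * (|K| * Real.sqrt E₀) :=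
            mul_le_mul (hχ _).2 (this.trans (by gcongr; exact le_abs_self K)) (abs_nonneg _)
              zero_le_one
        _ = _ := one_mul _
  refine ⟨hin t ht, ?_⟩
  have htC : z t ∈ C := ⟨hA' t ht, mem_closedBall_zero_iff.2 (Real.le_sqrt_of_sq_le
    ((le_div_iff₀ hm).2 (by rw [mul_comm, ← hE t ht]; exact hbound _ (hA' t ht) _)))⟩
  simpa [hχ1 _ htC] using hz t ht

/-- Geodesics in `M` with the same data agree. -/
lemma geodesic_eqOn (hM : IsOpen M) (hg : IsKahlerMetricOn g M) (hΓ : IsLeviCivitaOn g Γ M)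
    {S : ℝ} (hS : 0 < S) {z w : ℝ → C3 × C3}
    (hz : ∀ t ∈ Icc (-S) S, (z t).1 ∈ M ∧ HasDerivAt z (geoField Γ (z t)) t)
    (hw : ∀ t ∈ Icc (-S) S, (w t).1 ∈ M ∧ HasDerivAt w (geoField Γ (w t)) t)
    (h0 : z 0 = w 0) : EqOn z w (Ioo (-S) S) := by
  have hC : IsCompact (z '' Icc (-S) S ∪ w '' Icc (-S) S) :=
    (isCompact_Icc.image_of_continuousOn fun t ht => (hz t ht).2.continuousAt.continuousWithinAt).union
      (isCompact_Icc.image_of_continuousOn fun t ht => (hw t ht).2.continuousAt.continuousWithinAt)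
  obtain ⟨χ, -, hχ1, -, L, B, hL, -⟩ := exists_cutoff hM hg hΓ hC (by
    rintro x (⟨t, ht, rfl⟩ | ⟨t, ht, rfl⟩)
    exacts [⟨(hz t ht).1, trivial⟩, ⟨(hw t ht).1, trivial⟩])
  refine ODE_solution_unique_of_mem_Ioo (v := fun _ x => χ x • geoField Γ x) (K := L)
    (s := fun _ => univ) (fun _ _ => hL.lipschitzOnWith) ⟨by linarith, hS⟩
    (fun t ht => ⟨?_, trivial⟩) (fun t ht => ⟨?_, trivial⟩) h0
  · simpa [hχ1 _ (Or.inl ⟨t, Ioo_subset_Icc_self ht, rfl⟩)] using (hz t (Ioo_subset_Icc_self ht)).2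
  · simpa [hχ1 _ (Or.inr ⟨t, Ioo_subset_Icc_self ht, rfl⟩)] using (hw t (Ioo_subset_Icc_self ht)).2

/-- An exhaustion with bounded gradient makes the metric geodesically complete. -/
theorem geodesicallyComplete_of_exhaustion (hM : IsOpen M) (hg : IsKahlerMetricOn g M)
    (hΓ : IsLeviCivitaOn g Γ M) (ρ : C3 → ℝ) (hρ : ContDiffOn ℝ ∞ ρ M)
    (hcpt : ∀ c, IsCompact {p | p ∈ M ∧ ρ p ≤ c})
    (hgrad : ∃ K, ∀ p ∈ M, ∀ v, |fderiv ℝ ρ p v| ≤ K * Real.sqrt (g p v v)) :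
    GeodesicallyComplete Γ M := by
  intro p hp v
  have loc : ∀ T : ℝ, 0 < T → ∃ z : ℝ → C3 × C3, z 0 = (p, v) ∧
      ∀ t ∈ Ioo (-T) T, (z t).1 ∈ M ∧ HasDerivAt z (geoField Γ (z t)) t :=
    fun T hT => exists_geodesic_on hM hg hΓ ρ hρ hcpt hgrad hp v hT
  choose! Z hZ0 hZ using loc
  set G : ℝ → C3 × C3 := fun t => Z (|t| + 2) t
  have hG : ∀ t, (G t).1 ∈ M ∧ HasDerivAt G (geoField Γ (G t)) t := by
    intro t
    have hpos : 0 < |t| + 3 := by positivity
    have hmem : ∀ s : ℝ, |s| < |t| + 3 → s ∈ Ioo (-(|t| + 3)) (|t| + 3) :=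
      fun s hs => abs_lt.1 hs
    have key : ∀ s ∈ Ioo (t - 1) (t + 1), G s = Z (|t| + 3) s := by
      intro s hs
      have h1 : |s| ≤ |t| + 1 := abs_le.2 ⟨by linarith [hs.1, neg_abs_le t],
        by linarith [hs.2, le_abs_self t]⟩
      exact geodesic_eqOn hM hg hΓ (S := |s| + 1) (by positivity)
        (fun r hr => hZ _ (by positivity) r (abs_lt.1 (by linarith [abs_le.2 hr])))
        (fun r hr => hZ _ hpos r (abs_lt.1 (by linarith [abs_le.2 hr])))
        (by rw [hZ0 _ (by positivity), hZ0 _ hpos]) (abs_lt.1 (by linarith))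
    have h := hZ _ hpos t (hmem t (by linarith))
    have ht := key t ⟨by linarith, by linarith⟩
    rw [ht]
    exact ⟨h.1, h.2.congr_of_eventuallyEq
      (eventually_of_mem (Ioo_mem_nhds (by linarith) (by linarith)) key)⟩
  refine ⟨fun t => (G t).1, fun t => (G t).2, ?_, ?_, fun t => ⟨(hG t).1, ?_, ?_⟩⟩
  · simp [G, hZ0]
  · simp [G, hZ0]
  · exact (hasDerivAt_parts (hG t).2).1
  · exact (hasDerivAt_parts (hG t).2).2

end Vale.BDU
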