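import Vale.Agent.BDU.Pinching

/-!
# P250: the invariants of a real two-plane and their algebra

For `u, v : C3` (fibre coordinate `2`, weight `c`) the six invariants of `PlaneData`, and the
identities expressing the area and the model curvature terms through them.
-/

open Complex ComplexConjugate

namespace Vale.BDU

/-- The weighted horizontal Hermitian product. -/
noncomputable def pr (p q : ℝ) (a b : C3) : ℂ :=
  (p : ℂ) * (a 0 * conj (b 0)) + (q : ℂ) * (a 1 * conj (b 1))

/-- The symmetric product of the `i`-th coordinate with the fibre coordinate. -/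
noncomputable def symS (i : Fin 3) (a b : C3) : ℂ := a 2 * b i + b 2 * a i

/-- Mixed discriminant inequality for two positive semidefinite symmetric matrices. -/
lemma mixed_disc {A B C a b e : ℝ} (hA : 0 ≤ A) (hC : 0 ≤ C) (hD : 0 ≤ A * C - B ^ 2)
    (ha : 0 ≤ a) (he : 0 ≤ e) (hd : 0 ≤ a * e - b ^ 2) :
    2 * Real.sqrt ((A * C - B ^ 2) * (a * e - b ^ 2)) ≤ A * e + C * a - 2 * B * b := by
  rcases hA.eq_or_lt with rfl | hA'
  · have hB : B = 0 := by nlinarith [sq_nonneg B]
    subst hB
    simp only [zero_mul, ne_eq, OfNat.ofNat_ne_zero, not_false_eq_true, zero_pow, sub_zero,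
      zero_add, mul_zero, Real.sqrt_zero]
    positivity
  rcases ha.eq_or_lt with rfl | ha'
  · have hb : b = 0 := by nlinarith [sq_nonneg b]
    subst hb
    simp only [zero_mul, ne_eq, OfNat.ofNat_ne_zero, not_false_eq_true, zero_pow, sub_zero,
      mul_zero, Real.sqrt_zero, add_zero]
    positivity
  set s := Real.sqrt (A * C - B ^ 2) with hs
  set t := Real.sqrt (a * e - b ^ 2) with ht
  have hs2 : s ^ 2 = A * C - B ^ 2 := Real.sq_sqrt hD
  have ht2 : t ^ 2 = a * e - b ^ 2 := Real.sq_sqrt hd
  rw [Real.sqrt_mul hD, ← hs, ← ht]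
  have key : (a * A) * (A * e + C * a - 2 * B * b - 2 * (s * t))
      = (A * t - a * s) ^ 2 + (A * b - B * a) ^ 2 := by
    linear_combination (-(A ^ 2)) * ht2 - a ^ 2 * hs2
  have : 0 ≤ A * e + C * a - 2 * B * b - 2 * (s * t) := by
    refine nonneg_of_mul_nonneg_right (a := a * A) ?_ (mul_pos ha' hA')
    rw [key]; positivity
  linarith

lemma pr_im (p q : ℝ) (u v : C3) :
    (pr p q u v).im = p * (u 0 * conj (v 0)).im + q * (u 1 * conj (v 1)).im := by
  simp [pr]

/-- The Gram determinant of the horizontal weights. -/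
lemma gram_pr (p q : ℝ) (u v : C3) :
    (pr p q u u).re * (pr p q v v).re - (pr p q u v).re ^ 2
      = (p * (u 0 * conj (v 0)).im + q * (u 1 * conj (v 1)).im) ^ 2
        + p * q * normSq (u 0 * v 1 - u 1 * v 0) := by
  simp only [pr, normSq_apply, add_re, add_im, mul_re, mul_im, sub_re, sub_im, conj_re, conj_im,
    ofReal_re, ofReal_im]
  ring

/-- The invariants of the plane spanned by `u` and `v`. -/
noncomputable def planeOf (c : ℝ) (hc : 0 ≤ c) (u v : C3) : PlaneData where
  B1 := (u 0 * conj (v 0)).im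
  B2 := (u 1 * conj (v 1)).im
  F := c * (u 2 * conj (v 2)).im
  Z := normSq (u 0 * v 1 - u 1 * v 0)
  W1 := c * normSq (u 0 * conj (v 2) - v 0 * conj (u 2))
  W2 := c * normSq (u 1 * conj (v 2) - v 1 * conj (u 2))
  hZ := normSq_nonneg _
  hZ' := by
    have h : normSq (u 0 * v 1 - u 1 * v 0)
        + 4 * (u 0 * conj (v 0)).im * (u 1 * conj (v 1)).im
        = normSq (u 0 * conj (v 1) - v 0 * conj (u 1)) := by
      simp only [normSq_apply, mul_re, mul_im, sub_re, sub_im, conj_re, conj_im]
      ring
    rw [h]; exact normSq_nonneg _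
  hW1 := mul_nonneg hc (normSq_nonneg _)
  hW2 := mul_nonneg hc (normSq_nonneg _)
  hM := by
    intro p q hp hq
    have e2 : (c * normSq (u 2)) * (c * normSq (v 2)) - (c * (u 2 * conj (v 2)).re) ^ 2
        = (c * (u 2 * conj (v 2)).im) ^ 2 := by
      simp only [normSq_apply, mul_re, mul_im, conj_re, conj_im]
      ring
    have d1 : 0 ≤ (pr p q u u).re * (pr p q v v).re - (pr p q u v).re ^ 2 := by
      rw [gram_pr]
      exact add_nonneg (sq_nonneg _) (mul_nonneg (mul_nonneg hp hq) (normSq_nonneg _))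
    have nn : ∀ a : C3, 0 ≤ (pr p q a a).re := fun a => by
      simp only [pr, mul_conj, add_re, mul_re, ofReal_re, ofReal_im, mul_zero, sub_zero]
      exact add_nonneg (mul_nonneg hp (normSq_nonneg _)) (mul_nonneg hq (normSq_nonneg _))
    have h := mixed_disc (nn u) (nn v) d1 (mul_nonneg hc (normSq_nonneg (u 2)))
      (mul_nonneg hc (normSq_nonneg (v 2))) (e2 ▸ sq_nonneg _)
    rw [Real.sqrt_mul d1, gram_pr, e2, Real.sqrt_sq_eq_abs] at h
    have e3 : (pr p q u u).re * (c * normSq (v 2)) + (pr p q v v).re * (c * normSq (u 2))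
          - 2 * (pr p q u v).re * (c * (u 2 * conj (v 2)).re)
        = p * (c * normSq (u 0 * conj (v 2) - v 0 * conj (u 2)))
          + q * (c * normSq (u 1 * conj (v 2) - v 1 * conj (u 2)))
          - 2 * (p * (u 0 * conj (v 0)).im + q * (u 1 * conj (v 1)).im)
            * (c * (u 2 * conj (v 2)).im) := by
      simp only [pr, normSq_apply, add_re, mul_re, mul_im, sub_re, sub_im, conj_re, conj_im,
        ofReal_re, ofReal_im]
      ring
    linarith [e3]

variable (c : ℝ) (hc : 0 ≤ c) (u v : C3)

/-- The squared area. -/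
lemma planeOf_area (h1 h2 : ℝ) :
    (pr h1 h2 u u + (c : ℂ) * u 2 * conj (u 2)).re * (pr h1 h2 v v + (c : ℂ) * v 2 * conj (v 2)).re
      - (pr h1 h2 u v + (c : ℂ) * u 2 * conj (v 2)).re ^ 2
    = (planeOf c hc u v).dW h1 h2 + (planeOf c hc u v).F ^ 2
      + (h1 * (planeOf c hc u v).W1 + h2 * (planeOf c hc u v).W2
        - 2 * (planeOf c hc u v).iW h1 h2 * (planeOf c hc u v).F) := by
  simp only [planeOf, PlaneData.dW, PlaneData.iW, pr, normSq_apply, add_re, mul_re, mul_im, sub_re,
    sub_im, conj_re, conj_im, ofReal_re, ofReal_im]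
  ring

/-- The horizontal constant-curvature term. -/
lemma planeOf_self (p q : ℝ) :
    (pr p q u v * pr p q u v + pr p q u v * pr p q u v).re
      - (pr p q u v * pr p q v u + pr p q u u * pr p q v v).re
    = -((planeOf c hc u v).dW p q + 3 * (planeOf c hc u v).iW p q ^ 2) := by
  simp only [planeOf, PlaneData.dW, PlaneData.iW, pr, normSq_apply, add_re, add_im, mul_re, mul_im,
    sub_re, sub_im, conj_re, conj_im, ofReal_re, ofReal_im]
  ring

/-- The first mixed term. -/
lemma planeOf_mixed0 :
    c * ((symS 0 u u * conj (symS 0 v v)).re - normSq (symS 0 u v))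
      = -((planeOf c hc u v).W1 + 4 * (planeOf c hc u v).B1 * (planeOf c hc u v).F) := by
  simp only [planeOf, symS, normSq_apply, add_re, add_im, mul_re, mul_im, sub_re, sub_im, conj_re,
    conj_im, map_add, map_mul]
  ring

/-- The second mixed term. -/
lemma planeOf_mixed1 :
    c * ((symS 1 u u * conj (symS 1 v v)).re - normSq (symS 1 u v))
      = -((planeOf c hc u v).W2 + 4 * (planeOf c hc u v).B2 * (planeOf c hc u v).F) := by
  simp only [planeOf, symS, normSq_apply, add_re, add_im, mul_re, mul_im, sub_re, sub_im, conj_re,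
    conj_im, map_add, map_mul]
  ring

/-- The fibre term. -/
lemma planeOf_fibre :
    c ^ 2 * ((u 2 * u 2 * conj (v 2 * v 2)).re - normSq (u 2 * v 2))
      = -2 * (planeOf c hc u v).F ^ 2 := by
  simp only [planeOf, normSq_apply, mul_re, mul_im, conj_re, conj_im, map_mul]
  ring

/-- The antisymmetrised products `ξ_ab = u_a conj v_b - v_a conj u_b`. -/
noncomputable def planeXi (u v : C3) (a b : Fin 3) : ℂ := u a * conj (v b) - v a * conj (u b)

lemma norm_planeXi_le (k m : Fin 2) :
    ‖planeXi u v k.castSucc m.castSucc‖ ≤ 2 * (planeOf c hc u v).rW 1 1 := by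
  set P := planeOf c hc u v with hP
  have hJ : 0 ≤ P.Z + 2 * P.B1 * P.B2 := by linarith [P.hZ, P.hZ']
  have hd : P.dW 1 1 = (P.B1 + P.B2) ^ 2 + P.Z := by simp [PlaneData.dW, PlaneData.iW]
  have hr := P.sq_rW (p := 1) (q := 1) zero_le_one zero_le_one
  have key : normSq (planeXi u v k.castSucc m.castSucc) ≤ 4 * P.dW 1 1 := by
    have h00 : normSq (planeXi u v 0 0) = 4 * P.B1 ^ 2 := by
      simp only [hP, planeOf, planeXi, normSq_apply, mul_re, mul_im, sub_re, sub_im, conj_re,
        conj_im]
      ring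
    have h11 : normSq (planeXi u v 1 1) = 4 * P.B2 ^ 2 := by
      simp only [hP, planeOf, planeXi, normSq_apply, mul_re, mul_im, sub_re, sub_im, conj_re,
        conj_im]
      ring
    have h01 : normSq (planeXi u v 0 1) = P.Z + 4 * P.B1 * P.B2 := by
      simp only [hP, planeOf, planeXi, normSq_apply, mul_re, mul_im, sub_re, sub_im, conj_re,
        conj_im]
      ring
    have h10 : normSq (planeXi u v 1 0) = P.Z + 4 * P.B1 * P.B2 := by
      simp only [hP, planeOf, planeXi, normSq_apply, mul_re, mul_im, sub_re, sub_im, conj_re,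
        conj_im]
      ring
    rw [hd]
    fin_cases k <;> fin_cases m
    · change normSq (planeXi u v 0 0) ≤ _
      rw [h00]; nlinarith [sq_nonneg P.B2]
    · change normSq (planeXi u v 0 1) ≤ _
      rw [h01]; nlinarith [sq_nonneg (P.B1 - P.B2), P.hZ']
    · change normSq (planeXi u v 1 0) ≤ _
      rw [h10]; nlinarith [sq_nonneg (P.B1 - P.B2), P.hZ']
    · change normSq (planeXi u v 1 1) ≤ _
      rw [h11]; nlinarith [sq_nonneg P.B1]
  rw [← hr, ← Complex.sq_norm] at key
  nlinarith [norm_nonneg (planeXi u v k.castSucc m.castSucc), P.rW_nonneg 1 1]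

lemma norm_planeXi_fibre_le (l : Fin 2) :
    Real.sqrt c * ‖planeXi u v l.castSucc 2‖
      ≤ Real.sqrt ((planeOf c hc u v).W1 + (planeOf c hc u v).W2) := by
  rw [Complex.norm_def, ← Real.sqrt_mul hc]
  apply Real.sqrt_le_sqrt
  have h1 := (planeOf c hc u v).hW1
  have h2 := (planeOf c hc u v).hW2
  fin_cases l
  · change _ ≤ c * normSq (planeXi u v 0 2) + (planeOf c hc u v).W2
    exact le_add_of_nonneg_right h2
  · change _ ≤ (planeOf c hc u v).W1 + c * normSq (planeXi u v 1 2)
    exact le_add_of_nonneg_left h1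

/-- A quartic horizontal form symmetric in both pairs of indices. -/
noncomputable def quartic (r : Fin 2 → Fin 2 → Fin 2 → Fin 2 → ℂ) (a b d e : C3) : ℂ :=
  ∑ k, ∑ l, ∑ m, ∑ n,
    r k l m n * a k.castSucc * b l.castSucc * conj (d m.castSucc) * conj (e n.castSucc)

/-- The quartic error term. -/
lemma planeOf_quartic {r : Fin 2 → Fin 2 → Fin 2 → Fin 2 → ℂ} {K : ℝ}
    (hs : ∀ k l m n, r k l m n = r l k m n) (ht : ∀ k l m n, r k l m n = r k l n m) (hK : ‖r‖ ≤ K) :
    |((quartic r u u v v).re + (quartic r v v u u).re) / 2 - (quartic r u v u v).re|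
      ≤ 32 * K * (planeOf c hc u v).dW 1 1 := by
  set P := planeOf c hc u v
  have hK0 : 0 ≤ K := (norm_nonneg r).trans hK
  have e : quartic r u u v v + quartic r v v u u - 2 * quartic r u v u v
      = ∑ k, ∑ l, ∑ m, ∑ n, r k l m n
        * (planeXi u v k.castSucc m.castSucc * planeXi u v l.castSucc n.castSucc) := by
    simp only [quartic, planeXi, Fin.sum_univ_two, hs 1 0, ht _ _ 1 0]
    ring
  have hb : ‖quartic r u u v v + quartic r v v u u - 2 * quartic r u v u v‖
      ≤ 64 * K * P.dW 1 1 := by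
    rw [e]
    have h1 : ∀ k l m n : Fin 2, ‖r k l m n
        * (planeXi u v k.castSucc m.castSucc * planeXi u v l.castSucc n.castSucc)‖
          ≤ 4 * K * P.dW 1 1 := by
      intro k l m n
      have hr : ‖r k l m n‖ ≤ K :=
        ((norm_le_pi_norm (r k l m) n).trans ((norm_le_pi_norm (r k l) m).trans
          ((norm_le_pi_norm (r k) l).trans (norm_le_pi_norm r k)))).trans hK
      have hx := mul_le_mul (norm_planeXi_le c hc u v k m) (norm_planeXi_le c hc u v l n)
        (norm_nonneg _) (mul_nonneg zero_le_two (P.rW_nonneg 1 1))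
      have := mul_le_mul hr hx (by positivity) hK0
      rw [norm_mul, norm_mul]
      have hsq := P.sq_rW (p := 1) (q := 1) zero_le_one zero_le_one
      nlinarith
    refine (norm_sum_le _ _).trans ?_
    refine (Finset.sum_le_sum fun k _ => (norm_sum_le _ _).trans (Finset.sum_le_sum fun l _ =>
      (norm_sum_le _ _).trans (Finset.sum_le_sum fun m _ => (norm_sum_le _ _).trans
        (Finset.sum_le_sum fun n _ => h1 k l m n)))).trans (le_of_eq ?_)
    simp only [Fin.sum_univ_two]
    ring
  have := (Complex.abs_re_le_norm _).trans hb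
  simp only [sub_re, add_re, mul_re, re_ofNat, im_ofNat, zero_mul, sub_zero] at this
  rw [abs_le] at this ⊢
  constructor <;> linarith [this.1, this.2]

/-- A horizontal bilinear form for each horizontal index. -/
noncomputable def crossT (T : Fin 2 → Fin 2 → Fin 2 → ℂ) (j : Fin 2) (a b : C3) : ℂ :=
  ∑ k, ∑ l, T j k l * a k.castSucc * b l.castSucc

/-- The cross error term. -/
lemma planeOf_cross {T : Fin 2 → Fin 2 → Fin 2 → ℂ} {K : ℝ}
    (hs : ∀ j k l, T j k l = T j l k) (hK : ‖T‖ ≤ K) :
    Real.sqrt c * |(∑ j : Fin 2, (crossT T j u u * conj (symS j.castSucc v v)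
        + crossT T j v v * conj (symS j.castSucc u u)
        - 2 * crossT T j u v * conj (symS j.castSucc u v))).re|
      ≤ 32 * K * (planeOf c hc u v).rW 1 1
        * Real.sqrt ((planeOf c hc u v).W1 + (planeOf c hc u v).W2) := by
  set P := planeOf c hc u v
  have hK0 : 0 ≤ K := (norm_nonneg T).trans hK
  have e : (∑ j : Fin 2, (crossT T j u u * conj (symS j.castSucc v v)
        + crossT T j v v * conj (symS j.castSucc u u)
        - 2 * crossT T j u v * conj (symS j.castSucc u v)))
      = ∑ j : Fin 2, ∑ k, ∑ l,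
        2 * T j k l * (planeXi u v k.castSucc j.castSucc * planeXi u v l.castSucc 2) := by
    simp only [crossT, symS, planeXi, Fin.sum_univ_two, hs _ 1 0, map_add, map_mul]
    ring
  have h1 : ∀ j k l : Fin 2, Real.sqrt c *
      ‖2 * T j k l * (planeXi u v k.castSucc j.castSucc * planeXi u v l.castSucc 2)‖
        ≤ 4 * K * P.rW 1 1 * Real.sqrt (P.W1 + P.W2) := by
    intro j k l
    have hT : ‖T j k l‖ ≤ K :=
      ((norm_le_pi_norm (T j k) l).trans
        ((norm_le_pi_norm (T j) k).trans (norm_le_pi_norm T j))).trans hK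
    have hx := mul_le_mul (norm_planeXi_le c hc u v k j) (norm_planeXi_fibre_le c hc u v l)
      (by positivity) (mul_nonneg zero_le_two (P.rW_nonneg 1 1))
    have := mul_le_mul hT hx (by positivity) hK0
    rw [norm_mul, norm_mul, norm_mul, Complex.norm_two]
    nlinarith
  rw [e]
  calc Real.sqrt c * |(∑ j : Fin 2, ∑ k, ∑ l,
          2 * T j k l * (planeXi u v k.castSucc j.castSucc * planeXi u v l.castSucc 2)).re|
      ≤ Real.sqrt c * ∑ j : Fin 2, ∑ k, ∑ l,
          ‖2 * T j k l * (planeXi u v k.castSucc j.castSucc * planeXi u v l.castSucc 2)‖ := by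
        refine mul_le_mul_of_nonneg_left ((Complex.abs_re_le_norm _).trans ?_) (Real.sqrt_nonneg _)
        exact (norm_sum_le _ _).trans (Finset.sum_le_sum fun j _ => (norm_sum_le _ _).trans
          (Finset.sum_le_sum fun k _ => norm_sum_le _ _))
    _ ≤ _ := by
        simp only [Finset.mul_sum]
        refine (Finset.sum_le_sum fun j _ => Finset.sum_le_sum fun k _ =>
          Finset.sum_le_sum fun l _ => h1 j k l).trans (le_of_eq ?_)
        simp only [Fin.sum_univ_two]
        ring

end Vale.BDU
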