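import Vale.Agent.BDU.PointTensor
import Vale.Agent.BDU.PlaneAlgebra

/-!
# P250: the curvature at an adapted point is negatively pinched
-/

open scoped ContDiff
open ComplexConjugate

namespace Vale.BDU

lemma curvTensor_conj {M : Set C3} {P : C3 → ℝ} (hM : IsOpen M) (hP : ContDiffOn ℝ ∞ P M)
    {p : C3} (hp : p ∈ M) (Z X W Y : C3) :
    conj (curvTensor P p Z X W Y) = curvTensor P p W Y Z X := by
  have h1 : conj (fourth P Z X W Y p) = fourth P W Y Z X p := conj_fourth hM hP Z X W Y hp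
  have h2 : conj (herm P (gamma P p Z X) (gamma P p W Y) p)
      = herm P (gamma P p W Y) (gamma P p Z X) p := conj_herm hM hP _ _ hp
  simp only [curvTensor, map_sub, h1, h2]

variable {φ : V2 → ℝ} {q : C3} {b w d1 d2 : ℝ}

/-- The quartic coefficient. -/
noncomputable def quartAt (φ : V2 → ℝ) (q : C3) (b w d1 d2 : ℝ) :
    Fin 2 → Fin 2 → Fin 2 → Fin 2 → ℂ :=
  fun k l m n => jet4 φ q k l m n
    - ∑ j : Fin 2, ((b * uAt w / hAt b w d1 d2 j : ℝ) : ℂ) * (jet3 φ q j k l * conj (jet3 φ q j m n))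

/-- The cross coefficient. -/
noncomputable def crossAt (φ : V2 → ℝ) (q : C3) (b w d1 d2 : ℝ) : Fin 2 → Fin 2 → Fin 2 → ℂ :=
  fun j k l => (((1 + b * uAt w) / hAt b w d1 d2 j : ℝ) : ℂ) * jet3 φ q j k l

lemma tensorAt_eq (hx : 1 + b * uAt w ≠ 0) (Z X W Y : C3) :
    tensorAt φ q b w d1 d2 Z X W Y =
      (pr 1 1 X Y * pr 1 1 Z W + pr 1 1 Z Y * pr 1 1 X W)
      + ((cAt b w * w ^ 2 : ℝ) : ℂ)
          * (pr d1 d2 Z W * pr d1 d2 X Y + pr d1 d2 X W * pr d1 d2 Z Y)
      + (((1 + 2 * uAt w) * d1 - cAt b w * w ^ 2 * d1 ^ 2 / hAt b w d1 d2 0 : ℝ) : ℂ)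
          * ((cAt b w : ℂ) * (symS 0 Z X * conj (symS 0 W Y)))
      + (((1 + 2 * uAt w) * d2 - cAt b w * w ^ 2 * d2 ^ 2 / hAt b w d1 d2 1 : ℝ) : ℂ)
          * ((cAt b w : ℂ) * (symS 1 Z X * conj (symS 1 W Y)))
      + ((2 / b * cAt b w ^ 2 : ℝ) : ℂ) * (Z 2 * X 2 * conj (W 2 * Y 2))
      + ((b * uAt w : ℝ) : ℂ) * quartic (quartAt φ q b w d1 d2) Z X W Y
      + ((cAt b w * w / (1 + b * uAt w) : ℝ) : ℂ) * ∑ j : Fin 2,
          (crossT (crossAt φ q b w d1 d2) j Z X * conj (symS j.castSucc W Y)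
            + symS j.castSucc Z X * conj (crossT (crossAt φ q b w d1 d2) j W Y)) := by
  have hx' : ((1 + b * uAt w : ℝ) : ℂ) ≠ 0 := Complex.ofReal_ne_zero.2 hx
  have e : ∀ j, ((cAt b w * w / (1 + b * uAt w) : ℝ) : ℂ)
      * (((1 + b * uAt w) / hAt b w d1 d2 j : ℝ) : ℂ) = ((cAt b w * w / hAt b w d1 d2 j : ℝ) : ℂ) :=
    fun j => by rw [← Complex.ofReal_mul]; congr 1; field_simp
  simp only [tensorAt, pr, dot2, sMix, symS, tForm, quartic, quartAt, crossT, crossAt,
    Fin.sum_univ_two, map_add, map_mul, Complex.conj_ofReal, ← e]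
  simp only [Fin.castSucc_zero, show (Fin.castSucc (1 : Fin 2)) = (1 : Fin 3) from rfl]
  push_cast
  ring

lemma re_swap (a b : ℂ) : (b * conj a).re = (a * conj b).re := by
  rw [← Complex.conj_re, map_mul, Complex.conj_conj, mul_comm]

theorem curvature_at (K : ℝ) (hK : 1 ≤ K) :
    ∃ b a0 B0 : ℝ, 0 < b ∧ b ≤ 1 ∧ 0 < a0 ∧
      ∀ (φ : V2 → ℝ) (q : C3) (w d1 d2 : ℝ), Adapted φ q w d1 d2 →
        1 ≤ d1 → d1 ≤ K → 1 ≤ d2 → d2 ≤ K →
        (∀ Z X Y, ‖third (fun r => φ (zc r)) Z X Y q‖ ≤ K * ‖Z‖ * ‖X‖ * ‖Y‖) →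
        (∀ Z X W Y, ‖fourth (fun r => φ (zc r)) Z X W Y q‖ ≤ K * ‖Z‖ * ‖X‖ * ‖W‖ * ‖Y‖) →
        PosNear b φ q →
        ∀ u v : C3,
          a0 * areaSq (metricOf (modelPot b fun r => φ (zc r))) q u v
              ≤ -curvNum (metricOf (modelPot b fun r => φ (zc r)))
                  (gamma (modelPot b fun r => φ (zc r))) q u v ∧
            -curvNum (metricOf (modelPot b fun r => φ (zc r)))
                  (gamma (modelPot b fun r => φ (zc r))) q u v
              ≤ B0 * areaSq (metricOf (modelPot b fun r => φ (zc r))) q u v := by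
  set C := 32 * (K + 2 * (K * K)) with hC
  have hC0 : 0 ≤ C := by positivity
  obtain ⟨b, a0, B0, hb, hb1, ha0, hpin⟩ := pinching K C hK hC0
  refine ⟨b, a0, B0, hb, hb1, ha0, fun φ q w d1 d2 h hd1 hd1K hd2 hd2K h3 h4 hpos u v => ?_⟩
  have hΨ := contDiffOn_base h.smooth
  have hM := isOpen_modelDom hΨ
  have hP := contDiffOn_modelPot hΨ b
  have hcy := modelDom_subset _ h.mem
  have d10 : (0:ℝ) ≤ d1 := by linarith
  have d20 : (0:ℝ) ≤ d2 := by linarith
  have h1w : 0 < 1 - w ^ 2 := sub_pos.2 h.wlt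
  set U := uAt w with hU
  have hU0 : 0 ≤ U := div_nonneg (sq_nonneg w) h1w.le
  set c := cAt b w with hc
  have hc0 : 0 ≤ c := by rw [hc, cAt]; positivity
  have hx0 : 0 ≤ b * U := mul_nonneg hb.le hU0
  have hx1 : 1 + b * U ≠ 0 := by positivity
  have hhj : ∀ j, 1 + b * U ≤ hAt b w d1 d2 j := fun j => by
    have : (1:ℝ) ≤ if j = 0 then d1 else d2 := by split_ifs <;> assumption
    rw [hAt, ← hU]; linarith [mul_le_mul_of_nonneg_left this hx0]
  have hh0 : ∀ j, 0 < hAt b w d1 d2 j := fun j => hAt_pos hb.le h.wlt d10 d20 j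
  -- bounds on the coefficients
  have b3 : ∀ j k l, ‖jet3 φ q j k l‖ ≤ K := fun j k l =>
    (h3 _ _ _).trans (by simp [norm_ev])
  have b4 : ∀ k l m n, ‖jet4 φ q k l m n‖ ≤ K := fun k l m n =>
    (h4 _ _ _ _).trans (by simp [norm_ev])
  have hK0 : 0 ≤ K := by linarith
  have hT : ‖crossAt φ q b w d1 d2‖ ≤ K := by
    refine (pi_norm_le_iff_of_nonneg hK0).2 fun j => (pi_norm_le_iff_of_nonneg hK0).2 fun k =>
      (pi_norm_le_iff_of_nonneg hK0).2 fun l => ?_
    rw [crossAt, norm_mul, Complex.norm_real, Real.norm_eq_abs]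
    have : |(1 + b * uAt w) / hAt b w d1 d2 j| ≤ 1 := by
      rw [← hU, abs_div, abs_of_pos (hh0 j), abs_of_nonneg (by positivity), div_le_one (hh0 j)]
      exact hhj j
    calc _ ≤ 1 * K := mul_le_mul this (b3 j k l) (norm_nonneg _) zero_le_one
      _ = K := one_mul K
  have hR4 : ‖quartAt φ q b w d1 d2‖ ≤ K + 2 * (K * K) := by
    have h0 : 0 ≤ K + 2 * (K * K) := by positivity
    refine (pi_norm_le_iff_of_nonneg h0).2 fun k => (pi_norm_le_iff_of_nonneg h0).2 fun l =>
      (pi_norm_le_iff_of_nonneg h0).2 fun m => (pi_norm_le_iff_of_nonneg h0).2 fun n => ?_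
    refine (norm_sub_le _ _).trans (add_le_add (b4 k l m n) ((norm_sum_le _ _).trans ?_))
    refine (Finset.sum_le_sum (g := fun _ => K * K) fun j _ => ?_).trans (le_of_eq (by simp))
    rw [norm_mul, norm_mul, Complex.norm_real, Real.norm_eq_abs, Complex.norm_conj]
    have : |b * uAt w / hAt b w d1 d2 j| ≤ 1 := by
      rw [← hU, abs_div, abs_of_pos (hh0 j), abs_of_nonneg hx0, div_le_one (hh0 j)]
      linarith [hhj j]
    calc _ ≤ 1 * (K * K) := mul_le_mul this (mul_le_mul (b3 j k l) (b3 j m n) (norm_nonneg _) hK0)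
          (by positivity) zero_le_one
      _ = K * K := one_mul _
  have c3 : ∀ j k l, jet3 φ q j k l = jet3 φ q j l k := fun j k l =>
    third_comm isOpen_cyl hΨ _ _ _ hcy
  have c4 : ∀ k l m n, jet4 φ q k l m n = jet4 φ q l k m n ∧
      jet4 φ q k l m n = jet4 φ q k l n m := fun k l m n =>
    ⟨fourth_comm_left isOpen_cyl hΨ _ _ _ _ hcy, fourth_comm_right isOpen_cyl hΨ _ _ _ _ hcy⟩
  set P := planeOf c hc0 u v with hPdef
  have hs : ∀ k l m n, quartAt φ q b w d1 d2 k l m n = quartAt φ q b w d1 d2 l k m n :=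
    fun k l m n => by simp only [quartAt, ← (c4 k l m n).1, c3 _ l k]
  have ht : ∀ k l m n, quartAt φ q b w d1 d2 k l m n = quartAt φ q b w d1 d2 k l n m :=
    fun k l m n => by simp only [quartAt, ← (c4 k l m n).2, c3 _ n m]
  have hsT : ∀ j k l, crossAt φ q b w d1 d2 j k l = crossAt φ q b w d1 d2 j l k :=
    fun j k l => by simp only [crossAt, c3 j k l]
  have hq := planeOf_quartic c hc0 u v hs ht hR4
  have hX := planeOf_cross c hc0 u v hsT hT
  rw [← hPdef] at hq hX
  set Qr := ((quartic (quartAt φ q b w d1 d2) u u v v).re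
    + (quartic (quartAt φ q b w d1 d2) v v u u).re) / 2
    - (quartic (quartAt φ q b w d1 d2) u v u v).re with hQr
  set Xr := (∑ j : Fin 2, (crossT (crossAt φ q b w d1 d2) j u u * conj (symS j.castSucc v v)
    + crossT (crossAt φ q b w d1 d2) j v v * conj (symS j.castSucc u u)
    - 2 * crossT (crossAt φ q b w d1 d2) j u v * conj (symS j.castSucc u v))).re with hXr
  set R := -(b * U * Qr + c * w / (1 + b * U) * Xr) with hR
  have hsym : (curvTensor (modelPot b fun r => φ (zc r)) q v v u u).re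
      = (curvTensor (modelPot b fun r => φ (zc r)) q u u v v).re := by
    rw [← curvTensor_conj hM hP h.mem u u v v, Complex.conj_re]
  have hcurv : curvNum (metricOf (modelPot b fun r => φ (zc r)))
      (gamma (modelPot b fun r => φ (zc r))) q u v = -qTotal P b U d1 d2 R := by
    have e1 : curvNum (metricOf (modelPot b fun r => φ (zc r)))
        (gamma (modelPot b fun r => φ (zc r))) q u v =
        ((tensorAt φ q b w d1 d2 u u v v).re + (tensorAt φ q b w d1 d2 v v u u).re) / 2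
          - (tensorAt φ q b w d1 d2 u v u v).re := by
      simp only [← h.curvTensor_eq hb d10 d20 hpos, hsym, curvNum_eq hM hP h.mem]
      ring
    have hself : ∀ p p' : ℝ, ((pr p p' u v * pr p p' u v + pr p p' u v * pr p p' u v).re
        + (pr p p' v u * pr p p' v u + pr p p' v u * pr p p' v u).re) / 2
        - (pr p p' u u * pr p p' v v + pr p p' v u * pr p p' u v).re
          = -(P.dW p p' + 3 * P.iW p p' ^ 2) := fun p p' => by
      rw [hPdef, ← planeOf_self c hc0 u v p p']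
      have : pr p p' v u = conj (pr p p' u v) := by simp [pr]; ring
      rw [this]
      simp only [Complex.add_re, Complex.mul_re, Complex.conj_re, Complex.conj_im]
      ring
    have hm : ∀ i : Fin 3, (symS i u v * conj (symS i u v)).re = Complex.normSq (symS i u v) :=
      fun i => by rw [Complex.mul_conj]; simp
    have hf : (u 2 * v 2 * conj (u 2 * v 2)).re = Complex.normSq (u 2 * v 2) := by
      rw [Complex.mul_conj]; simp
    have k0 := hself 1 1
    have k1 := hself d1 d2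
    have k2 := planeOf_mixed0 c hc0 u v
    have k3 := planeOf_mixed1 c hc0 u v
    have k4 := planeOf_fibre c hc0 u v
    rw [← hPdef] at k2 k3 k4
    have eE : ∀ d d' : ℝ, d' = 1 + b * U * d → 0 < d' →
        (1 + 2 * U) * d - c * w ^ 2 * d ^ 2 / d'
          = (1 + 2 * U - (1 + U) * (b * U * d / (1 + b * U * d))) * d := fun d d' e hd' => by
      have hc2 : c * w ^ 2 = b * (U * (1 + U)) := by
        rw [hc, hU, cAt, uAt]; field_simp; ring
      rw [hc2, e]
      rw [e] at hd'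
      field_simp
    have E0 := eE d1 (hAt b w d1 d2 0) (by rw [hAt, ← hU]; simp) (hh0 0)
    have E1 := eE d2 (hAt b w d1 d2 1) (by rw [hAt, ← hU]; simp) (hh0 1)
    have hΦ : c * w ^ 2 = b * (U * (1 + U)) := by
      rw [hc, hU, cAt, uAt]; field_simp; ring
    rw [hΦ] at E0 E1
    have s0 := re_swap (symS 0 u u) (symS 0 v v)
    have s1 := re_swap (symS 1 u u) (symS 1 v v)
    have sf := re_swap (u 2 * u 2) (v 2 * v 2)
    rw [e1, qTotal, qMain, hR]
    simp only [tensorAt_eq (b := b) (w := w) hx1, ← hU, ← hc, E0, E1, hΦ]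
    simp only [hQr, hXr, Complex.add_re, Complex.sub_re, Complex.re_ofReal_mul, Fin.sum_univ_two,
      mul_assoc (2 : ℂ), Complex.mul_re (2 : ℂ), Complex.re_ofNat, Complex.im_ofNat, zero_mul,
      sub_zero, hm, hf, re_swap (crossT (crossAt φ q b w d1 d2) _ u v),
      re_swap (crossT (crossAt φ q b w d1 d2) _ u u), re_swap (crossT (crossAt φ q b w d1 d2) _ v v),
      mul_comm (pr 1 1 v v) (pr 1 1 u u), mul_comm (pr 1 1 v u) (pr 1 1 u v),
      mul_comm (pr d1 d2 v v) (pr d1 d2 u u), mul_comm (pr d1 d2 v u) (pr d1 d2 u v), s0, s1, sf]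
    simp only [Complex.add_re, mul_comm (pr 1 1 v u) (pr 1 1 u v),
      mul_comm (pr d1 d2 v u) (pr d1 d2 u v)] at k0 k1
    linear_combination k0 + (b * (U * (1 + U))) * k1
      + ((1 + 2 * U - (1 + U) * (b * U * d1 / (1 + b * U * d1))) * d1) * k2
      + ((1 + 2 * U - (1 + U) * (b * U * d2 / (1 + b * U * d2))) * d2) * k3
      + (2 / b) * k4
  have harea : areaSq (metricOf (modelPot b fun r => φ (zc r))) q u v
      = P.area (b * U) d1 d2 := by
    have e : ∀ A B : C3, metricOf (modelPot b fun r => φ (zc r)) q A B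
        = (pr (hAt b w d1 d2 0) (hAt b w d1 d2 1) A B + (c : ℂ) * A 2 * conj (B 2)).re := by
      intro A B
      rw [← herm_re hM hP h.mem, h.herm_at]
      simp only [pr, ← hc]
      congr 1
      ring
    rw [areaSq]
    simp only [gVal, gRow]
    rw [e, e, e, planeOf_area c hc0 u v, ← hPdef, PlaneData.area]
    simp [hAt, ← hU]
  rw [hcurv, harea, neg_neg]
  refine hpin P U d1 d2 R hU0 hd1 hd1K hd2 hd2K ?_
  have hD := P.dW_nonneg zero_le_one zero_le_one
  have hr := P.rW_nonneg 1 1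
  have hcw : |c * w| = Real.sqrt (b * (U * (1 + U))) * Real.sqrt c := by
    have e : b * (U * (1 + U)) = c * w ^ 2 := by rw [hc, hU, cAt, uAt]; field_simp; ring
    rw [e, Real.sqrt_mul hc0, Real.sqrt_sq_eq_abs, abs_mul, abs_of_nonneg hc0]
    linear_combination -|w| * Real.mul_self_sqrt hc0
  rw [hR, abs_neg]
  refine (abs_add_le _ _).trans (add_le_add ?_ ?_)
  · rw [abs_mul, abs_of_nonneg hx0]
    calc b * U * |Qr| ≤ b * U * (32 * (K + 2 * (K * K)) * P.dW 1 1) :=
          mul_le_mul_of_nonneg_left hq hx0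
      _ = _ := by rw [hC]; ring
  · rw [abs_mul, abs_div, hcw, abs_of_pos (by positivity : 0 < 1 + b * U)]
    calc Real.sqrt (b * (U * (1 + U))) * Real.sqrt c / (1 + b * U) * |Xr|
        = Real.sqrt (b * (U * (1 + U))) / (1 + b * U) * (Real.sqrt c * |Xr|) := by ring
      _ ≤ Real.sqrt (b * (U * (1 + U))) / (1 + b * U)
          * (32 * K * P.rW 1 1 * Real.sqrt (P.W1 + P.W2)) :=
          mul_le_mul_of_nonneg_left hX (by positivity)
      _ = 32 * K * (Real.sqrt (b * (U * (1 + U))) / (1 + b * U) * P.rW 1 1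
          * Real.sqrt (P.W1 + P.W2)) := by ring
      _ ≤ C * (Real.sqrt (b * (U * (1 + U))) / (1 + b * U) * P.rW 1 1
          * Real.sqrt (P.W1 + P.W2)) := by
          refine mul_le_mul_of_nonneg_right ?_ (by positivity)
          rw [hC]; linarith [mul_nonneg hK0 hK0]
      _ = _ := by ring

end Vale.BDU
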