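import Mathlib

/-!
# P250: bounded-domain uniformization — definitions

Riemannian notions on an open subset of `ℂ³` (regarded as a real vector space), written with
coordinate derivatives.
-/

open scoped ContDiff

namespace Vale.BDU

/-- Complex three-space. -/
abbrev C3 := Fin 3 → ℂ

/-- A field of real bilinear forms on complex three-space. -/
abbrev Form := C3 → C3 →L[ℝ] C3 →L[ℝ] ℝ

/-- The linear form `g_p(v, ·)`. -/
noncomputable abbrev gRow (g : Form) (p v : C3) : C3 →L[ℝ] ℝ := g p v

/-- The value `g_p(v,w)`. -/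
noncomputable abbrev gVal (g : Form) (p v w : C3) : ℝ := gRow g p v w

/-- The derivative of `g(v,w)` at `p` in the direction `u`. -/
noncomputable def dForm (g : Form) (p u v w : C3) : ℝ :=
  fderiv ℝ (fun q => gVal g q v w) p u

/-- The second derivative of `g(v,w)` at `p`, first along `b` and then along `a`. -/
noncomputable def ddForm (g : Form) (p a b v w : C3) : ℝ :=
  fderiv ℝ (fun q => dForm g q b v w) p a

/-- `g` is a smooth Kähler metric on the open set `M`: symmetric, positive definite, invariant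
under multiplication by `i`, with closed Kähler form `ω(v,w) = g(iv,w)`. -/
def IsKahlerMetricOn (g : Form) (M : Set C3) : Prop :=
  (∀ v w : C3, ContDiffOn ℝ ∞ (fun p => gVal g p v w) M) ∧
  ∀ p ∈ M,
    (∀ v w : C3, gVal g p v w = gVal g p w v) ∧
    (∀ v : C3, v ≠ 0 → 0 < gVal g p v v) ∧
    (∀ v w : C3, gVal g p (Complex.I • v) (Complex.I • w) = gVal g p v w) ∧
    (∀ u v w : C3, dForm g p u (Complex.I • v) w + dForm g p v (Complex.I • w) u
      + dForm g p w (Complex.I • u) v = 0)

/-- `Γ` is the Levi-Civita connection (Christoffel symbols) of `g` on `M`: Koszul's formula.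
For nondegenerate `g` this determines `Γ` on `M`. -/
def IsLeviCivitaOn (g : Form) (Γ : C3 → C3 → C3 → C3) (M : Set C3) : Prop :=
  ∀ p ∈ M, ∀ u v w : C3,
    2 * gVal g p (Γ p u v) w = dForm g p u v w + dForm g p v u w - dForm g p w u v

/-- The coordinate formula for `⟨R(u,v)v,u⟩`. -/
noncomputable def curvNum (g : Form) (Γ : C3 → C3 → C3 → C3) (p u v : C3) : ℝ :=
  ddForm g p u v u v
    - (1 / 2) * ddForm g p v v u u
    - (1 / 2) * ddForm g p u u v v
    + gVal g p (Γ p u v) (Γ p u v) - gVal g p (Γ p u u) (Γ p v v)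

/-- The squared area of the parallelogram spanned by `u` and `v`. -/
noncomputable def areaSq (g : Form) (p u v : C3) : ℝ :=
  gVal g p u u * gVal g p v v - gVal g p u v ^ 2

/-- The sectional curvature of every real two-plane lies in `[-b,-a]`. -/
def SectionalCurvatureIn (g : Form) (Γ : C3 → C3 → C3 → C3) (M : Set C3) (a b : ℝ) : Prop :=
  ∀ p ∈ M, ∀ u v : C3, 0 < areaSq g p u v →
    -b ≤ curvNum g Γ p u v / areaSq g p u v ∧ curvNum g Γ p u v / areaSq g p u v ≤ -a

/-- Geodesic completeness: every initial condition extends to a geodesic defined for all time. -/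
def GeodesicallyComplete (Γ : C3 → C3 → C3 → C3) (M : Set C3) : Prop :=
  ∀ p ∈ M, ∀ v : C3, ∃ γ γ' : ℝ → C3, γ 0 = p ∧ γ' 0 = v ∧
    ∀ t : ℝ, γ t ∈ M ∧ HasDerivAt γ (γ' t) t ∧ HasDerivAt γ' (-(Γ (γ t) (γ' t) (γ' t))) t

/-- `M` is biholomorphic to some bounded open subset of `ℂ³`. -/
def BiholomorphicToBoundedDomain (M : Set C3) : Prop :=
  ∃ (U : Set C3) (G H : C3 → C3), IsOpen U ∧ Bornology.IsBounded U ∧
    DifferentiableOn ℂ G M ∧ DifferentiableOn ℂ H U ∧
    Set.MapsTo G M U ∧ Set.MapsTo H U M ∧ Set.InvOn H G M U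

/-- The negation of bounded-domain uniformization in dimension three: a simply connected, complete,
negatively pinched Kähler three-fold that is not biholomorphic to a bounded domain. -/
def NegativelyPinchedCounterexample : Prop :=
  ∃ (M : Set C3) (g : Form) (Γ : C3 → C3 → C3 → C3) (a b : ℝ),
    IsOpen M ∧ IsConnected M ∧ SimplyConnectedSpace M ∧
    IsKahlerMetricOn g M ∧ IsLeviCivitaOn g Γ M ∧ GeodesicallyComplete Γ M ∧
    0 < a ∧ a ≤ b ∧ SectionalCurvatureIn g Γ M a b ∧
    ¬ BiholomorphicToBoundedDomain M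

end Vale.BDU
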