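import Vale.Agent.BDU.Setup

/-!
# P250: topology of the Hartogs domain, smoothness and properness of the potential
-/

open scoped ContDiff
open Set Filter Topology

namespace Vale.BDU

variable {ψ : V2 → ℝ}

lemma continuous_zc : Continuous zc :=
  (PiLp.continuous_toLp 2 _).comp (continuous_pi fun i => by fin_cases i <;> simp <;> fun_prop)

lemma contDiff_zc {n : WithTop ℕ∞} : ContDiff ℝ n zc :=
  (PiLp.contDiff_toLp).comp (contDiff_pi.2 fun i => by fin_cases i <;> simp <;> fun_prop)

/-- The point of `ℂ³` over `z` with last coordinate `w`. -/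
def lift3 (z : V2) (w : ℂ) : C3 := ![z 0, z 1, w]

lemma zc_lift3 (z : V2) (w : ℂ) : zc (lift3 z w) = z := by
  ext i; fin_cases i <;> simp [zc, lift3]

lemma lift3_two (z : V2) (w : ℂ) : lift3 z w 2 = w := by simp [lift3]

lemma lift3_zc (p : C3) : lift3 (zc p) (p 2) = p := by
  ext i; fin_cases i <;> simp [zc, lift3]

lemma continuous_lift3 : Continuous fun x : V2 × ℂ => lift3 x.1 x.2 :=
  continuous_pi fun i => by fin_cases i <;> simp [lift3] <;> fun_prop

lemma mem_ball2 {z : V2} : z ∈ ball2 ↔ ‖z‖ < 1 := mem_ball_zero_iff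

lemma hartogs_zc {p : C3} (hp : p ∈ hartogs ψ) : zc p ∈ ball2 := mem_ball2.2 hp.1

theorem isOpen_hartogs (hψ : ContinuousOn ψ ball2) : IsOpen (hartogs ψ) := by
  have hc : ContinuousOn (fun p : C3 => Complex.normSq (p 2) * Real.exp (ψ (zc p)))
      (zc ⁻¹' ball2) :=
    (Complex.continuous_normSq.comp (continuous_apply 2)).continuousOn.mul
      (Real.continuous_exp.comp_continuousOn
        (hψ.comp continuous_zc.continuousOn fun p hp => hp))
  have := hc.isOpen_inter_preimage (Metric.isOpen_ball.preimage continuous_zc) (isOpen_Iio (a := (1 : ℝ)))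
  convert this using 1
  ext p; simp [hartogs]

lemma smul_exp_mem {z : V2} (hz : z ∈ ball2) {s : ℂ} (hs : ‖s‖ < 1) :
    lift3 z (s * (Real.exp (-ψ z / 2) : ℝ)) ∈ hartogs ψ := by
  refine ⟨by rw [zc_lift3]; exact mem_ball2.1 hz, ?_⟩
  rw [zc_lift3, lift3_two, Complex.normSq_mul, Complex.normSq_ofReal, mul_assoc, ← Real.exp_add,
    ← Real.exp_add]
  have : -ψ z / 2 + -ψ z / 2 + ψ z = 0 := by ring
  rw [this, Real.exp_zero, mul_one, Complex.normSq_eq_norm_sq]
  nlinarith [norm_nonneg s]

/-- The Hartogs domain is the product of the ball and the disc. -/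
noncomputable def hartogsHomeo (hψ : ContinuousOn ψ ball2) :
    hartogs ψ ≃ₜ (ball2 × Metric.ball (0 : ℂ) 1 : Type) where
  toFun p := (⟨zc p, hartogs_zc p.2⟩, ⟨(p : C3) 2 * (Real.exp (ψ (zc p) / 2) : ℝ), by
    rw [mem_ball_zero_iff, norm_mul, Complex.norm_real, Real.norm_of_nonneg (Real.exp_pos _).le]
    have h := p.2.2
    rw [Complex.normSq_eq_norm_sq,
      show ψ (zc p) = ψ (zc p) / 2 + ψ (zc p) / 2 by ring, Real.exp_add] at h
    nlinarith [norm_nonneg ((p : C3) 2), Real.exp_pos (ψ (zc p) / 2)]⟩)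
  invFun x := ⟨lift3 x.1 ((x.2 : ℂ) * (Real.exp (-ψ x.1 / 2) : ℝ)),
    smul_exp_mem x.1.2 (mem_ball_zero_iff.1 x.2.2)⟩
  left_inv p := by
    apply Subtype.ext
    simp only [mul_assoc, ← Complex.ofReal_mul, ← Real.exp_add]
    rw [show ψ (zc p) / 2 + -ψ (zc p) / 2 = 0 by ring, Real.exp_zero, Complex.ofReal_one, mul_one]
    exact lift3_zc p
  right_inv x := by
    apply Prod.ext <;> apply Subtype.ext
    · simp only [zc_lift3]
    · simp only [zc_lift3, lift3_two, mul_assoc, ← Complex.ofReal_mul, ← Real.exp_add]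
      rw [show -ψ x.1 / 2 + ψ x.1 / 2 = 0 by ring, Real.exp_zero, Complex.ofReal_one, mul_one]
  continuous_toFun := by
    have h1 : Continuous fun p : hartogs ψ => ψ (zc p) :=
      hψ.comp_continuous (continuous_zc.comp continuous_subtype_val) fun p => hartogs_zc p.2
    refine Continuous.prodMk ((continuous_zc.comp continuous_subtype_val).subtype_mk _)
      (Continuous.subtype_mk ?_ _)
    exact ((continuous_apply 2).comp continuous_subtype_val).mul
      (Complex.continuous_ofReal.comp (Real.continuous_exp.comp (h1.div_const 2)))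
  continuous_invFun := by
    have h1 : Continuous fun x : ball2 × Metric.ball (0 : ℂ) 1 => ψ (x.1 : V2) :=
      hψ.comp_continuous (continuous_subtype_val.comp continuous_fst) fun x => x.1.2
    refine Continuous.subtype_mk (continuous_lift3.comp (Continuous.prodMk
      (continuous_subtype_val.comp continuous_fst) ?_)) _
    exact (continuous_subtype_val.comp continuous_snd).mul
      (Complex.continuous_ofReal.comp (Real.continuous_exp.comp (h1.neg.div_const 2)))

theorem simplyConnectedSpace_hartogs (hψ : ContinuousOn ψ ball2) :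
    SimplyConnectedSpace (hartogs ψ) := by
  have h1 : ContractibleSpace ball2 :=
    (convex_ball (0 : V2) 1).contractibleSpace (Metric.nonempty_ball.2 one_pos)
  have h2 : ContractibleSpace (Metric.ball (0 : ℂ) 1) :=
    (convex_ball (0 : ℂ) 1).contractibleSpace (Metric.nonempty_ball.2 one_pos)
  have := (hartogsHomeo hψ).contractibleSpace
  infer_instance

theorem isConnected_hartogs (hψ : ContinuousOn ψ ball2) : IsConnected (hartogs ψ) := by
  have := simplyConnectedSpace_hartogs hψ
  exact isConnected_iff_connectedSpace.2 inferInstance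

lemma one_sub_pos {p : C3} (hp : p ∈ hartogs ψ) : 0 < 1 - ‖zc p‖ ^ 2 := by
  nlinarith [hp.1, norm_nonneg (zc p)]

lemma fibre_pos {p : C3} (hp : p ∈ hartogs ψ) :
    0 < 1 - Complex.normSq (p 2) * Real.exp (ψ (zc p)) := by
  linarith [hp.2]

theorem contDiffOn_potential (b : ℝ) (hψ : ContDiffOn ℝ ∞ ψ ball2) :
    ContDiffOn ℝ ∞ (potential b ψ) (hartogs ψ) := by
  have h1 : ContDiffOn ℝ ∞ (fun p : C3 => ψ (zc p)) (hartogs ψ) :=
    hψ.comp contDiff_zc.contDiffOn fun p hp => hartogs_zc hp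
  have h2 : ContDiff ℝ ∞ fun p : C3 => Complex.normSq (p 2) := by
    simp only [Complex.normSq_eq_norm_sq]
    exact (contDiff_apply ℝ ℂ (2 : Fin 3)).norm_sq ℂ
  have h3 : ContDiffOn ℝ ∞ (fun p : C3 => 1 - ‖zc p‖ ^ 2) (hartogs ψ) :=
    (contDiff_const.sub (contDiff_zc.norm_sq ℂ)).contDiffOn
  have h4 : ContDiffOn ℝ ∞ (fun p : C3 => 1 - Complex.normSq (p 2) * Real.exp (ψ (zc p)))
      (hartogs ψ) := contDiffOn_const.sub (h2.contDiffOn.mul h1.exp)
  exact (h3.log fun p hp => (one_sub_pos hp).ne').neg.sub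
    ((contDiffOn_const (c := b)).mul (h4.log fun p hp => (fibre_pos hp).ne'))

theorem isCompact_potential_le {b : ℝ} (hb : 0 < b) (hψ : ContinuousOn ψ ball2) (c : ℝ) :
    IsCompact {p | p ∈ hartogs ψ ∧ potential b ψ p ≤ c} := by
  have hcont : ContinuousOn (potential b ψ) (hartogs ψ) := by
    have h1 : ContinuousOn (fun p : C3 => ψ (zc p)) (hartogs ψ) :=
      hψ.comp continuous_zc.continuousOn fun p hp => hartogs_zc hp
    have h3 : ContinuousOn (fun p : C3 => 1 - ‖zc p‖ ^ 2) (hartogs ψ) :=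
      (continuous_const.sub (continuous_zc.norm.pow 2)).continuousOn
    have h4 : ContinuousOn (fun p : C3 => 1 - Complex.normSq (p 2) * Real.exp (ψ (zc p)))
        (hartogs ψ) := continuousOn_const.sub
      ((Complex.continuous_normSq.comp (continuous_apply 2)).continuousOn.mul
        (Real.continuous_exp.comp_continuousOn h1))
    exact (h3.log fun p hp => (one_sub_pos hp).ne').neg.sub
      (continuousOn_const.mul (h4.log fun p hp => (fibre_pos hp).ne'))
  set c' := max c 0
  have hc' : c ≤ c' := le_max_left _ _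
  set r := Real.sqrt (1 - Real.exp (-c'))
  set δ := 1 - Real.exp (-(c' / b))
  have hδ1 : δ < 1 := by simp only [δ]; linarith [Real.exp_pos (-(c' / b))]
  have hr1 : r < 1 := by
    rw [Real.sqrt_lt' one_pos]; linarith [Real.exp_pos (-c')]
  have hsub : Metric.closedBall (0 : V2) r ⊆ ball2 := Metric.closedBall_subset_ball hr1
  obtain ⟨m, hm⟩ := (isCompact_closedBall (0 : V2) r).exists_bound_of_continuousOn (hψ.mono hsub)
  set T := (fun x : V2 × ℂ => lift3 x.1 x.2) ''
    (Metric.closedBall 0 r ×ˢ Metric.closedBall 0 (Real.exp (m / 2)))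
  set S := T ∩ {p | ‖zc p‖ ≤ r ∧ Complex.normSq (p 2) * Real.exp (ψ (zc p)) ≤ δ}
  have hT : IsCompact T :=
    ((isCompact_closedBall 0 r).prod (isCompact_closedBall 0 _)).image continuous_lift3
  have hTz : ∀ p ∈ T, zc p ∈ Metric.closedBall (0 : V2) r := by
    rintro p ⟨x, hx, rfl⟩; rw [zc_lift3]; exact hx.1
  have hS : IsCompact S := by
    refine hT.of_isClosed_subset ?_ inter_subset_left
    have hc : ContinuousOn (fun p : C3 => Complex.normSq (p 2) * Real.exp (ψ (zc p))) T :=
      (Complex.continuous_normSq.comp (continuous_apply 2)).continuousOn.mul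
        (Real.continuous_exp.comp_continuousOn
          (hψ.comp continuous_zc.continuousOn fun p hp => hsub (hTz p hp)))
    have := hc.preimage_isClosed_of_isClosed hT.isClosed (isClosed_Iic (a := δ))
    convert this using 1
    ext p
    simp only [S, mem_inter_iff, mem_ofPred_eq, mem_preimage, mem_Iic]
    exact ⟨fun h => ⟨h.1, h.2.2⟩, fun h => ⟨h.1, by simpa using hTz p h.1, h.2⟩⟩
  have hSM : S ⊆ hartogs ψ := fun p hp => ⟨hp.2.1.trans_lt hr1, hp.2.2.trans_lt hδ1⟩
  have hK : {p | p ∈ hartogs ψ ∧ potential b ψ p ≤ c} = S ∩ potential b ψ ⁻¹' Iic c := by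
    ext p
    refine ⟨fun ⟨hp, hpc⟩ => ⟨?_, hpc⟩, fun ⟨hp, hpc⟩ => ⟨hSM hp, hpc⟩⟩
    have e1 : Real.log (1 - ‖zc p‖ ^ 2) ≤ 0 :=
      Real.log_nonpos (one_sub_pos hp).le (by nlinarith [sq_nonneg ‖zc p‖])
    have hX0 : 0 ≤ Complex.normSq (p 2) * Real.exp (ψ (zc p)) :=
      mul_nonneg (Complex.normSq_nonneg _) (Real.exp_pos _).le
    have e2 : Real.log (1 - Complex.normSq (p 2) * Real.exp (ψ (zc p))) ≤ 0 :=
      Real.log_nonpos (fibre_pos hp).le (by linarith)
    unfold potential at hpc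
    have f1 : Real.exp (-c') ≤ 1 - ‖zc p‖ ^ 2 := by
      rw [← Real.le_log_iff_exp_le (one_sub_pos hp)]; nlinarith
    have f2 : Real.exp (-(c' / b)) ≤ 1 - Complex.normSq (p 2) * Real.exp (ψ (zc p)) := by
      rw [← Real.le_log_iff_exp_le (fibre_pos hp), neg_le, le_div_iff₀ hb]; nlinarith
    have g1 : ‖zc p‖ ≤ r := Real.le_sqrt_of_sq_le (by linarith)
    refine ⟨⟨(zc p, p 2), ⟨mem_closedBall_zero_iff.2 g1, mem_closedBall_zero_iff.2 ?_⟩,
      lift3_zc p⟩, g1, by simp only [δ]; linarith⟩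
    have g2 : -m ≤ ψ (zc p) :=
      (abs_le.1 (hm _ (mem_closedBall_zero_iff.2 g1))).1
    have g3 : Complex.normSq (p 2) * Real.exp (-m) ≤ 1 :=
      le_trans (mul_le_mul_of_nonneg_left (Real.exp_le_exp.2 g2) (Complex.normSq_nonneg _))
        (by linarith [Real.exp_pos (-(c' / b))])
    rw [Complex.normSq_eq_norm_sq] at g3
    have g4 : Real.exp (m / 2) ^ 2 * Real.exp (-m) = 1 := by
      rw [← Real.exp_nat_mul, ← Real.exp_add]; push_cast; rw [← Real.exp_zero]; congr 1; ring
    nlinarith [norm_nonneg (p 2), Real.exp_pos (m / 2), Real.exp_pos (-m)]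
  rw [hK]
  exact hS.of_isClosed_subset
    ((hcont.mono hSM).preimage_isClosed_of_isClosed hS.isClosed isClosed_Iic) inter_subset_left

end Vale.BDU
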