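import Vale.Agent.BDU.NoGrowth

/-!
# P250: the twist of the counterexample
-/

namespace Vale.BDU

/-- The twist with parameters `ε`, `Q`, `L`. -/
noncomputable def twist (ε Q L : ℝ) (z : V2) : ℝ :=
  2 * L * Psi ε Q z + (-Real.log (1 - ‖z‖ ^ 2))

/-- For suitable parameters no zero-free holomorphic function is as small as the twist asks. -/
theorem exists_twist_no_growth :
    ∃ ε Q L : ℝ, 0 < ε ∧ ε ≤ 1 ∧ 16 ≤ Q ∧ 0 < L ∧
      ¬∃ (g : V2 → ℂ) (C : ℝ), DifferentiableOn ℂ g ball2 ∧ (∀ z ∈ ball2, g z ≠ 0) ∧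
        ∀ z ∈ ball2,
          Real.log ‖g z‖ ≤ twist ε Q L z / 2 + 2 * (-Real.log (1 - ‖z‖)) + C := by
  obtain ⟨ε, Q, L, hε, hε1, hQ, hL, h⟩ := no_growth (5 / 2) (by norm_num)
  refine ⟨ε, Q, L, hε, hε1, hQ, hL, fun ⟨g, C, hg, hg0, hb⟩ => h ⟨g, C, hg, hg0, fun z hz => ?_⟩⟩
  have h1 := hb z hz
  have hz1 := mem_ball_zero_iff.1 hz
  have hlog : Real.log (1 - ‖z‖) ≤ Real.log (1 - ‖z‖ ^ 2) :=
    Real.log_le_log (by linarith) (by nlinarith [norm_nonneg z])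
  simp only [twist] at h1
  linarith

end Vale.BDU
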