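import Vale.Agent.BDU.Ball

/-!
# P250: maximum principle and Harnack inequality for zero-free functions on the ball
-/

open scoped ComplexConjugate

namespace Vale.BDU

/-- The square root of `1 - ⟨z,x⟩`. -/
noncomputable def rootFn (x z : V2) : ℂ := Complex.exp (Complex.log (1 - inner ℂ x z) / 2)

theorem one_sub_inner_re_pos {x z : V2} (h : ‖x‖ * ‖z‖ < 1) : 0 < (1 - inner ℂ x z : ℂ).re := by
  have h1 := norm_inner_le_norm (𝕜 := ℂ) x z
  simp
  linarith [Complex.re_le_norm (inner ℂ x z : ℂ)]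

theorem differentiableOn_rootFn {x : V2} (hx : x ∈ ball2) :
    DifferentiableOn ℂ (rootFn x) ball2 := by
  intro z hz
  have h := one_sub_inner_re_pos (norm_mul_norm_lt hx (mem_ball_zero_iff.1 hz).le)
  have h1 : DifferentiableAt ℂ (fun z : V2 => 1 - inner ℂ x z) z :=
    (differentiableAt_const (1 : ℂ)).sub (innerSL ℂ x).differentiableAt
  refine DifferentiableAt.differentiableWithinAt ?_
  unfold rootFn
  simp only [div_eq_mul_inv]
  exact ((h1.clog (Or.inl h)).mul_const _).cexp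

theorem rootFn_sq {x z : V2} (h : ‖x‖ * ‖z‖ < 1) : rootFn x z ^ 2 = 1 - inner ℂ x z := by
  rw [rootFn, ← Complex.exp_nat_mul, show ((2 : ℕ) : ℂ) * (Complex.log (1 - inner ℂ x z) / 2)
    = Complex.log (1 - inner ℂ x z) by push_cast; ring]
  exact Complex.exp_log (one_sub_inner_ne h)

theorem norm_rootFn {x z : V2} (h : ‖x‖ * ‖z‖ < 1) :
    ‖rootFn x z‖ = Real.sqrt ‖1 - inner ℂ x z‖ := by
  rw [← rootFn_sq h, norm_pow, Real.sqrt_sq (norm_nonneg _)]

theorem rootFn_re {x z : V2} (h : ‖x‖ * ‖z‖ < 1) :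
    Real.sqrt ‖1 - inner ℂ x z‖ ≤ 2 * (rootFn x z).re ∧
      (rootFn x z).re ≤ Real.sqrt ‖1 - inner ℂ x z‖ := by
  refine ⟨?_, norm_rootFn h ▸ Complex.re_le_norm _⟩
  have hre : 0 ≤ (rootFn x z).re := by
    rw [rootFn, Complex.exp_re]
    refine mul_nonneg (Real.exp_pos _).le (Real.cos_nonneg_of_mem_Icc ?_)
    simp [Complex.log_im]
    constructor <;> linarith [Complex.neg_pi_lt_arg (1 - inner ℂ x z),
      Complex.arg_le_pi (1 - inner ℂ x z)]
  have h1 := one_sub_inner_re_pos h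
  rw [← rootFn_sq h, pow_two, Complex.mul_re] at h1
  rw [← norm_rootFn h]
  refine (pow_le_pow_iff_left₀ (norm_nonneg _) (by linarith) two_ne_zero).1 ?_
  rw [Complex.sq_norm, Complex.normSq_apply]
  nlinarith

/-- Harnack's inequality for a zero-free function of modulus at most one on the disc. -/
theorem harnack_disc {F : ℂ → ℂ} (hF : DifferentiableOn ℂ F (Metric.ball 0 1))
    (h0 : ∀ z ∈ Metric.ball (0 : ℂ) 1, F z ≠ 0) (h1 : ∀ z ∈ Metric.ball (0 : ℂ) 1, ‖F z‖ ≤ 1)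
    {ζ : ℂ} (hζ : ‖ζ‖ < 1) :
    (1 + ‖ζ‖) * Real.log ‖F 0‖ ≤ (1 - ‖ζ‖) * Real.log ‖F ζ‖ := by
  set B := Metric.ball (0 : ℂ) 1
  have hB : IsOpen B := Metric.isOpen_ball
  have hq : DifferentiableOn ℂ (fun z => deriv F z / F z) B :=
    (hF.deriv hB).div hF h0
  obtain ⟨G, hG⟩ := hq.isExactOn_ball
  have hmem0 : (0 : ℂ) ∈ B := Metric.mem_ball_self one_pos
  have hmem : ζ ∈ B := mem_ball_zero_iff.2 hζ
  -- the modulus of `F` is that of `exp G` up to a constant
  have hconst : ∀ z ∈ B, F z * Complex.exp (-G z) = F 0 * Complex.exp (-G 0) := fun z hz => by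
    refine (Convex.norm_image_sub_le_of_norm_hasDerivWithin_le (C := 0)
      (f := fun z => F z * Complex.exp (-G z)) (f' := fun _ => 0) (fun w hw => ?_)
      (fun w _ => by simp) (convex_ball 0 1) hmem0 hz) |> fun h =>
      sub_eq_zero.1 (norm_le_zero_iff.1 (by simpa using h))
    have hd := ((hF.differentiableAt (hB.mem_nhds hw)).hasDerivAt).mul (hG w hw).neg.cexp
    refine hd.hasDerivWithinAt.congr_deriv ?_
    field_simp [h0 w hw]
    ring
  set K : ℝ := Real.log ‖F 0 * Complex.exp (-G 0)‖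
  have hlog : ∀ z ∈ B, Real.log ‖F z‖ = (G z).re + K := fun z hz => by
    simp only [K, ← hconst z hz]
    rw [norm_mul, Real.log_mul (norm_ne_zero_iff.2 (h0 z hz))
      (norm_ne_zero_iff.2 (Complex.exp_ne_zero _)), Complex.norm_exp, Real.log_exp]
    simp
  have hle : ∀ z ∈ B, (G z).re + K ≤ 0 := fun z hz => by
    rw [← hlog z hz]
    exact Real.log_nonpos (norm_nonneg _) (h1 z hz)
  rw [hlog 0 hmem0, hlog ζ hmem]
  refine le_of_forall_pos_le_add fun δ hδ => ?_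
  set H : ℂ → ℂ := fun z => ((δ / 2 - K : ℝ) : ℂ) - G z
  have hH : ∀ z ∈ B, 0 < (H z).re := fun z hz => by
    have := hle z hz
    simp [H]
    linarith
  have hden : ∀ z ∈ B, H z + conj (H 0) ≠ 0 := fun z hz h => by
    have := congrArg Complex.re h
    simp at this
    linarith [hH z hz, hH 0 hmem0]
  set Φ : ℂ → ℂ := fun z => (H z - H 0) / (H z + conj (H 0))
  have hHd : DifferentiableOn ℂ H B := fun z hz =>
    ((differentiableAt_const _).sub (hG z hz).differentiableAt).differentiableWithinAt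
  have hΦ : DifferentiableOn ℂ Φ B := (hHd.sub_const _).div (hHd.add_const _) hden
  have hmaps : Set.MapsTo Φ B (Metric.closedBall 0 1) := fun z hz => by
    rw [mem_closedBall_zero_iff, norm_div, div_le_one (norm_pos_iff.2 (hden z hz))]
    refine (pow_le_pow_iff_left₀ (norm_nonneg _) (norm_nonneg _) two_ne_zero).1 ?_
    rw [Complex.sq_norm, Complex.sq_norm, Complex.normSq_apply, Complex.normSq_apply]
    simp
    nlinarith [mul_pos (hH z hz) (hH 0 hmem0)]
  have hS := Complex.norm_le_norm_of_mapsTo_ball hΦ hmaps (by simp [Φ]) hζ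
  rw [norm_div, div_le_iff₀ (norm_pos_iff.2 (hden ζ hmem))] at hS
  set w := H ζ - H 0
  have hsum : ‖H ζ + conj (H 0)‖ ≤ ‖w‖ + 2 * (H 0).re := by
    have e : H ζ + conj (H 0) = w + ((2 * (H 0).re : ℝ) : ℂ) := by
      rw [← Complex.add_conj]
      simp only [w]
      ring
    rw [e]
    refine (norm_add_le _ _).trans (le_of_eq ?_)
    rw [Complex.norm_real, Real.norm_eq_abs, abs_of_pos (by linarith [hH 0 hmem0])]
  have hz0 := norm_nonneg ζ
  have hfin : (1 - ‖ζ‖) * ((H ζ).re - (H 0).re) ≤ 2 * ‖ζ‖ * (H 0).re := by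
    have h2 : (H ζ).re - (H 0).re ≤ ‖w‖ := by simpa [w] using Complex.re_le_norm w
    refine (mul_le_mul_of_nonneg_left h2 (by linarith)).trans ?_
    nlinarith [mul_le_mul_of_nonneg_left hsum hz0]
  simp [H] at hfin
  nlinarith [mul_nonneg hz0 hδ.le]

/-- Maximum principle on a sphere. -/
theorem norm_le_of_sphere {f : V2 → ℂ} (hf : DifferentiableOn ℂ f ball2) {r M : ℝ} (hr : 0 < r)
    (hr1 : r < 1) (h : ∀ z, ‖z‖ = r → ‖f z‖ ≤ M) {z : V2} (hz : ‖z‖ ≤ r) : ‖f z‖ ≤ M := by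
  refine Complex.norm_le_of_forall_mem_frontier_norm_le (U := Metric.ball 0 r)
    Metric.isBounded_ball ?_ (fun w hw => h w ?_) ?_
  · exact (hf.mono fun w hw => mem_ball_zero_iff.2
      (lt_of_le_of_lt (mem_closedBall_zero_iff.1
        (Metric.closure_ball_subset_closedBall hw)) hr1)).diffContOnCl
  · rw [frontier_ball 0 hr.ne'] at hw
    simpa using hw
  · rw [closure_ball 0 hr.ne']
    simpa using hz

/-- Maximum principle on a slice through the sphere. -/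
theorem norm_le_of_slice {f : V2 → ℂ} (hf : DifferentiableOn ℂ f ball2) {ξ : V2} (hξ : ‖ξ‖ = 1)
    {r M t : ℝ} (ht : |t| < r) (hr1 : r < 1)
    (h : ∀ z, ‖z‖ = r → inner ℂ ξ z = (t : ℂ) → ‖f z‖ ≤ M) :
    ‖f ((t : ℂ) • ξ)‖ ≤ M := by
  set η : V2 := WithLp.toLp 2 ![-conj (ξ 1), conj (ξ 0)] with hη
  have hηξ : inner ℂ ξ η = (0 : ℂ) := by
    simp [hη, PiLp.inner_apply, Fin.sum_univ_two]
    ring
  have hηn : ‖η‖ = 1 := by
    rw [EuclideanSpace.norm_eq, Real.sqrt_eq_one]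
    simp [hη, Fin.sum_univ_two]
    have := congrArg (· ^ 2) hξ
    rw [EuclideanSpace.norm_eq, Real.sq_sqrt (by positivity)] at this
    simp [Fin.sum_univ_two] at this
    linarith
  set γ : ℂ → V2 := fun w => (t : ℂ) • ξ + w • η
  have hnorm : ∀ w, ‖γ w‖ ^ 2 = t ^ 2 + ‖w‖ ^ 2 := fun w => by
    simp only [γ]
    rw [norm_add_sq (𝕜 := ℂ), inner_smul_left, inner_smul_right, hηξ, norm_smul, norm_smul, hξ, hηn]
    simp
  have hρ : 0 < r ^ 2 - t ^ 2 := by
    have := abs_nonneg t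
    nlinarith [sq_abs t]
  set R := Real.sqrt (r ^ 2 - t ^ 2)
  have hR : 0 < R := Real.sqrt_pos.2 hρ
  have hR2 : R ^ 2 = r ^ 2 - t ^ 2 := Real.sq_sqrt hρ.le
  have hr0 : 0 ≤ r := (abs_nonneg t).trans ht.le
  have hd : DiffContOnCl ℂ (fun w => f (γ w)) (Metric.ball 0 R) := by
    refine DifferentiableOn.diffContOnCl (hf.comp (s := closure (Metric.ball (0 : ℂ) R))
      ((differentiable_const _).add (differentiable_id.smul_const η)).differentiableOn
      fun w hw => ?_)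
    have hw' := mem_closedBall_zero_iff.1 (Metric.closure_ball_subset_closedBall hw)
    refine mem_ball_zero_iff.2 (lt_of_le_of_lt ?_ hr1)
    refine (pow_le_pow_iff_left₀ (norm_nonneg _) hr0 two_ne_zero).1 ?_
    change ‖γ w‖ ^ 2 ≤ r ^ 2
    rw [hnorm]
    nlinarith [norm_nonneg w]
  have := Complex.norm_le_of_forall_mem_frontier_norm_le Metric.isBounded_ball hd
    (C := M) (fun w hw => h _ ?_ ?_) (subset_closure (Metric.mem_ball_self hR))
  · simpa [γ] using this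
  · rw [frontier_ball 0 hR.ne', mem_sphere_zero_iff_norm] at hw
    refine (pow_left_inj₀ (norm_nonneg _) hr0 two_ne_zero).1 ?_
    rw [hnorm, hw, hR2]
    ring
  · simp [γ, inner_add_right, inner_smul_right, hηξ, inner_self_eq_norm_sq_to_K, hξ]

/-- Harnack's inequality between two points of a ball. -/
theorem harnack_ball {f : V2 → ℂ} (hf : DifferentiableOn ℂ f ball2)
    (h0 : ∀ z ∈ ball2, f z ≠ 0) {r θ : ℝ} (hr : 0 < r) (hr1 : r < 1)
    (h1 : ∀ z, ‖z‖ ≤ r → ‖f z‖ ≤ 1) {x p : V2} (hx : ‖x‖ < r) (hp : ‖p‖ < r)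
    (hθ : θ < 1)
    (hxp : ‖ballMap ((r : ℂ)⁻¹ • x) ((r : ℂ)⁻¹ • p)‖ ≤ θ) :
    Real.log ‖f x‖ ≤ (1 - θ) / 2 * Real.log ‖f p‖ := by
  set a := (r : ℂ)⁻¹ • x
  set b := (r : ℂ)⁻¹ • p
  have hn : ∀ y : V2, ‖(r : ℂ)⁻¹ • y‖ = ‖y‖ / r := fun y => by
    rw [norm_smul, norm_inv, Complex.norm_real, Real.norm_eq_abs, abs_of_pos hr, inv_mul_eq_div]
  have ha : a ∈ ball2 := mem_ball_zero_iff.2 (by rw [hn]; exact (div_lt_one hr).2 hx)
  have hb : ‖b‖ ≤ 1 := by rw [hn]; exact ((div_lt_one hr).2 hp).le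
  have hrc : (r : ℂ) ≠ 0 := Complex.ofReal_ne_zero.2 hr.ne'
  set v := ballMap a b
  set e : V2 := (‖v‖ : ℂ)⁻¹ • v
  have he : ‖e‖ ≤ 1 := by
    by_cases hv : v = 0
    · simp [e, hv]
    · simp [e, norm_smul, inv_mul_cancel₀ (norm_ne_zero_iff.2 hv)]
  set γ : ℂ → V2 := fun w => (r : ℂ) • ballMap a (w • e)
  have hwe : ∀ w ∈ Metric.ball (0 : ℂ) 1, w • e ∈ ball2 := fun w hw => by
    rw [mem_ball_zero_iff] at hw ⊢
    rw [norm_smul]
    nlinarith [norm_nonneg w, norm_nonneg e]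
  have hγ : ∀ w ∈ Metric.ball (0 : ℂ) 1, ‖γ w‖ ≤ r := fun w hw => by
    simp only [γ]
    rw [norm_smul, Complex.norm_real, Real.norm_eq_abs, abs_of_pos hr]
    exact mul_le_of_le_one_right hr.le (norm_ballMap_le ha (mem_ball_zero_iff.1 (hwe w hw)).le)
  have hγd : DifferentiableOn ℂ γ (Metric.ball 0 1) :=
    (((differentiableOn_ballMap_ball ha).comp
      ((differentiable_id.smul_const e).differentiableOn) hwe).const_smul (r : ℂ))
  have hmaps : Set.MapsTo γ (Metric.ball 0 1) ball2 := fun w hw =>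
    mem_ball_zero_iff.2 (lt_of_le_of_lt (hγ w hw) hr1)
  have hv : ((‖v‖ : ℝ) : ℂ) • e = v := by
    by_cases hv : v = 0
    · simp [e, hv]
    · simp [e, smul_smul, norm_ne_zero_iff.2 hv]
  have hθ0 : 0 ≤ θ := (norm_nonneg _).trans hxp
  have hvn : ‖((‖v‖ : ℝ) : ℂ)‖ = ‖v‖ := by simp
  have hz : ‖((‖v‖ : ℝ) : ℂ)‖ < 1 := by rw [hvn]; exact lt_of_le_of_lt hxp hθ
  have hH := harnack_disc (F := fun w => f (γ w)) (hf.comp hγd hmaps)
    (fun w hw => h0 _ (hmaps hw)) (fun w hw => h1 _ (hγ w hw)) hz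
  have hγ0 : γ 0 = x := by
    simp only [γ, zero_smul, ballMap_zero, a]
    rw [smul_smul, mul_inv_cancel₀ hrc, one_smul]
  have hγv : γ ((‖v‖ : ℝ) : ℂ) = p := by
    simp only [γ, hv, v, ballMap_ballMap ha hb]
    simp only [b]
    rw [smul_smul, mul_inv_cancel₀ hrc, one_smul]
  simp only [hγ0, hγv, hvn] at hH
  have hx0 : Real.log ‖f x‖ ≤ 0 := Real.log_nonpos (norm_nonneg _) (h1 x hx.le)
  have hp0 : Real.log ‖f p‖ ≤ 0 := Real.log_nonpos (norm_nonneg _) (h1 p hp.le)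
  have hv1 : ‖v‖ ≤ θ := hxp
  nlinarith [mul_le_mul_of_nonpos_right hv1 hp0, mul_le_mul_of_nonpos_right
    (hv1.trans hθ.le) hx0, norm_nonneg v]

end Vale.BDU
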