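import Vale.Agent.BDU.Setup

/-!
# P250: pointwise bounds for the well
-/

open scoped ComplexConjugate

namespace Vale.BDU

theorem norm_one_add_pos {u : ℂ} (hu : 0 ≤ u.re) : 1 ≤ ‖1 + u‖ := by
  have h := Complex.re_le_norm (1 + u)
  simp at h
  linarith

theorem norm_le_norm_one_add {u : ℂ} (hu : 0 ≤ u.re) : ‖u‖ ≤ ‖1 + u‖ := by
  refine (pow_le_pow_iff_left₀ (norm_nonneg _) (norm_nonneg _) two_ne_zero).1 ?_
  rw [Complex.sq_norm, Complex.sq_norm, Complex.normSq_apply, Complex.normSq_apply]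
  simp
  nlinarith

theorem re_shift_ge {N : ℝ} (hN : 0 ≤ N) {ξ z : V2} (hξ : ‖ξ‖ = 1) :
    N * (1 - ‖z‖) ≤ ((N : ℂ) * (1 - inner ℂ ξ z)).re := by
  have h := norm_inner_le_norm (𝕜 := ℂ) ξ z
  rw [hξ, one_mul] at h
  simp
  nlinarith [Complex.re_le_norm (inner ℂ ξ z : ℂ)]

theorem norm_qfun {N : ℝ} (ξ z : V2) :
    ‖qfun N ξ z‖ = 3 / 2 / ‖1 + (N : ℂ) * (1 - inner ℂ ξ z)‖ := by
  simp [qfun]

theorem norm_qfun_le {N : ℝ} (hN : 0 ≤ N) {ξ z : V2} (hξ : ‖ξ‖ = 1) (hz : ‖z‖ ≤ 1) :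
    ‖qfun N ξ z‖ ≤ 3 / 2 := by
  rw [norm_qfun]
  exact div_le_self (by norm_num)
    (norm_one_add_pos ((mul_nonneg hN (by linarith)).trans (re_shift_ge hN hξ)))

theorem norm_qfun_le_half {N : ℝ} (hN : 0 ≤ N) {ξ z : V2} (hξ : ‖ξ‖ = 1)
    (hz : 1 ≤ N * (1 - ‖z‖)) : ‖qfun N ξ z‖ ≤ 3 / 4 := by
  have h := Complex.re_le_norm (1 + (N : ℂ) * (1 - inner ℂ ξ z))
  rw [Complex.add_re, Complex.one_re] at h
  have h' := re_shift_ge hN (z := z) hξ
  rw [norm_qfun, div_le_iff₀ (by linarith)]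
  linarith

theorem qfun_eq_one {N : ℝ} (hN : N ≠ 0) {ξ z : V2}
    (h : inner ℂ ξ z = ((1 - 1 / (2 * N) : ℝ) : ℂ)) : qfun N ξ z = 1 := by
  have : (1 : ℂ) + (N : ℂ) * (1 - inner ℂ ξ z) = 3 / 2 := by
    have hN' : (N : ℂ) ≠ 0 := Complex.ofReal_ne_zero.2 hN
    rw [h]
    push_cast
    field_simp
    ring
  rw [qfun, this, div_self (by norm_num)]

theorem well_one (ε : ℝ) : well ε 1 = Real.log ε + 3 := by
  norm_num [well]

theorem abs_re_quad_le {q : ℂ} (hq : ‖q‖ ≤ 3 / 2) : |2 * (q + q ^ 2 / 2).re| ≤ 6 := by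
  rw [abs_mul, abs_two]
  refine (mul_le_mul_of_nonneg_left (Complex.abs_re_le_norm _) zero_le_two).trans ?_
  refine (mul_le_mul_of_nonneg_left (norm_add_le _ _) zero_le_two).trans ?_
  rw [norm_div, norm_pow, Complex.norm_ofNat]
  nlinarith [norm_nonneg q]

/-- Second order cancellation of the logarithm. -/
theorem abs_log_quad_le {q : ℂ} (hq : ‖q‖ ≤ 1 / 2) :
    |Real.log (Complex.normSq (1 - q)) + 2 * (q + q ^ 2 / 2).re| ≤ 2 * ‖q‖ ^ 3 := by
  have h := Complex.norm_log_sub_logTaylor_le 2 (z := -q) (by rw [norm_neg]; linarith)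
  have e : Complex.logTaylor (2 + 1) (-q) = -(q + q ^ 2 / 2) := by
    simp [Complex.logTaylor, Finset.sum_range_succ]
    ring
  rw [e, norm_neg, ← sub_eq_add_neg] at h
  have h1 : (Complex.log (1 - q) - -(q + q ^ 2 / 2)).re
      = Real.log ‖1 - q‖ + (q + q ^ 2 / 2).re := by
    simp [Complex.log_re]
    ring
  have h2 : Real.log (Complex.normSq (1 - q)) = 2 * Real.log ‖1 - q‖ := by
    rw [← Complex.sq_norm, Real.log_pow]
    norm_num
  rw [h2, ← mul_add, ← h1, abs_mul, abs_two]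
  refine mul_le_mul_of_nonneg_left (((Complex.abs_re_le_norm _).trans h).trans ?_) zero_le_two
  have h3 : (1 - ‖q‖)⁻¹ ≤ 2 := inv_le_of_inv_le₀ (by norm_num) (by linarith)
  have h4 : 0 ≤ ‖q‖ ^ 3 := pow_nonneg (norm_nonneg q) 3
  norm_num
  nlinarith [mul_le_mul_of_nonneg_left h3 h4]

/-- The bound of the well from above, and from below away from one. -/
theorem well_bounds : ∃ K : ℝ, 0 ≤ K ∧ ∀ ε : ℝ, 0 < ε → ε ≤ 1 → ∀ q : ℂ, ‖q‖ ≤ 3 / 2 →
    well ε q ≤ K * ‖q‖ ^ 3 ∧ (1 / 4 ≤ ‖1 - q‖ → -(K * ‖q‖ ^ 3) ≤ well ε q) := by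
  refine ⟨8 * (|Real.log 32| + |Real.log (1 / 16)| + 6) + 4, by positivity,
    fun ε hε hε1 q hq => ?_⟩
  have hq0 := norm_nonneg q
  have h3 : 0 ≤ ‖q‖ ^ 3 := pow_nonneg hq0 3
  have ha : 0 ≤ |Real.log 32| + |Real.log (1 / 16)| + 6 := by positivity
  set n := Complex.normSq (1 - q) + ε * Complex.normSq q ^ 3 with hn
  have he : 0 ≤ ε * Complex.normSq q ^ 3 :=
    mul_nonneg hε.le (pow_nonneg (Complex.normSq_nonneg q) 3)
  by_cases hq2 : ‖q‖ ≤ 1 / 2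
  · have hp : 1 / 4 ≤ Complex.normSq (1 - q) := by
      rw [← Complex.sq_norm]
      have := norm_sub_norm_le (1 : ℂ) q
      rw [norm_one] at this
      nlinarith
    have hl := abs_le.1 (abs_log_quad_le hq2)
    have hlo : Real.log (Complex.normSq (1 - q)) ≤ Real.log n :=
      Real.log_le_log (by linarith) (by linarith)
    have hup : Real.log n ≤ Real.log (Complex.normSq (1 - q)) + 2 * ‖q‖ ^ 3 := by
      have h1 : Real.log n ≤ Real.log (Complex.normSq (1 - q))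
          + ε * Complex.normSq q ^ 3 / Complex.normSq (1 - q) := by
        have h := Real.log_le_sub_one_of_pos (div_pos (by linarith : 0 < n)
          (by linarith : 0 < Complex.normSq (1 - q)))
        rw [Real.log_div (by linarith) (by linarith), hn, add_div, div_self (by linarith)] at h
        linarith
      refine h1.trans (add_le_add_right ?_ _)
      rw [div_le_iff₀ (by linarith)]
      have h5 : Complex.normSq q ^ 3 = ‖q‖ ^ 3 * ‖q‖ ^ 3 := by rw [← Complex.sq_norm]; ring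
      have h6 : ‖q‖ ^ 3 ≤ (1 / 2) ^ 3 := pow_le_pow_left₀ hq0 hq2 3
      rw [h5]
      nlinarith [mul_le_mul_of_nonneg_left h6 h3, mul_le_mul_of_nonneg_right hε1 (mul_nonneg h3 h3),
        mul_le_mul_of_nonneg_left hp h3]
    simp only [well]
    rw [← hn]
    refine ⟨?_, fun _ => ?_⟩
    all_goals nlinarith [mul_nonneg ha h3]
  · push Not at hq2
    have h8 : 1 ≤ 8 * ‖q‖ ^ 3 := by
      have := pow_le_pow_left₀ (by norm_num) hq2.le 3
      linarith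
    have hquad := abs_le.1 (abs_re_quad_le hq)
    simp only [well]
    rw [← hn]
    have hup : n ≤ 32 := by
      have h1 : Complex.normSq (1 - q) ≤ (5 / 2) ^ 2 := by
        rw [← Complex.sq_norm]
        refine pow_le_pow_left₀ (norm_nonneg _) ((norm_sub_le _ _).trans ?_) 2
        rw [norm_one]
        linarith
      have h2 : Complex.normSq q ^ 3 ≤ ((3 / 2) ^ 2) ^ 3 := by
        rw [← Complex.sq_norm]
        exact pow_le_pow_left₀ (sq_nonneg _) (pow_le_pow_left₀ hq0 hq 2) 3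
      nlinarith [Complex.normSq_nonneg q]
    have hn0 : 0 < n := by
      by_cases h : q = 1
      · subst h
        simp [hn, hε]
      · have := Complex.normSq_pos.2 (sub_ne_zero.2 (Ne.symm h))
        linarith
    have hll := (Real.log_le_log hn0 hup).trans (le_abs_self _)
    refine ⟨?_, fun hq4 => ?_⟩
    · nlinarith [abs_nonneg (Real.log (1 / 16)), mul_le_mul_of_nonneg_left h8 ha]
    · have hlow : -|Real.log (1 / 16)| ≤ Real.log n := by
        refine (neg_abs_le _).trans (Real.log_le_log (by norm_num) ?_)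
        rw [← Complex.sq_norm] at hn
        nlinarith [pow_le_pow_left₀ (by norm_num : (0 : ℝ) ≤ 1 / 4) hq4 2]
      nlinarith [abs_nonneg (Real.log 32), mul_le_mul_of_nonneg_left h8 ha]

theorem norm_one_sub_ge {q : ℂ} (hq : ‖q‖ ≤ 3 / 4) : 1 / 4 ≤ ‖1 - q‖ := by
  have := norm_sub_norm_le (1 : ℂ) q
  rw [norm_one] at this
  linarith

theorem well_den_ge {ε : ℝ} (hε : 0 < ε) (hε1 : ε ≤ 1) (q : ℂ) :
    ε / 64 ≤ Complex.normSq (1 - q) + ε * Complex.normSq q ^ 3 := by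
  have he : 0 ≤ ε * Complex.normSq q ^ 3 :=
    mul_nonneg hε.le (pow_nonneg (Complex.normSq_nonneg q) 3)
  by_cases hq : ‖q‖ ≤ 1 / 2
  · have hp : 1 / 4 ≤ Complex.normSq (1 - q) := by
      rw [← Complex.sq_norm]
      have := norm_sub_norm_le (1 : ℂ) q
      rw [norm_one] at this
      nlinarith
    linarith
  · push Not at hq
    have h : (1 / 4 : ℝ) ≤ Complex.normSq q := by
      rw [← Complex.sq_norm]
      nlinarith
    have h' := mul_le_mul_of_nonneg_left (pow_le_pow_left₀ (by norm_num) h 3) hε.le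
    linarith [Complex.normSq_nonneg (1 - q)]

/-- The well is Lipschitz with a constant of second order at zero. -/
theorem exists_well_lipschitz {ε : ℝ} (hε : 0 < ε) (hε1 : ε ≤ 1) :
    ∃ B : ℝ, 0 ≤ B ∧ ∀ p q : ℂ, ‖p‖ ≤ 3 / 2 → ‖q‖ ≤ 3 / 2 →
      |well ε q - well ε p| ≤ B * (‖p‖ ^ 2 + ‖q‖ ^ 2) * ‖q - p‖ := by
  refine ⟨64 / ε * 64, by positivity, fun p q hp hq => ?_⟩
  set h : ℂ := q - p
  set γ : ℝ → ℂ := fun t => p + (t : ℂ) * h
  have hγ : ∀ t, HasDerivAt γ h t := fun t => by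
    exact ((((hasDerivAt_id t).ofReal_comp.mul_const h).const_add p).congr_deriv (by simp))
  have hγn : ∀ t ∈ Set.Icc (0 : ℝ) 1,
      ‖γ t‖ ≤ 3 / 2 ∧ ‖γ t‖ ^ 2 ≤ ‖p‖ ^ 2 + ‖q‖ ^ 2 := by
    intro t ht
    have h1 : ‖γ t‖ ≤ (1 - t) * ‖p‖ + t * ‖q‖ := by
      have : γ t = ((1 - t : ℝ) : ℂ) * p + (t : ℂ) * q := by
        simp [γ, h]; ring
      rw [this]
      refine (norm_add_le _ _).trans (le_of_eq ?_)
      simp [abs_of_nonneg ht.1, Real.norm_eq_abs, abs_of_nonneg (sub_nonneg.2 ht.2),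
        ← Complex.ofReal_sub, ← Complex.ofReal_one]
    have h2 : ‖γ t‖ ≤ max ‖p‖ ‖q‖ := h1.trans (by
      nlinarith [le_max_left ‖p‖ ‖q‖, le_max_right ‖p‖ ‖q‖, ht.1, ht.2])
    refine ⟨h2.trans (max_le hp hq), (pow_le_pow_left₀ (norm_nonneg _) h2 2).trans ?_⟩
    rcases max_choice ‖p‖ ‖q‖ with hh | hh <;> rw [hh] <;>
      nlinarith [sq_nonneg ‖p‖, sq_nonneg ‖q‖]
  set f : ℝ → ℝ := fun t => Real.log (‖1 - γ t‖ ^ 2 + ε * (‖γ t‖ ^ 2) ^ 3)
    + 2 * (γ t + γ t ^ 2 / 2).re with hf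
  have hfw : ∀ t, f t = well ε (γ t) := fun t => by
    simp [f, well, Complex.sq_norm]
  set n : ℝ → ℝ := fun t => ‖1 - γ t‖ ^ 2 + ε * (‖γ t‖ ^ 2) ^ 3
  set d : ℝ → ℝ := fun t => 2 * (h * ((1 + γ t) * (n t : ℂ) - conj (1 - γ t)
    + 3 * (ε : ℂ) * ((‖γ t‖ ^ 2) ^ 2 : ℝ) * conj (γ t))).re / n t
  have hn : ∀ t, ε / 64 ≤ n t := fun t => by
    simp only [n, Complex.sq_norm]
    exact well_den_ge hε hε1 _
  have hderiv : ∀ t, HasDerivAt f (d t) t := by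
    intro t
    have h1 := ((hγ t).const_sub 1).norm_sq
    have h2 := (((hγ t).norm_sq).pow 3).const_mul ε
    have h3 := (h1.add h2).log (lt_of_lt_of_le (by positivity) (hn t)).ne'
    have h4 := (Complex.reCLM.hasFDerivAt.comp_hasDerivAt t
      ((hγ t).add (((hγ t).pow 2).div_const 2))).const_mul (2 : ℝ)
    refine ((h3.add h4).congr_deriv ?_)
    have hn0 : (n t) ≠ 0 := (lt_of_lt_of_le (by positivity) (hn t)).ne'
    simp only [d, n, Complex.inner, Pi.add_apply, Pi.pow_apply] at *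
    clear h1 h2 h3 h4
    generalize γ t = z at hn0 ⊢
    rw [div_add' _ _ _ (by exact hn0)]
    refine congrArg (fun w => w / (‖1 - z‖ ^ 2 + ε * (‖z‖ ^ 2) ^ 3)) ?_
    simp [Complex.reCLM_apply, ← Complex.ofReal_pow]
    ring
  have hd : ∀ t ∈ Set.Icc (0 : ℝ) 1, |d t| ≤ 64 / ε * 64 * (‖p‖ ^ 2 + ‖q‖ ^ 2) * ‖h‖ := by
    intro t ht
    obtain ⟨z, hz⟩ : ∃ z, z = γ t := ⟨_, rfl⟩
    obtain ⟨hg, hg2⟩ := hγn t ht
    rw [← hz] at hg hg2
    have key : (1 + z) * (n t : ℂ) - conj (1 - z) + 3 * (ε : ℂ) * ((‖z‖ ^ 2) ^ 2 : ℝ) * conj z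
        = -(z ^ 2) * conj (1 - z) + (ε : ℂ) * ((‖z‖ ^ 2) ^ 3 : ℝ) * (1 + z)
          + 3 * (ε : ℂ) * ((‖z‖ ^ 2) ^ 2 : ℝ) * conj z := by
      have h1 : ((‖1 - z‖ ^ 2 : ℝ) : ℂ) = (1 - z) * conj (1 - z) := by
        rw [Complex.mul_conj']; push_cast; rfl
      simp only [n, ← hz, Complex.ofReal_add, Complex.ofReal_mul, h1]
      ring
    have hK : ‖(1 + z) * (n t : ℂ) - conj (1 - z)
        + 3 * (ε : ℂ) * ((‖z‖ ^ 2) ^ 2 : ℝ) * conj z‖ ≤ 32 * ‖z‖ ^ 2 := by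
      rw [key]
      refine (norm_add₃_le).trans ?_
      simp only [norm_mul, norm_neg, norm_pow, Complex.norm_conj, Complex.norm_real,
        Real.norm_eq_abs, abs_norm, Complex.norm_ofNat, abs_of_pos hε]
      have a1 : ‖1 - z‖ ≤ 5 / 2 := (norm_sub_le _ _).trans (by rw [norm_one]; linarith)
      have a2 : ‖1 + z‖ ≤ 5 / 2 := (norm_add_le _ _).trans (by rw [norm_one]; linarith)
      have b4 : (‖z‖ ^ 2) ^ 2 ≤ (3 / 2) ^ 4 :=
        (pow_le_pow_left₀ (sq_nonneg _) (pow_le_pow_left₀ (norm_nonneg _) hg 2) 2).trans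
          (by norm_num)
      have b3 : ‖z‖ ^ 3 ≤ (3 / 2) ^ 3 := pow_le_pow_left₀ (norm_nonneg _) hg 3
      have c1 : ‖z‖ ^ 2 * ‖1 - z‖ ≤ ‖z‖ ^ 2 * (5 / 2) :=
        mul_le_mul_of_nonneg_left a1 (sq_nonneg _)
      have c2 : ε * (‖z‖ ^ 2) ^ 3 * ‖1 + z‖ ≤ ‖z‖ ^ 2 * (13 : ℝ) := by
        have h1 : ε * (‖z‖ ^ 2) ^ 3 ≤ (‖z‖ ^ 2) ^ 3 :=
          mul_le_of_le_one_left (by positivity) hε1
        refine (mul_le_mul h1 a2 (norm_nonneg _) (by positivity)).trans ?_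
        nlinarith [mul_le_mul_of_nonneg_left b4 (sq_nonneg ‖z‖)]
      have c3 : 3 * ε * (‖z‖ ^ 2) ^ 2 * ‖z‖ ≤ ‖z‖ ^ 2 * (11 : ℝ) := by
        have h1 : 3 * ε * (‖z‖ ^ 2) ^ 2 ≤ 3 * (‖z‖ ^ 2) ^ 2 :=
          mul_le_mul_of_nonneg_right (by linarith) (by positivity)
        refine (mul_le_mul_of_nonneg_right h1 (norm_nonneg _)).trans ?_
        nlinarith [mul_le_mul_of_nonneg_left b3 (sq_nonneg ‖z‖)]
      linarith [sq_nonneg ‖z‖]
    have hnt := hn t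
    have h0 : 0 < n t := lt_of_lt_of_le (by positivity) hnt
    simp only [d, ← hz]
    rw [abs_div, abs_of_pos h0, div_le_iff₀ h0]
    refine le_trans ?_ (mul_le_mul_of_nonneg_left hnt (by positivity))
    rw [abs_mul, abs_two]
    refine (mul_le_mul_of_nonneg_left (Complex.abs_re_le_norm _) zero_le_two).trans ?_
    rw [norm_mul]
    refine (mul_le_mul_of_nonneg_left (mul_le_mul_of_nonneg_left hK (norm_nonneg _))
      zero_le_two).trans ?_
    have e : 64 / ε * 64 * (‖p‖ ^ 2 + ‖q‖ ^ 2) * ‖h‖ * (ε / 64)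
        = 64 * (‖p‖ ^ 2 + ‖q‖ ^ 2) * ‖h‖ := by field_simp
    rw [e]
    nlinarith [mul_le_mul_of_nonneg_left hg2 (norm_nonneg h)]
  have hmv := (convex_Icc (0 : ℝ) 1).norm_image_sub_le_of_norm_hasDerivWithin_le
    (fun t _ => (hderiv t).hasDerivWithinAt) hd (Set.left_mem_Icc.2 zero_le_one)
    (Set.right_mem_Icc.2 zero_le_one)
  simpa [hfw, γ, h] using hmv

/-- The inner product moves little between two points of the ball. -/
theorem norm_inner_sub_le {ξ x y : V2} (hξ : ‖ξ‖ = 1) (hx : ‖x‖ ≤ 1) (hy : ‖y‖ ≤ 1) :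
    ‖inner ℂ ξ (y - x)‖ ≤ 3 * ‖1 - inner ℂ x y‖
      + 2 * Real.sqrt ‖1 - inner ℂ x y‖ * Real.sqrt ‖1 - inner ℂ ξ x‖ := by
  have key : ∀ u v : V2, ‖u‖ ≤ 1 → ‖v‖ ≤ 1 →
      ‖v - u‖ ≤ Real.sqrt 2 * Real.sqrt ‖1 - inner ℂ u v‖ := by
    intro u v hu hv
    rw [← Real.sqrt_mul zero_le_two, Real.le_sqrt (norm_nonneg _) (by positivity),
      norm_sub_sq (𝕜 := ℂ)]
    have h1 : RCLike.re (inner ℂ v u : ℂ) = (inner ℂ u v : ℂ).re := inner_re_symm v u
    rw [h1]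
    have h2 := Complex.re_le_norm (1 - inner ℂ u v)
    simp at h2
    nlinarith [norm_nonneg u, norm_nonneg v]
  have hsplit : inner ℂ ξ (y - x) = inner ℂ (ξ - x) (y - x)
      + ((1 - inner ℂ x x) - (1 - inner ℂ x y)) := by
    simp only [inner_sub_left, inner_sub_right]
    ring
  rw [hsplit]
  refine (norm_add_le _ _).trans ?_
  have h1 : ‖inner ℂ (ξ - x) (y - x)‖
      ≤ 2 * Real.sqrt ‖1 - inner ℂ x y‖ * Real.sqrt ‖1 - inner ℂ ξ x‖ := by
    refine (norm_inner_le_norm _ _).trans ?_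
    rw [norm_sub_rev ξ x]
    refine (mul_le_mul (key ξ x hξ.le hx) (key x y hx hy) (norm_nonneg _) (by positivity)).trans
      (le_of_eq ?_)
    have := Real.mul_self_sqrt (show (0 : ℝ) ≤ 2 by norm_num)
    linear_combination (Real.sqrt ‖1 - inner ℂ x y‖ * Real.sqrt ‖1 - inner ℂ ξ x‖) * this
  have h2 : ‖(1 : ℂ) - inner ℂ x x‖ ≤ 2 * ‖1 - inner ℂ x y‖ := by
    have e : (1 : ℂ) - inner ℂ x x = ((1 - ‖x‖ ^ 2 : ℝ) : ℂ) := by
      simp [inner_self_eq_norm_sq_to_K]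
    rw [e, Complex.norm_real, Real.norm_eq_abs, abs_of_nonneg (by nlinarith [norm_nonneg x])]
    have h3 := Complex.re_le_norm (1 - inner ℂ x y)
    simp at h3
    have h4 : (inner ℂ x y : ℂ).re ≤ ‖x‖ :=
      (Complex.re_le_norm _).trans ((norm_inner_le_norm x y).trans
        (mul_le_of_le_one_right (norm_nonneg _) hy))
    nlinarith [norm_nonneg x]
  linarith [norm_sub_le (1 - inner ℂ x x : ℂ) (1 - inner ℂ x y)]

/-- The variation of one summand between two points of the ball. -/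
theorem exists_well_qfun_move {ε : ℝ} (hε : 0 < ε) (hε1 : ε ≤ 1) :
    ∃ B : ℝ, 0 ≤ B ∧ ∀ N : ℝ, 0 ≤ N → ∀ ξ x y : V2, ‖ξ‖ = 1 → ‖x‖ ≤ 1 → ‖y‖ ≤ 1 →
      |well ε (qfun N ξ y) - well ε (qfun N ξ x)| ≤
        B * (Real.sqrt N * Real.sqrt ‖1 - inner ℂ x y‖) *
          (‖qfun N ξ x‖ ^ 3 + ‖qfun N ξ y‖ ^ 3) := by
  obtain ⟨B, hB, hLip⟩ := exists_well_lipschitz hε hε1
  refine ⟨64 * B, by positivity, fun N hN ξ x y hξ hx hy => ?_⟩
  set A := Real.sqrt N * Real.sqrt ‖1 - inner ℂ x y‖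
  set qx := qfun N ξ x with hqx
  set qy := qfun N ξ y with hqy
  have hA : 0 ≤ A := by positivity
  have hx0 := norm_nonneg qx
  have hy0 := norm_nonneg qy
  have hxb : ‖qx‖ ≤ 3 / 2 := norm_qfun_le hN hξ hx
  have hyb : ‖qy‖ ≤ 3 / 2 := norm_qfun_le hN hξ hy
  have hq := hLip qx qy hxb hyb
  have hq3 : (‖qx‖ ^ 2 + ‖qy‖ ^ 2) * (‖qx‖ + ‖qy‖) ≤ 2 * (‖qx‖ ^ 3 + ‖qy‖ ^ 3) := by
    nlinarith [mul_nonneg (add_nonneg hx0 hy0) (sq_nonneg (‖qx‖ - ‖qy‖))]
  -- the difference of the two values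
  have hd : ‖qy - qx‖ ≤ 32 * A * (‖qx‖ + ‖qy‖) := by
    by_cases hA1 : 1 ≤ A
    · refine (norm_sub_le _ _).trans ?_
      nlinarith [mul_le_mul_of_nonneg_right hA1 (add_nonneg hx0 hy0)]
    push Not at hA1
    set ux : ℂ := (N : ℂ) * (1 - inner ℂ ξ x) with hux
    set uy : ℂ := (N : ℂ) * (1 - inner ℂ ξ y) with huy
    have hxr : 0 ≤ ux.re := (mul_nonneg hN (by linarith)).trans (re_shift_ge hN hξ)
    have hyr : 0 ≤ uy.re := (mul_nonneg hN (by linarith)).trans (re_shift_ge hN hξ)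
    have hx1 := norm_one_add_pos hxr
    have hy1 := norm_one_add_pos hyr
    have e : qy - qx = (2 / 3 : ℂ) * qx * qy * ((N : ℂ) * inner ℂ ξ (y - x)) := by
      have hxne : 1 + ux ≠ 0 := norm_pos_iff.1 (by linarith)
      have hyne : 1 + uy ≠ 0 := norm_pos_iff.1 (by linarith)
      simp only [hqx, hqy, qfun, ← hux, ← huy]
      field_simp
      simp only [hux, huy, inner_sub_right]
      ring
    have hb : ‖qx‖ * (N * ‖inner ℂ ξ (y - x)‖) ≤ 9 * A := by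
      have h1 := mul_le_mul_of_nonneg_left (norm_inner_sub_le hξ hx hy) hN
      have e1 : N * (3 * ‖1 - inner ℂ x y‖
          + 2 * Real.sqrt ‖1 - inner ℂ x y‖ * Real.sqrt ‖1 - inner ℂ ξ x‖)
          = 3 * (A * A) + 2 * A * Real.sqrt ‖ux‖ := by
        have hs := Real.mul_self_sqrt hN
        have hd := Real.mul_self_sqrt (norm_nonneg (1 - inner ℂ x y : ℂ))
        have hu : Real.sqrt ‖ux‖ = Real.sqrt N * Real.sqrt ‖1 - inner ℂ ξ x‖ := by
          rw [← Real.sqrt_mul hN, hux, norm_mul, Complex.norm_real, Real.norm_eq_abs,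
            abs_of_nonneg hN]
        rw [hu]
        simp only [A]
        linear_combination (-2 * Real.sqrt ‖1 - inner ℂ x y‖ * Real.sqrt ‖1 - inner ℂ ξ x‖
          - 3 * Real.sqrt ‖1 - inner ℂ x y‖ * Real.sqrt ‖1 - inner ℂ x y‖) * hs
          - 3 * N * hd
      rw [e1] at h1
      refine (mul_le_mul_of_nonneg_left h1 hx0).trans ?_
      have hs2 : Real.sqrt ‖ux‖ ≤ ‖1 + ux‖ := by
        rw [Real.sqrt_le_left (norm_nonneg _)]
        nlinarith [norm_le_norm_one_add hxr]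
      have hxv : ‖qx‖ * ‖1 + ux‖ = 3 / 2 := by
        rw [hqx, norm_qfun, ← hux]
        exact div_mul_cancel₀ _ (by linarith)
      nlinarith [mul_le_mul_of_nonneg_left hs2 (mul_nonneg hA hx0), mul_le_mul_of_nonneg_left hxb
        (mul_nonneg hA hA), mul_le_mul_of_nonneg_left hA1.le hA]
    rw [e, norm_mul, norm_mul, norm_mul, norm_mul, Complex.norm_real, Real.norm_eq_abs,
      abs_of_nonneg hN]
    have h23 : ‖(2 / 3 : ℂ)‖ = 2 / 3 := by simp
    rw [h23]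
    nlinarith [mul_le_mul_of_nonneg_left hb hy0, mul_nonneg hA hx0, mul_nonneg hA hy0]
  refine hq.trans ((mul_le_mul_of_nonneg_left hd (by positivity)).trans ?_)
  nlinarith [mul_le_mul_of_nonneg_left hq3 (mul_nonneg hB hA)]

end Vale.BDU
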