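import Vale.Agent.BDU.Wirtinger

/-!
# P250: the metric of a potential and its curvature
-/

open scoped ContDiff
open ComplexConjugate

namespace Vale.BDU

/-- Multiplication by `i` as a real linear map. -/
noncomputable def jmap : C3 →L[ℝ] C3 := Complex.I • ContinuousLinearMap.id ℝ C3

@[simp] lemma jmap_apply (v : C3) : jmap v = Complex.I • v := rfl

/-- The real bilinear form of the potential `P`. -/
noncomputable def metricOf (P : C3 → ℝ) : Form :=
  fun p => (1 / 4 : ℝ) •
    (fderiv ℝ (fderiv ℝ P) p + (fderiv ℝ (fderiv ℝ P) p).bilinearComp jmap jmap)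

lemma metricOf_apply (P : C3 → ℝ) (p u v : C3) :
    metricOf P p u v = (1 / 4) * (fderiv ℝ (fderiv ℝ P) p u v
      + fderiv ℝ (fderiv ℝ P) p (Complex.I • u) (Complex.I • v)) := by
  simp [metricOf, ContinuousLinearMap.bilinearComp, mul_add]

/-- A real function, regarded as complex valued. -/
def cplx (P : C3 → ℝ) : C3 → ℂ := fun q => (P q : ℂ)

/-- The Hermitian form `∂∂̄P`. -/
noncomputable def herm (P : C3 → ℝ) (X Y : C3) : C3 → ℂ := pd X (pb Y (cplx P))

/-- Third derivatives `∂∂∂̄P`. -/
noncomputable def third (P : C3 → ℝ) (Z X Y : C3) : C3 → ℂ := pd Z (herm P X Y)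

/-- Fourth derivatives `∂∂∂̄∂̄P`. -/
noncomputable def fourth (P : C3 → ℝ) (Z X W Y : C3) : C3 → ℂ := pb W (third P Z X Y)

open Classical in
/-- The connection of the metric. -/
noncomputable def gamma (P : C3 → ℝ) (p u v : C3) : C3 :=
  if h : ∃ x : C3, ∀ w, metricOf P p x w = (third P u v w p).re then h.choose else 0

variable {M : Set C3} {P : C3 → ℝ}

lemma contDiffOn_cplx (hP : ContDiffOn ℝ ∞ P M) : ContDiffOn ℝ ∞ (cplx P) M :=
  Complex.ofRealCLM.contDiff.comp_contDiffOn hP

lemma contDiffOn_herm (hM : IsOpen M) (hP : ContDiffOn ℝ ∞ P M) (X Y : C3) :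
    ContDiffOn ℝ ∞ (herm P X Y) M :=
  contDiffOn_pd hM (contDiffOn_pb hM (contDiffOn_cplx hP) Y) X

lemma contDiffOn_third (hM : IsOpen M) (hP : ContDiffOn ℝ ∞ P M) (Z X Y : C3) :
    ContDiffOn ℝ ∞ (third P Z X Y) M :=
  contDiffOn_pd hM (contDiffOn_herm hM hP X Y) Z

lemma pd_fun_add {f g : C3 → ℂ} {q : C3} (hf : DifferentiableAt ℝ f q)
    (hg : DifferentiableAt ℝ g q) (Z : C3) :
    pd Z (fun r => f r + g r) q = pd Z f q + pd Z g q := by
  simp only [pd, fderiv_fun_add hf hg, add_apply]; ring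

lemma pd_fun_const_mul {f : C3 → ℂ} {q : C3} (hf : DifferentiableAt ℝ f q) (c : ℂ) (Z : C3) :
    pd Z (fun r => c * f r) q = c * pd Z f q := by
  simp only [pd, fderiv_const_mul hf c, smul_apply, smul_eq_mul]; ring

lemma pb_fun_const_mul {f : C3 → ℂ} {q : C3} (hf : DifferentiableAt ℝ f q) (c : ℂ) (Z : C3) :
    pb Z (fun r => c * f r) q = c * pb Z f q := by
  simp only [pb, fderiv_const_mul hf c, smul_apply, smul_eq_mul]; ring

lemma herm_eq (hM : IsOpen M) (hP : ContDiffOn ℝ ∞ P M) {q : C3} (hq : q ∈ M) (X Y : C3) :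
    herm P X Y q = (metricOf P q X Y : ℂ) + Complex.I * (metricOf P q X (Complex.I • Y) : ℂ) := by
  have hc := contDiffOn_cplx hP
  have hd : DifferentiableAt ℝ (fderiv ℝ P) q :=
    ((hP.fderiv_of_isOpen hM (m := ∞) (by simp)).contDiffAt (hM.mem_nhds hq)).differentiableAt
      (by simp)
  have e : ∀ A B : C3, fderiv ℝ (fun r => fderiv ℝ (cplx P) r A) q B
      = (fderiv ℝ (fderiv ℝ P) q B A : ℂ) := by
    intro A B
    have h1 : (fun r => fderiv ℝ (cplx P) r A) =ᶠ[nhds q]
        fun r => ((fderiv ℝ P r A : ℝ) : ℂ) := by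
      filter_upwards [hM.mem_nhds hq] with r hr
      have hPr : DifferentiableAt ℝ P r :=
        (hP.contDiffAt (hM.mem_nhds hr)).differentiableAt (by simp)
      have := (Complex.ofRealCLM.hasFDerivAt.comp r hPr.hasFDerivAt).fderiv
      exact congrArg (fun L : C3 →L[ℝ] ℂ => L A) this
    have h2 : HasFDerivAt (fun r => ((fderiv ℝ P r A : ℝ) : ℂ))
        (Complex.ofRealCLM.comp ((fderiv ℝ (fderiv ℝ P) q).flip A)) q := by
      have := (hd.hasFDerivAt.clm_apply (hasFDerivAt_const A q))
      simp only [ContinuousLinearMap.comp_zero, zero_add] at this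
      exact Complex.ofRealCLM.hasFDerivAt.comp q this
    rw [h1.fderiv_eq, h2.fderiv]
    rfl
  have hs := (hP.contDiffAt (hM.mem_nhds hq)).isSymmSndFDerivAt
    (by simp only [minSmoothness_of_isRCLikeNormedField]; exact WithTop.coe_le_coe.2 le_top)
  show (1 / 2 : ℂ) * _ = _
  simp only [fderiv_pb hM hc hq, e, metricOf_apply, smul_smul, Complex.I_mul_I, neg_smul,
    one_smul, map_neg]
  apply Complex.ext <;> simp <;> ring

lemma herm_re (hM : IsOpen M) (hP : ContDiffOn ℝ ∞ P M) {q : C3} (hq : q ∈ M) (X Y : C3) :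
    (herm P X Y q).re = metricOf P q X Y := by
  rw [herm_eq hM hP hq]; simp

lemma conj_cplx (P : C3 → ℝ) : (fun r => conj (cplx P r)) = cplx P := by
  funext r; exact Complex.conj_ofReal _

lemma conj_herm (hM : IsOpen M) (hP : ContDiffOn ℝ ∞ P M) (X Y : C3) :
    Set.EqOn (fun q => conj (herm P X Y q)) (herm P Y X) M := by
  have hc := contDiffOn_cplx hP
  intro q hq
  have e : Set.EqOn (fun r => conj (pb Y (cplx P) r)) (pd Y (cplx P)) M := by
    intro r hr
    have := conj_pb Y (differentiableAt_of_contDiffOn hM hc hr)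
    rwa [conj_cplx] at this
  show conj (pd X (pb Y (cplx P)) q) = _
  rw [conj_pd X (differentiableAt_of_contDiffOn hM (contDiffOn_pb hM hc Y) hq),
    pb_congr_on hM e X hq]
  exact (pd_pb_comm hM hc Y X hq).symm

lemma herm_smul_left (X Y : C3) (c : ℂ) (q : C3) : herm P (c • X) Y q = c * herm P X Y q :=
  pd_smul c X q

lemma herm_smul_right (hM : IsOpen M) (hP : ContDiffOn ℝ ∞ P M) (X Y : C3) (c : ℂ) :
    Set.EqOn (herm P X (c • Y)) (fun q => conj c * herm P X Y q) M := by
  intro q hq
  have e : pb (c • Y) (cplx P) = fun r => conj c * pb Y (cplx P) r := funext fun r => pb_smul c Y r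
  show pd X (pb (c • Y) (cplx P)) q = _
  rw [e, pd_fun_const_mul (differentiableAt_of_contDiffOn hM
    (contDiffOn_pb hM (contDiffOn_cplx hP) Y) hq)]
  rfl

lemma herm_add_right (hM : IsOpen M) (hP : ContDiffOn ℝ ∞ P M) (X Y W : C3) :
    Set.EqOn (herm P X (Y + W)) (fun q => herm P X Y q + herm P X W q) M := by
  intro q hq
  have e : pb (Y + W) (cplx P) = fun r => pb Y (cplx P) r + pb W (cplx P) r :=
    funext fun r => pb_add Y W r
  show pd X (pb (Y + W) (cplx P)) q = _
  rw [e, pd_fun_add (differentiableAt_of_contDiffOn hM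
    (contDiffOn_pb hM (contDiffOn_cplx hP) Y) hq) (differentiableAt_of_contDiffOn hM
    (contDiffOn_pb hM (contDiffOn_cplx hP) W) hq)]
  rfl

lemma third_smul_right (hM : IsOpen M) (hP : ContDiffOn ℝ ∞ P M) (Z X Y : C3) (c : ℂ) :
    Set.EqOn (third P Z X (c • Y)) (fun q => conj c * third P Z X Y q) M := by
  intro q hq
  show pd Z (herm P X (c • Y)) q = _
  rw [pd_congr_on hM (herm_smul_right hM hP X Y c) Z hq,
    pd_fun_const_mul (differentiableAt_of_contDiffOn hM (contDiffOn_herm hM hP X Y) hq)]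
  rfl

lemma third_add_right (hM : IsOpen M) (hP : ContDiffOn ℝ ∞ P M) (Z X Y W : C3) :
    Set.EqOn (third P Z X (Y + W)) (fun q => third P Z X Y q + third P Z X W q) M := by
  intro q hq
  show pd Z (herm P X (Y + W)) q = _
  rw [pd_congr_on hM (herm_add_right hM hP X Y W) Z hq,
    pd_fun_add (differentiableAt_of_contDiffOn hM (contDiffOn_herm hM hP X Y) hq)
      (differentiableAt_of_contDiffOn hM (contDiffOn_herm hM hP X W) hq)]
  rfl

lemma third_comm (hM : IsOpen M) (hP : ContDiffOn ℝ ∞ P M) (Z X Y : C3) :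
    Set.EqOn (third P Z X Y) (third P X Z Y) M :=
  pd_pd_comm hM (contDiffOn_pb hM (contDiffOn_cplx hP) Y) Z X

lemma conj_third (hM : IsOpen M) (hP : ContDiffOn ℝ ∞ P M) (Z X Y : C3) :
    Set.EqOn (fun q => conj (third P Z X Y q)) (pb Z (herm P Y X)) M := by
  intro q hq
  show conj (pd Z (herm P X Y) q) = _
  rw [conj_pd Z (differentiableAt_of_contDiffOn hM (contDiffOn_herm hM hP X Y) hq),
    pb_congr_on hM (conj_herm hM hP X Y) Z hq]

lemma fourth_comm_left (hM : IsOpen M) (hP : ContDiffOn ℝ ∞ P M) (Z X W Y : C3) :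
    Set.EqOn (fourth P Z X W Y) (fourth P X Z W Y) M :=
  pb_congr_on hM (third_comm hM hP Z X Y) W

lemma fourth_comm_right (hM : IsOpen M) (hP : ContDiffOn ℝ ∞ P M) (Z X W Y : C3) :
    Set.EqOn (fourth P Z X W Y) (fourth P Z X Y W) M := by
  have hc := contDiffOn_cplx hP
  have step : ∀ A B : C3, Set.EqOn (fourth P Z X A B) (pd Z (pd X (pb A (pb B (cplx P))))) M := by
    intro A B q hq
    have h1 : fourth P Z X A B q = pd Z (pb A (pd X (pb B (cplx P)))) q :=
      (pd_pb_comm hM (contDiffOn_herm hM hP X B) Z A hq).symm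
    rw [h1]
    exact (pd_congr_on hM (pd_pb_comm hM (contDiffOn_pb hM hc B) X A) Z hq).symm
  intro q hq
  rw [step W Y hq, step Y W hq]
  exact pd_congr_on hM (pd_congr_on hM (pb_pb_comm hM hc W Y) X) Z hq

lemma conj_fourth (hM : IsOpen M) (hP : ContDiffOn ℝ ∞ P M) (Z X W Y : C3) :
    Set.EqOn (fun q => conj (fourth P Z X W Y q)) (fourth P W Y Z X) M := by
  intro q hq
  show conj (pb W (third P Z X Y) q) = _
  rw [conj_pb W (differentiableAt_of_contDiffOn hM (contDiffOn_third hM hP Z X Y) hq),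
    pd_congr_on hM (conj_third hM hP Z X Y) W hq]
  exact pd_pb_comm hM (contDiffOn_herm hM hP Y X) W Z hq

lemma metricOf_symm (hM : IsOpen M) (hP : ContDiffOn ℝ ∞ P M) {q : C3} (hq : q ∈ M) (X Y : C3) :
    metricOf P q X Y = metricOf P q Y X := by
  rw [← herm_re hM hP hq, ← herm_re hM hP hq, ← conj_herm hM hP X Y hq, Complex.conj_re]

lemma metricOf_smul_I (hM : IsOpen M) (hP : ContDiffOn ℝ ∞ P M) {q : C3} (hq : q ∈ M)
    (X Y : C3) : metricOf P q (Complex.I • X) (Complex.I • Y) = metricOf P q X Y := by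
  rw [← herm_re hM hP hq, ← herm_re hM hP hq, herm_smul_left,
    herm_smul_right hM hP X Y Complex.I hq]
  simp

lemma dForm_eq (hM : IsOpen M) (hP : ContDiffOn ℝ ∞ P M) {q : C3} (hq : q ∈ M) (u v w : C3) :
    dForm (metricOf P) q u v w = (third P u v w q).re + (third P u w v q).re := by
  have h1 : (fun r => metricOf P r v w) =ᶠ[nhds q] fun r => (herm P v w r).re := by
    filter_upwards [hM.mem_nhds hq] with r hr using (herm_re hM hP hr v w).symm
  have hd := differentiableAt_of_contDiffOn hM (contDiffOn_herm hM hP v w) hq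
  have h2 := (Complex.reCLM.hasFDerivAt.comp q hd.hasFDerivAt).fderiv
  show fderiv ℝ (fun r => metricOf P r v w) q u = _
  rw [h1.fderiv_eq]
  rw [show fderiv ℝ (fun r => (herm P v w r).re) q = _ from h2]
  show (fderiv ℝ (herm P v w) q u).re = _
  rw [fderiv_eq_pd_add_pb, Complex.add_re]
  congr 1
  rw [← conj_third hM hP u w v hq, Complex.conj_re]

lemma ddForm_eq (hM : IsOpen M) (hP : ContDiffOn ℝ ∞ P M) {q : C3} (hq : q ∈ M)
    (a b v w : C3) :
    ddForm (metricOf P) q a b v w =
      (pd a (third P b v w) q).re + (fourth P b v a w q).re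
      + ((pd a (third P b w v) q).re + (fourth P b w a v q).re) := by
  have h1 : (fun r => dForm (metricOf P) r b v w) =ᶠ[nhds q]
      fun r => (third P b v w r).re + (third P b w v r).re := by
    filter_upwards [hM.mem_nhds hq] with r hr using dForm_eq hM hP hr b v w
  have hd1 := differentiableAt_of_contDiffOn hM (contDiffOn_third hM hP b v w) hq
  have hd2 := differentiableAt_of_contDiffOn hM (contDiffOn_third hM hP b w v) hq
  have h2 := ((Complex.reCLM.hasFDerivAt.comp q hd1.hasFDerivAt).fun_add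
    (Complex.reCLM.hasFDerivAt.comp q hd2.hasFDerivAt)).fderiv
  show fderiv ℝ (fun r => dForm (metricOf P) r b v w) q a = _
  rw [h1.fderiv_eq]
  rw [show fderiv ℝ (fun r => (third P b v w r).re + (third P b w v r).re) q = _ from h2]
  show (fderiv ℝ (third P b v w) q a).re + (fderiv ℝ (third P b w v) q a).re = _
  rw [fderiv_eq_pd_add_pb, fderiv_eq_pd_add_pb, Complex.add_re, Complex.add_re]
  rfl

/-- Positivity of the form of `P` on `M`. -/
def PosOn (P : C3 → ℝ) (M : Set C3) : Prop :=
  ∀ p ∈ M, ∀ v : C3, v ≠ 0 → 0 < metricOf P p v v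

lemma gamma_spec (hM : IsOpen M) (hP : ContDiffOn ℝ ∞ P M) (hpos : PosOn P M) {p : C3}
    (hp : p ∈ M) (u v w : C3) : metricOf P p (gamma P p u v) w = (third P u v w p).re := by
  let B : C3 →ₗ[ℝ] (C3 →ₗ[ℝ] ℝ) :=
    { toFun := fun x => (metricOf P p x : C3 →ₗ[ℝ] ℝ)
      map_add' := fun x y => by ext z; simp
      map_smul' := fun c x => by ext z; simp }
  have hinj : Function.Injective B := by
    rw [injective_iff_map_eq_zero]
    intro x hx
    by_contra hne
    have h0 : metricOf P p x x = 0 := LinearMap.congr_fun hx x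
    linarith [hpos p hp x hne]
  have hsurj : Function.Surjective B :=
    (LinearMap.injective_iff_surjective_of_finrank_eq_finrank
      (Subspace.dual_finrank_eq (V := C3) (K := ℝ)).symm).1 hinj
  let ℓ : C3 →ₗ[ℝ] ℝ :=
    { toFun := fun z => (third P u v z p).re
      map_add' := fun x y => by
        rw [third_add_right hM hP u v x y hp]; simp
      map_smul' := fun c x => by
        have hcx : c • x = ((c : ℂ)) • x := RCLike.real_smul_eq_coe_smul c x
        rw [hcx, third_smul_right hM hP u v x (c : ℂ) hp]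
        simp }
  obtain ⟨x, hx⟩ := hsurj ℓ
  have hex : ∃ x : C3, ∀ z, metricOf P p x z = (third P u v z p).re :=
    ⟨x, fun z => LinearMap.congr_fun hx z⟩
  unfold gamma
  rw [dif_pos hex]
  exact hex.choose_spec w

lemma herm_gamma (hM : IsOpen M) (hP : ContDiffOn ℝ ∞ P M) (hpos : PosOn P M) {p : C3}
    (hp : p ∈ M) (u v w : C3) : herm P (gamma P p u v) w p = third P u v w p := by
  rw [herm_eq hM hP hp, gamma_spec hM hP hpos hp, gamma_spec hM hP hpos hp,
    third_smul_right hM hP u v w Complex.I hp]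
  apply Complex.ext <;> simp

lemma isKahlerMetricOn (hM : IsOpen M) (hP : ContDiffOn ℝ ∞ P M) (hpos : PosOn P M) :
    IsKahlerMetricOn (metricOf P) M := by
  refine ⟨fun v w => ?_, fun p hp => ⟨fun v w => metricOf_symm hM hP hp v w, hpos p hp,
    fun v w => metricOf_smul_I hM hP hp v w, fun u v w => ?_⟩⟩
  · exact (Complex.reCLM.contDiff.comp_contDiffOn (contDiffOn_herm hM hP v w)).congr
      fun q hq => (herm_re hM hP hq v w).symm
  · have l : ∀ a b c : C3, third P a (Complex.I • b) c p = Complex.I * third P a b c p := by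
      intro a b c
      show pd a (herm P (Complex.I • b) c) p = _
      rw [show herm P (Complex.I • b) c = fun r => Complex.I * herm P b c r from
        funext fun r => herm_smul_left b c Complex.I r,
        pd_fun_const_mul (differentiableAt_of_contDiffOn hM (contDiffOn_herm hM hP b c) hp)]
      rfl
    simp only [dForm_eq hM hP hp, l, third_smul_right hM hP _ _ _ Complex.I hp]
    simp only [third_comm hM hP v u _ hp, third_comm hM hP w u _ hp, third_comm hM hP w v _ hp]
    simp only [Complex.mul_re, Complex.conj_re, Complex.conj_im, Complex.I_re, Complex.I_im]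
    ring

lemma isLeviCivitaOn (hM : IsOpen M) (hP : ContDiffOn ℝ ∞ P M) (hpos : PosOn P M) :
    IsLeviCivitaOn (metricOf P) (gamma P) M := by
  intro p hp u v w
  simp only [gamma_spec hM hP hpos hp, dForm_eq hM hP hp, third_comm hM hP v u _ hp,
    third_comm hM hP w u _ hp, third_comm hM hP w v _ hp]
  ring

/-- The curvature tensor `∂∂̄ h - ∂h h⁻¹ ∂̄h` of the potential. -/
noncomputable def curvTensor (P : C3 → ℝ) (p Z X W Y : C3) : ℂ :=
  fourth P Z X W Y p - herm P (gamma P p Z X) (gamma P p W Y) p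

lemma curvNum_eq (hM : IsOpen M) (hP : ContDiffOn ℝ ∞ P M) {p : C3} (hp : p ∈ M) (u v : C3) :
    curvNum (metricOf P) (gamma P) p u v =
      (curvTensor P p u u v v).re - (curvTensor P p u v u v).re := by
  have c1 : pd u (third P u v v) p = pd u (third P v u v) p :=
    pd_congr_on hM (third_comm hM hP u v v) u hp
  have c2 : pd v (third P v u u) p = pd u (third P v v u) p := by
    rw [pd_congr_on hM (third_comm hM hP v u u) v hp]
    exact pd_pd_comm hM (contDiffOn_herm hM hP v u) v u hp
  have c3 : fourth P v u u v p = fourth P u v u v p := fourth_comm_left hM hP v u u v hp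
  have c4 : (fourth P v v u u p).re = (fourth P u u v v p).re := by
    rw [← conj_fourth hM hP u u v v hp, Complex.conj_re]
  have c5 : fourth P v u v u p = fourth P u v u v p :=
    (fourth_comm_left hM hP v u v u hp).trans (fourth_comm_right hM hP u v v u hp)
  simp only [curvNum, ddForm_eq hM hP hp, curvTensor, Complex.sub_re, ← herm_re hM hP hp,
    c1, c2, c3, c4, c5]
  ring

end Vale.BDU
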