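import Vale.Agent.BDU.Setup

/-!
# P250: separated nets on the unit sphere of complex two-space

Separated sets at scale `1/N` have at most `C (1 + N R)²` points in a cap of radius `R`.
-/

namespace Vale.BDU

open Complex

lemma inner_two (x y : V2) :
    inner ℂ x y = (starRingEnd ℂ) (x 0) * y 0 + (starRingEnd ℂ) (x 1) * y 1 := by
  simp [PiLp.inner_apply, Fin.sum_univ_two, mul_comm]

lemma inner_self_one {x : V2} (hx : ‖x‖ = 1) : inner ℂ x x = 1 := by
  rw [inner_self_eq_norm_sq_to_K, hx]; simp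

lemma norm_one_sub_inner_symm (x y : V2) : ‖1 - inner ℂ x y‖ = ‖1 - inner ℂ y x‖ := by
  rw [← inner_conj_symm x y, ← Complex.norm_conj]
  simp

/-- The coordinate orthogonal to `e`. -/
noncomputable def perpCoord (e x : V2) : ℂ := e 0 * x 1 - e 1 * x 0

lemma inner_decomp {e : V2} (he : ‖e‖ = 1) (x y : V2) :
    inner ℂ x y = (starRingEnd ℂ) (inner ℂ e x) * inner ℂ e y
      + (starRingEnd ℂ) (perpCoord e x) * perpCoord e y := by
  have h := inner_self_one he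
  rw [inner_two] at h
  simp only [inner_two, perpCoord, map_add, map_sub, map_mul, Complex.conj_conj]
  linear_combination -((starRingEnd ℂ) (x 0) * y 0 + (starRingEnd ℂ) (x 1) * y 1) * h

lemma unit_decomp {e : V2} (he : ‖e‖ = 1) {x : V2} (hx : ‖x‖ = 1) :
    (inner ℂ e x).re ^ 2 + (inner ℂ e x).im ^ 2
      + ((perpCoord e x).re ^ 2 + (perpCoord e x).im ^ 2) = 1 := by
  have h := congrArg Complex.re ((inner_decomp he x x).symm.trans (inner_self_one hx))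
  simp only [add_re, mul_re, conj_re, conj_im, one_re] at h
  linarith

/-- The coordinates of a point of the sphere relative to `e`: `λ = re + i im`, `v = p + i q`. -/
lemma cap_coords {e : V2} (he : ‖e‖ = 1) {x : V2} (hx : ‖x‖ = 1) {R : ℝ} (hR : R ≤ 1 / 4)
    (h : ‖1 - inner ℂ e x‖ ≤ R) :
    3 / 4 ≤ (inner ℂ e x).re ∧ |(inner ℂ e x).im| ≤ R ∧
      |(perpCoord e x).re| ≤ Real.sqrt (2 * R) ∧ |(perpCoord e x).im| ≤ Real.sqrt (2 * R) := by
  have h1 : |1 - (inner ℂ e x).re| ≤ R := by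
    have := (abs_re_le_norm (1 - inner ℂ e x)).trans h
    simpa using this
  have h2 : |(inner ℂ e x).im| ≤ R := by
    have := (abs_im_le_norm (1 - inner ℂ e x)).trans h
    simpa using this
  have hu := unit_decomp he hx
  obtain ⟨h3, h4⟩ := abs_le.1 h1
  have hre : 3 / 4 ≤ (inner ℂ e x).re := by linarith
  have hv : (perpCoord e x).re ^ 2 + (perpCoord e x).im ^ 2 ≤ 2 * R := by
    nlinarith [sq_nonneg ((inner ℂ e x).im), sq_nonneg (1 - (inner ℂ e x).re)]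
  exact ⟨hre, h2, Real.abs_le_sqrt (by nlinarith [sq_nonneg (perpCoord e x).im]),
    Real.abs_le_sqrt (by nlinarith [sq_nonneg (perpCoord e x).re])⟩

/-- Two points of one cell are close. -/
lemma cell_close {a b p q a' b' p' q' R h k : ℝ} (hu : a ^ 2 + b ^ 2 + (p ^ 2 + q ^ 2) = 1)
    (hu' : a' ^ 2 + b' ^ 2 + (p' ^ 2 + q' ^ 2) = 1) (ha : 3 / 4 ≤ a) (ha' : 3 / 4 ≤ a')
    (hR : R ≤ 1 / 4) (hb : |b| ≤ R) (hb' : |b'| ≤ R) (hp : |p| ≤ Real.sqrt (2 * R))
    (hp' : |p'| ≤ Real.sqrt (2 * R)) (hq : |q| ≤ Real.sqrt (2 * R))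
    (hq' : |q'| ≤ Real.sqrt (2 * R)) (hbb : |b - b'| ≤ k) (hpp : |p - p'| ≤ h)
    (hqq : |q - q'| ≤ h) :
    |a - a'| ≤ k / 3 + 2 * h := by
  have hs : Real.sqrt (2 * R) ≤ 3 / 4 := by
    rw [Real.sqrt_le_left (by norm_num)]; linarith
  have key : ∀ x y d B : ℝ, |x| ≤ B → |y| ≤ B → |x - y| ≤ d → |x ^ 2 - y ^ 2| ≤ 2 * B * d := by
    intro x y d B hx hy hd
    rw [show x ^ 2 - y ^ 2 = (x + y) * (x - y) by ring, abs_mul]
    exact mul_le_mul ((abs_add_le x y).trans (by linarith)) hd (abs_nonneg _)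
      (by linarith [abs_nonneg x])
  have e1 := key b b' k (1 / 4) (hb.trans hR) (hb'.trans hR) hbb
  have e2 := key p p' h (3 / 4) (hp.trans hs) (hp'.trans hs) hpp
  have e3 := key q q' h (3 / 4) (hq.trans hs) (hq'.trans hs) hqq
  have e4 : |(a - a') * (a + a')| ≤ k / 2 + 3 * h := by
    rw [show (a - a') * (a + a') =
      -(b ^ 2 - b' ^ 2) - (p ^ 2 - p' ^ 2) - (q ^ 2 - q' ^ 2) by linear_combination hu - hu']
    obtain ⟨_, _⟩ := abs_le.1 e1
    obtain ⟨_, _⟩ := abs_le.1 e2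
    obtain ⟨_, _⟩ := abs_le.1 e3
    exact abs_le.2 ⟨by linarith, by linarith⟩
  rw [abs_mul, abs_of_pos (by linarith : 0 < a + a')] at e4
  nlinarith [abs_nonneg (a - a'), mul_le_mul_of_nonneg_left
    (show (3 / 2 : ℝ) ≤ a + a' by linarith) (abs_nonneg (a - a'))]

lemma card_Icc_le {n : ℕ} {x : ℝ} (hn : (n : ℝ) ≤ x) :
    ((Finset.Icc (-(n : ℤ)) n).card : ℝ) ≤ 2 * x + 1 := by
  have : (Finset.Icc (-(n : ℤ)) n).card = 2 * n + 1 := by rw [Int.card_Icc]; omega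
  rw [this]
  push_cast
  linarith

lemma floor_mem_Icc {x h B : ℝ} (hh : 0 < h) (hx : |x| ≤ B) :
    ⌊x / h⌋ ∈ Finset.Icc (-((⌈B / h⌉₊ : ℕ) : ℤ)) (⌈B / h⌉₊ : ℕ) := by
  have hB : B / h ≤ (⌈B / h⌉₊ : ℝ) := Nat.le_ceil _
  obtain ⟨h1, h2⟩ := abs_le.1 hx
  rw [Finset.mem_Icc]
  constructor
  · refine Int.le_floor.2 ?_
    push_cast
    have : -B / h ≤ x / h := div_le_div_of_nonneg_right h1 hh.le
    rw [neg_div] at this
    linarith
  · have : x / h ≤ B / h := div_le_div_of_nonneg_right h2 hh.le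
    exact_mod_cast (Int.floor_le _).trans (this.trans hB)

lemma abs_sub_le_of_floor {x y h : ℝ} (hh : 0 < h) (he : ⌊x / h⌋ = ⌊y / h⌋) : |x - y| ≤ h := by
  have := Int.abs_sub_lt_one_of_floor_eq_floor he
  rw [← sub_div, abs_div, abs_of_pos hh, div_lt_one hh] at this
  exact this.le

/-- Points of one bin are closer than the separation. -/
lemma bin_close {a b p q a' b' p' q' a₀ b₀ p₀ q₀ σ : ℝ}
    (hux : a ^ 2 + b ^ 2 + (p ^ 2 + q ^ 2) = 1) (huy : a' ^ 2 + b' ^ 2 + (p' ^ 2 + q' ^ 2) = 1)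
    (x1 : |a - a₀| ≤ σ / 6) (x2 : |b - b₀| ≤ σ / 16) (x3 : |p - p₀| ≤ σ / 16)
    (x4 : |q - q₀| ≤ σ / 16) (y1 : |a' - a₀| ≤ σ / 6) (y2 : |b' - b₀| ≤ σ / 16)
    (y3 : |p' - p₀| ≤ σ / 16) (y4 : |q' - q₀| ≤ σ / 16) (hσ : 0 < σ)
    (ht : |(a₀ * b + -b₀ * a + (p₀ * q + -q₀ * p)) - (a₀ * b' + -b₀ * a' + (p₀ * q' + -q₀ * p'))|
      ≤ σ ^ 2 / 4) :
    |1 - (a * a' - -b * b' + (p * p' - -q * q'))|
      + |0 - (a * b' + -b * a' + (p * q' + -q * p'))| < σ ^ 2 := by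
  have sq : ∀ t d : ℝ, |t| ≤ d → t ^ 2 ≤ d ^ 2 := fun t d h => by
    rw [← sq_abs t]; exact pow_le_pow_left₀ (abs_nonneg _) h 2
  have hre : |1 - (a * a' - -b * b' + (p * p' - -q * q'))| ≤ σ ^ 2 / 10 := by
    have e1 := sq (a - a') (σ / 3) ((abs_sub_le a a₀ a').trans (by
      rw [abs_sub_comm a₀ a']; linarith))
    have e2 := sq (b - b') (σ / 8) ((abs_sub_le b b₀ b').trans (by
      rw [abs_sub_comm b₀ b']; linarith))
    have e3 := sq (p - p') (σ / 8) ((abs_sub_le p p₀ p').trans (by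
      rw [abs_sub_comm p₀ p']; linarith))
    have e4 := sq (q - q') (σ / 8) ((abs_sub_le q q₀ q').trans (by
      rw [abs_sub_comm q₀ q']; linarith))
    have : 1 - (a * a' - -b * b' + (p * p' - -q * q')) =
        ((a - a') ^ 2 + (b - b') ^ 2 + (p - p') ^ 2 + (q - q') ^ 2) / 2 := by
      linear_combination (-(1 : ℝ) / 2) * hux + (-(1 : ℝ) / 2) * huy
    rw [this, abs_of_nonneg (by positivity)]
    linarith [sq_nonneg σ]
  have pm : ∀ s t : ℝ, |s| ≤ σ / 6 → |t| ≤ σ / 6 → |s * t| ≤ σ ^ 2 / 36 := fun s t h1 h2 => by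
    rw [abs_mul]
    exact (mul_le_mul h1 h2 (abs_nonneg _) (by linarith [abs_nonneg s])).trans
      (le_of_eq (by ring))
  have f1 := abs_le.1 (pm (a - a₀) (b' - b₀) x1 (y2.trans (by linarith)))
  have f2 := abs_le.1 (pm (b - b₀) (a' - a₀) (x2.trans (by linarith)) y1)
  have f3 := abs_le.1 (pm (p - p₀) (q' - q₀) (x3.trans (by linarith)) (y4.trans (by linarith)))
  have f4 := abs_le.1 (pm (q - q₀) (p' - p₀) (x4.trans (by linarith)) (y3.trans (by linarith)))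
  obtain ⟨t1, t2⟩ := abs_le.1 ht
  have hex : a * b' + -b * a' + (p * q' + -q * p') =
      (a - a₀) * (b' - b₀) - (b - b₀) * (a' - a₀) + (p - p₀) * (q' - q₀) - (q - q₀) * (p' - p₀)
      - ((a₀ * b + -b₀ * a + (p₀ * q + -q₀ * p))
        - (a₀ * b' + -b₀ * a' + (p₀ * q' + -q₀ * p'))) := by ring
  have him : |0 - (a * b' + -b * a' + (p * q' + -q * p'))| ≤ σ ^ 2 / 2 := by
    rw [zero_sub, abs_neg, hex, abs_le]
    constructor <;> linarith [f1.1, f1.2, f2.1, f2.2, f3.1, f3.2, f4.1, f4.2, sq_nonneg σ]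
  have : 0 < σ ^ 2 := by positivity
  linarith

/-- The range of the bins. -/
lemma bin_range {a b p q a₀ b₀ p₀ q₀ σ m R : ℝ}
    (huo : a₀ ^ 2 + b₀ ^ 2 + (p₀ ^ 2 + q₀ ^ 2) = 1)
    (x1 : |a - a₀| ≤ σ / 6) (x2 : |b - b₀| ≤ m / 16) (x3 : |p - p₀| ≤ σ / 16)
    (x4 : |q - q₀| ≤ σ / 16) (c2 : |b₀| ≤ R) (c3 : |p₀| ≤ Real.sqrt (2 * R))
    (c4 : |q₀| ≤ Real.sqrt (2 * R)) (h1 : Real.sqrt (2 * R) * σ ≤ 2 * m) (h2 : R * σ ≤ m) :
    |a₀ * b + -b₀ * a + (p₀ * q + -q₀ * p)| ≤ 3 * m := by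
  have ha0 : |a₀| ≤ 1 := abs_le.2 ⟨by nlinarith, by nlinarith⟩
  have pm : ∀ s t B d : ℝ, |s| ≤ B → |t| ≤ d → |s * t| ≤ B * d := fun s t B d h1 h2 => by
    rw [abs_mul]
    exact mul_le_mul h1 h2 (abs_nonneg _) ((abs_nonneg s).trans h1)
  have f1 := abs_le.1 (pm a₀ (b - b₀) 1 _ ha0 x2)
  have f2 := abs_le.1 (pm b₀ (a - a₀) _ _ c2 x1)
  have f3 := abs_le.1 (pm p₀ (q - q₀) _ _ c3 x4)
  have f4 := abs_le.1 (pm q₀ (p - p₀) _ _ c4 x3)
  have hm : 0 ≤ m := by linarith [abs_nonneg (b - b₀)]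
  have hex : a₀ * b + -b₀ * a + (p₀ * q + -q₀ * p) =
      a₀ * (b - b₀) - b₀ * (a - a₀) + p₀ * (q - q₀) - q₀ * (p - p₀) := by ring
  rw [hex, abs_le]
  constructor <;> linarith [f1.1, f1.2, f2.1, f2.2, f3.1, f3.2, f4.1, f4.2]

/-- The count in a small cap. -/
lemma card_cap_small {N : ℝ} (hN : 1 ≤ N) {s : Finset V2} (hs : IsSeparated N s) {e : V2}
    (he : ‖e‖ = 1) {R : ℝ} (hR1 : 1 / N ≤ R) (hR : R ≤ 1 / 4)
    (hcap : ∀ x ∈ s, ‖1 - inner ℂ e x‖ ≤ R) :
    (s.card : ℝ) ≤ 130000000 * (N * R) ^ 2 := by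
  classical
  set σ := Real.sqrt (1 / N) with hσd
  have hN0 : 0 < N := by linarith
  have hσ : 0 < σ := Real.sqrt_pos.2 (by positivity)
  have hσ2 : σ ^ 2 = 1 / N := Real.sq_sqrt (by positivity)
  have hR0 : 0 < R := lt_of_lt_of_le (by positivity) hR1
  have hσ1 : σ ≤ 1 := by
    rw [hσd, Real.sqrt_le_one, div_le_one hN0]; exact hN
  have hσR : σ ≤ Real.sqrt R := Real.sqrt_le_sqrt hR1
  set m := min σ R with hmd
  have hm : 0 < m := lt_min hσ hR0
  have hmσ : m ≤ σ := min_le_left _ _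
  have hm2 : σ ^ 2 ≤ m := le_min (pow_le_of_le_one hσ.le hσ1 two_ne_zero) (hσ2 ▸ hR1)
  let l : V2 → ℂ := fun x => inner ℂ e x
  let v : V2 → ℂ := perpCoord e
  let cell : V2 → ℤ × ℤ × ℤ := fun x =>
    (⌊(v x).re / (σ / 16)⌋, ⌊(v x).im / (σ / 16)⌋, ⌊(l x).im / (m / 16)⌋)
  let rep : ℤ × ℤ × ℤ → V2 := fun c =>
    if h : ∃ x ∈ s, cell x = c then h.choose else 0
  let tau : V2 → ℝ := fun x => (inner ℂ (rep (cell x)) x).im
  let key : V2 → (ℤ × ℤ × ℤ) × ℤ := fun x => (cell x, ⌊tau x / (σ ^ 2 / 4)⌋)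
  have hrep : ∀ x ∈ s, rep (cell x) ∈ s ∧ cell (rep (cell x)) = cell x := by
    intro x hx
    have h : ∃ y ∈ s, cell y = cell x := ⟨x, hx, rfl⟩
    simp only [rep, dif_pos h]
    exact h.choose_spec
  have hc : ∀ x ∈ s, _ := fun x hx => cap_coords he (hs.1 x hx) hR (hcap x hx)
  have hclose : ∀ x ∈ s, ∀ y ∈ s, cell x = cell y →
      |(l x).re - (l y).re| ≤ σ / 6 ∧ |(l x).im - (l y).im| ≤ m / 16 ∧
      |(v x).re - (v y).re| ≤ σ / 16 ∧ |(v x).im - (v y).im| ≤ σ / 16 := by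
    intro x hx y hy hxy
    simp only [cell, Prod.mk.injEq] at hxy
    have h1 := abs_sub_le_of_floor (by positivity) hxy.1
    have h2 := abs_sub_le_of_floor (by positivity) hxy.2.1
    have h3 := abs_sub_le_of_floor (by positivity) hxy.2.2
    obtain ⟨a1, a2, a3, a4⟩ := hc x hx
    obtain ⟨b1, b2, b3, b4⟩ := hc y hy
    have := cell_close (unit_decomp he (hs.1 x hx)) (unit_decomp he (hs.1 y hy)) a1 b1 hR a2 b2
      a3 b3 a4 b4 h3 h1 h2
    exact ⟨by linarith, h3, h1, h2⟩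
  have hinj : Set.InjOn key ↑s := by
    intro x hx y hy hxy
    simp only [key, Prod.mk.injEq] at hxy
    by_contra hne
    have hlt : ‖1 - inner ℂ x y‖ < 1 / N := by
      obtain ⟨hr, hrc⟩ := hrep x hx
      set o := rep (cell x)
      have ht := abs_sub_le_of_floor (by positivity) hxy.2
      simp only [tau, ← hxy.1] at ht
      obtain ⟨x1, x2, x3, x4⟩ := hclose x hx o hr hrc.symm
      obtain ⟨y1, y2, y3, y4⟩ := hclose y hy o hr (by rw [hrc, hxy.1])
      rw [inner_decomp he o x, inner_decomp he o y] at ht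
      simp only [add_im, mul_im, conj_re, conj_im] at ht
      rw [← hσ2]
      refine (norm_le_abs_re_add_abs_im _).trans_lt ?_
      rw [inner_decomp he x y]
      simp only [sub_re, sub_im, one_re, one_im, add_re, add_im, mul_re, mul_im, conj_re, conj_im]
      simp only [l, v] at x1 x2 x3 x4 y1 y2 y3 y4
      exact bin_close (unit_decomp he (hs.1 x hx)) (unit_decomp he (hs.1 y hy)) x1 (x2.trans (by linarith)) x3 x4 y1
        (y2.trans (by linarith)) y3 y4 hσ ht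
    exact absurd hlt (not_lt.2 (hs.2 x hx y hy hne))
  set n₁ := ⌈Real.sqrt (2 * R) / (σ / 16)⌉₊ with hn₁
  set n₂ := ⌈R / (m / 16)⌉₊ with hn₂
  set n₃ := ⌈(3 * m) / (σ ^ 2 / 4)⌉₊ with hn₃
  let I : ℕ → Finset ℤ := fun n => Finset.Icc (-(n : ℤ)) n
  have hsub : s.image key ⊆ (I n₁ ×ˢ (I n₁ ×ˢ I n₂)) ×ˢ I n₃ := by
    intro k hk
    obtain ⟨x, hx, rfl⟩ := Finset.mem_image.1 hk
    obtain ⟨_, a2, a3, a4⟩ := hc x hx
    simp only [key, cell, I, Finset.mem_product]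
    refine ⟨⟨floor_mem_Icc (by positivity) a3, floor_mem_Icc (by positivity) a4,
      floor_mem_Icc (by positivity) a2⟩, floor_mem_Icc (by positivity) ?_⟩
    obtain ⟨hr, hrc⟩ := hrep x hx
    obtain ⟨x1, x2, x3, x4⟩ := hclose x hx _ hr hrc.symm
    obtain ⟨c1, c2, c3, c4⟩ := hc _ hr
    simp only [tau]
    rw [inner_decomp he (rep (cell x)) x]
    simp only [add_im, mul_im, conj_re, conj_im]
    simp only [l, v] at x1 x2 x3 x4
    refine bin_range (unit_decomp he (hs.1 _ hr)) x1 x2 x3 x4 c2 c3 c4 ?_ ?_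
    · have h2 : Real.sqrt (2 * R) = Real.sqrt 2 * Real.sqrt R := Real.sqrt_mul (by norm_num) R
      have h3 : Real.sqrt 2 ≤ 2 := Real.sqrt_le_iff.2 ⟨by norm_num, by norm_num⟩
      have h5 : Real.sqrt R ≤ 1 := Real.sqrt_le_one.2 (by linarith)
      have h4 : Real.sqrt R * σ ≤ m := le_min (mul_le_of_le_one_left hσ.le h5)
        ((mul_le_mul_of_nonneg_left hσR (Real.sqrt_nonneg R)).trans_eq
          (Real.mul_self_sqrt hR0.le))
      rw [h2, mul_assoc]
      exact mul_le_mul h3 h4 (by positivity) (by norm_num)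
    · exact le_min (mul_le_of_le_one_left hσ.le (by linarith)) (mul_le_of_le_one_right hR0.le hσ1)
  have hcard := Finset.card_le_card hsub
  rw [Finset.card_image_of_injOn hinj] at hcard
  simp only [Finset.card_product] at hcard
  have hb : ∀ {x c : ℝ}, 1 ≤ c → x ≤ c → 0 ≤ x → ((I ⌈x⌉₊).card : ℝ) ≤ 5 * c := fun h1 h2 h0 => by
    refine (card_Icc_le (Nat.ceil_lt_add_one h0).le).trans ?_
    linarith
  have hsq2 : Real.sqrt (2 * R) ≤ 2 * Real.sqrt R := by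
    rw [Real.sqrt_le_left (by positivity), mul_pow, Real.sq_sqrt hR0.le]; linarith
  have b1 : ((I n₁).card : ℝ) ≤ 5 * (32 * (Real.sqrt R / σ)) := by
    have : 1 ≤ Real.sqrt R / σ := (one_le_div hσ).2 hσR
    refine hb (by linarith) ?_ (by positivity)
    rw [div_le_iff₀ (by positivity)]
    field_simp
    nlinarith
  have b2 : ((I n₂).card : ℝ) ≤ 5 * (16 * (R / m)) := by
    have : 1 ≤ R / m := (one_le_div hm).2 (min_le_right _ _)
    refine hb (by linarith) ?_ (by positivity)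
    rw [div_le_iff₀ (by positivity)]
    field_simp
    rfl
  have b3 : ((I n₃).card : ℝ) ≤ 5 * (12 * (m / σ ^ 2)) := by
    have : 1 ≤ m / σ ^ 2 := (one_le_div (by positivity)).2 hm2
    refine hb (by linarith) ?_ (by positivity)
    rw [div_le_iff₀ (by positivity)]
    field_simp
    linarith
  have hc' : (s.card : ℝ) ≤ (I n₁).card * ((I n₁).card * (I n₂).card) * (I n₃).card := by
    exact_mod_cast hcard
  refine hc'.trans ?_
  have hp : (Real.sqrt R / σ) * ((Real.sqrt R / σ) * (R / m)) * (m / σ ^ 2) = (N * R) ^ 2 := by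
    rw [show (Real.sqrt R / σ) * ((Real.sqrt R / σ) * (R / m)) * (m / σ ^ 2) =
      Real.sqrt R ^ 2 * R / (σ ^ 2) ^ 2 by field_simp, Real.sq_sqrt hR0.le, hσ2]
    field_simp
  refine (mul_le_mul (mul_le_mul b1 (mul_le_mul b1 b2 (Nat.cast_nonneg _) (by positivity))
    (by positivity) (by positivity)) b3 (Nat.cast_nonneg _) (by positivity)).trans ?_
  rw [← hp]
  linarith [show 0 ≤ (Real.sqrt R / σ) * ((Real.sqrt R / σ) * (R / m)) * (m / σ ^ 2) by positivity]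

/-- The count in any cap. -/
theorem card_cap_le : ∃ C : ℝ, 0 ≤ C ∧ ∀ N : ℝ, 1 ≤ N → ∀ s, IsSeparated N s → ∀ e : V2,
    ‖e‖ = 1 → ∀ R : ℝ, 0 ≤ R →
      ((s.filter fun x => ‖1 - inner ℂ e x‖ ≤ R).card : ℝ) ≤ C * (1 + N * R) ^ 2 := by
  classical
  obtain ⟨t, htu, ht⟩ := (isCompact_sphere (0 : V2) 1).elim_nhds_subcover
    (fun e => {x | ‖1 - inner ℂ e x‖ < 1 / 4}) fun e he =>
      (isOpen_lt (by fun_prop) continuous_const).mem_nhds (by
        simp only [Set.mem_ofPred_eq, inner_self_one (mem_sphere_zero_iff_norm.1 he), sub_self,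
          norm_zero]
        norm_num)
  refine ⟨130000000 * (4 + 16 * t.card), by positivity, fun N hN s hs e he R hR => ?_⟩
  have hN0 : 0 < N := by linarith
  have small : ∀ N' : ℝ, 1 ≤ N' → IsSeparated N' s → ∀ e : V2, ‖e‖ = 1 → ∀ R : ℝ, 1 / N' ≤ R →
      R ≤ 1 / 4 →
      ((s.filter fun x => ‖1 - inner ℂ e x‖ ≤ R).card : ℝ) ≤ 130000000 * (N' * R) ^ 2 :=
    fun N' hN' hs' e he R h1 h2 => card_cap_small hN'
      ⟨fun x hx => hs'.1 x (Finset.mem_filter.1 hx).1,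
        fun x hx y hy => hs'.2 x (Finset.mem_filter.1 hx).1 y (Finset.mem_filter.1 hy).1⟩
      he h1 h2 fun x hx => (Finset.mem_filter.1 hx).2
  have h4 : max R (1 / N) * N ≤ 1 + N * R := by
    rw [max_mul_of_nonneg _ _ hN0.le, div_mul_cancel₀ _ hN0.ne']
    exact max_le (by nlinarith) (by nlinarith)
  rcases le_or_gt (max R (1 / N)) (1 / 4) with h | h
  · have hsub : ((s.filter fun x => ‖1 - inner ℂ e x‖ ≤ R).card : ℝ) ≤
        (s.filter fun x => ‖1 - inner ℂ e x‖ ≤ max R (1 / N)).card := by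
      exact_mod_cast Finset.card_le_card
        (Finset.monotone_filter_right s fun x _ hx => le_trans hx (le_max_left _ _))
    refine hsub.trans ((small N hN hs e he _ (le_max_right _ _) h).trans ?_)
    refine mul_le_mul ?_ (pow_le_pow_left₀ (by positivity) (by linarith) 2) (by positivity)
      (by positivity)
    linarith [(Nat.cast_nonneg t.card : (0:ℝ) ≤ t.card)]
  · set N' := max N 4
    have hN' : 1 ≤ N' := hN.trans (le_max_left _ _)
    have hs' : IsSeparated N' s := ⟨hs.1, fun x hx y hy hxy =>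
      (one_div_le_one_div_of_le hN0 (le_max_left _ _)).trans (hs.2 x hx y hy hxy)⟩
    have h5 : N' * (1 / 4) ≤ 1 + N * R := by
      have := mul_lt_mul_of_pos_right h hN0
      rcases max_choice N 4 with h' | h' <;> simp only [N', h'] <;> nlinarith
    have hcov : s ⊆ t.biUnion fun e' => s.filter fun x => ‖1 - inner ℂ e' x‖ ≤ 1 / 4 := fun x hx => by
      obtain ⟨e', he', hx'⟩ := Set.mem_iUnion₂.1 (ht (mem_sphere_zero_iff_norm.2 (hs.1 x hx)))
      exact Finset.mem_biUnion.2 ⟨e', he', Finset.mem_filter.2 ⟨hx, le_of_lt hx'⟩⟩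
    calc ((s.filter fun x => ‖1 - inner ℂ e x‖ ≤ R).card : ℝ) ≤ s.card := by
          exact_mod_cast Finset.card_filter_le s _
      _ ≤ ∑ e' ∈ t, ((s.filter fun x => ‖1 - inner ℂ e' x‖ ≤ 1 / 4).card : ℝ) := by
          exact_mod_cast (Finset.card_le_card hcov).trans Finset.card_biUnion_le
      _ ≤ ∑ _e' ∈ t, 130000000 * (1 + N * R) ^ 2 := by
          refine Finset.sum_le_sum fun e' he' => ?_
          refine (small N' hN' hs' e' (mem_sphere_zero_iff_norm.1 (htu e' he')) _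
            (one_div_le_one_div_of_le (by norm_num) (le_max_right _ _)) le_rfl).trans ?_
          refine mul_le_mul_of_nonneg_left (pow_le_pow_left₀ (by positivity) h5 2) (by norm_num)
      _ = t.card * (130000000 * (1 + N * R) ^ 2) := by simp
      _ ≤ _ := by nlinarith [sq_nonneg (1 + N * R),
          mul_nonneg (Nat.cast_nonneg t.card : (0:ℝ) ≤ t.card) (sq_nonneg (1 + N * R))]

/-- Separated sets have bounded size. -/
lemma card_separated_le {N : ℝ} (hN : 1 ≤ N) :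
    ∃ B : ℕ, ∀ s, IsSeparated N s → s.card ≤ B := by
  obtain ⟨C, hC, h⟩ := card_cap_le
  refine ⟨⌈C * (1 + N * 2) ^ 2⌉₊, fun s hs => ?_⟩
  let e : V2 := EuclideanSpace.single 0 1
  have he : ‖e‖ = 1 := by simp [e]
  have := h N hN s hs e he 2 (by norm_num)
  rw [Finset.filter_true_of_mem fun x hx => ?_] at this
  · exact_mod_cast this.trans (Nat.le_ceil _)
  · refine (norm_sub_le _ _).trans ?_
    have := norm_inner_le_norm (𝕜 := ℂ) e x
    rw [he, hs.1 x hx] at this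
    simp only [norm_one]
    linarith

theorem exists_net {N : ℝ} (hN : 1 ≤ N) : ∃ s, IsNet N s := by
  classical
  obtain ⟨B, hB⟩ := card_separated_le hN
  set S := {n : ℕ | ∃ s, IsSeparated N s ∧ s.card = n} with hS
  have hne : S.Nonempty := ⟨0, ∅, ⟨by simp, by simp⟩, rfl⟩
  have hbdd : BddAbove S := ⟨B, by rintro n ⟨s, hs, rfl⟩; exact hB s hs⟩
  obtain ⟨s, hs, hcard⟩ := Nat.sSup_mem hne hbdd
  refine ⟨s, hs, fun e he => ?_⟩
  by_contra hcon
  push Not at hcon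
  have hes : e ∉ s := fun h => by
    have := hcon e h
    rw [inner_self_one he, sub_self, norm_zero] at this
    have : (0 : ℝ) < 1 / N := by positivity
    linarith
  have hins : IsSeparated N (insert e s) := by
    refine ⟨fun x hx => ?_, fun x hx y hy hxy => ?_⟩
    · rcases Finset.mem_insert.1 hx with rfl | hx
      exacts [he, hs.1 x hx]
    · rcases Finset.mem_insert.1 hx with rfl | hx' <;> rcases Finset.mem_insert.1 hy with rfl | hy'
      · exact absurd rfl hxy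
      · rw [norm_one_sub_inner_symm]; exact hcon y hy'
      · exact hcon x hx'
      · exact hs.2 x hx' y hy' hxy
  have := le_csSup hbdd (show (insert e s).card ∈ S from ⟨_, hins, rfl⟩)
  rw [Finset.card_insert_of_notMem hes] at this
  omega

theorem net_spec {N : ℝ} (hN : 1 ≤ N) : IsNet N (net N) := by
  have h := exists_net hN
  rw [net, dif_pos h]
  exact h.choose_spec

lemma qfun_den_bound {N : ℝ} (hN : 1 ≤ N) {ξ e : V2} (hξ : ‖ξ‖ = 1) (he : ‖e‖ = 1) {r : ℝ}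
    (hr0 : 0 ≤ r) (hr1 : r ≤ 1) :
    1 + N * (1 - r) + N * ‖1 - inner ℂ e ξ‖ ≤
      5 * ‖1 + (N : ℂ) * (1 - inner ℂ ξ ((r : ℂ) • e))‖ := by
  rw [norm_one_sub_inner_symm e ξ, inner_smul_right]
  set μ := inner ℂ ξ e
  have hμ : ‖μ‖ ≤ 1 := by simpa [hξ, he] using norm_inner_le_norm (𝕜 := ℂ) ξ e
  have hμre : μ.re ≤ 1 := ((le_abs_self _).trans (abs_re_le_norm μ)).trans hμ
  set D := 1 + (N : ℂ) * (1 - (r : ℂ) * μ) with hD
  have h1 : 1 + N * (1 - r) ≤ ‖D‖ := by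
    refine le_trans ?_ (re_le_norm D)
    simp [hD]
    nlinarith [mul_nonneg (mul_nonneg (by linarith : (0:ℝ) ≤ N) hr0) (by linarith : (0:ℝ) ≤ 1 - μ.re)]
  have hδ : ‖1 - μ‖ ≤ 2 := (norm_sub_le _ _).trans (by simp only [norm_one]; linarith)
  rcases le_or_gt (1 / 2) r with h | h
  · have h2 : N * r * ‖1 - μ‖ ≤ ‖D‖ + (1 + N * (1 - r)) := by
      have e1 : ((N * r : ℝ) : ℂ) * (1 - μ) = D - ((1 + N * (1 - r) : ℝ) : ℂ) := by
        rw [hD]; push_cast; ring
      have := norm_sub_le D ((1 + N * (1 - r) : ℝ) : ℂ)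
      rw [← e1, norm_mul, norm_real, norm_real, Real.norm_eq_abs, Real.norm_eq_abs,
        abs_of_nonneg (by nlinarith), abs_of_nonneg (by nlinarith)] at this
      exact this
    nlinarith [mul_le_mul_of_nonneg_left h (mul_nonneg (by linarith : (0:ℝ) ≤ N) (norm_nonneg (1 - μ)))]
  · nlinarith [mul_le_mul_of_nonneg_left hδ (by linarith : (0:ℝ) ≤ N)]

theorem net_sum_le : ∃ C : ℝ, 0 ≤ C ∧ ∀ N : ℝ, 1 ≤ N → ∀ s, IsSeparated N s → ∀ a : V2,
    ‖a‖ ≤ 1 → ∑ ξ ∈ s, ‖qfun N ξ a‖ ^ 3 ≤ C / (1 + N * (1 - ‖a‖)) := by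
  classical
  obtain ⟨C, hC, hcard⟩ := card_cap_le
  refine ⟨(15 / 2) ^ 3 * (C * 9 * 2), by positivity, fun N hN s hs a ha => ?_⟩
  obtain ⟨e, he, hae⟩ : ∃ e : V2, ‖e‖ = 1 ∧ a = (‖a‖ : ℂ) • e := by
    by_cases h : a = 0
    · exact ⟨EuclideanSpace.single 0 1, by simp, by simp [h]⟩
    · refine ⟨(‖a‖ : ℂ)⁻¹ • a, norm_smul_inv_norm h, ?_⟩
      rw [smul_smul, mul_inv_cancel₀ (by simp [h]), one_smul]
  set r := ‖a‖ with hr
  have hr0 : 0 ≤ r := norm_nonneg a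
  set M := 1 + N * (1 - r) with hMd
  have hM : 1 ≤ M := by nlinarith
  let T : V2 → ℝ := fun ξ => M + N * ‖1 - inner ℂ e ξ‖
  have hT : ∀ ξ, M ≤ T ξ := fun ξ => le_add_of_nonneg_right (by positivity)
  have hq : ∀ ξ ∈ s, ‖qfun N ξ a‖ ^ 3 ≤ (15 / 2) ^ 3 * (1 / T ξ ^ 3) := fun ξ hξ => by
    have hb := qfun_den_bound hN (hs.1 ξ hξ) he hr0 ha
    rw [← hae] at hb
    have hT0 : 0 < T ξ := by linarith [hT ξ]
    rw [qfun, norm_div, show ‖(3 / 2 : ℂ)‖ = 3 / 2 by norm_num, mul_one_div, ← div_pow]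
    refine pow_le_pow_left₀ (by positivity) ?_ 3
    rw [div_le_div_iff₀ (by simp only [T] at hT0 hb ⊢; linarith) hT0]
    simp only [T] at hb ⊢
    linarith
  obtain ⟨J, hJ⟩ := pow_unbounded_of_one_lt (1 + 2 * N) (by norm_num : (1:ℝ) < 2)
  have hone : ∀ ξ ∈ s, 1 / T ξ ^ 3 ≤ ∑ j ∈ Finset.range J,
      (if ‖1 - inner ℂ e ξ‖ ≤ M * 2 ^ (j + 1) / N then 1 / (M * 2 ^ j) ^ 3 else 0) := by
    intro ξ hξ
    obtain ⟨j, hj1, hj2⟩ := exists_nat_pow_near ((one_le_div (by linarith)).2 (hT ξ))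
      (by norm_num : (1:ℝ) < 2)
    rw [le_div_iff₀ (by linarith)] at hj1
    rw [div_lt_iff₀ (by linarith)] at hj2
    have hjJ : j < J := by
      refine (pow_lt_pow_iff_right₀ (by norm_num : (1:ℝ) < 2)).1 ?_
      refine lt_of_le_of_lt ?_ hJ
      have hd : ‖1 - inner ℂ e ξ‖ ≤ 2 := (norm_sub_le _ _).trans (by
        have := norm_inner_le_norm (𝕜 := ℂ) e ξ
        rw [he, hs.1 ξ hξ] at this
        simp only [norm_one]; linarith)
      simp only [T] at hj1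
      nlinarith [mul_le_mul_of_nonneg_left hd (by linarith : (0:ℝ) ≤ N),
        mul_le_mul_of_nonneg_right hM (by positivity : (0:ℝ) ≤ (2:ℝ) ^ j)]
    refine le_trans ?_ (Finset.single_le_sum (fun i _ => by split_ifs <;> positivity)
      (Finset.mem_range.2 hjJ))
    rw [if_pos ?_]
    · exact one_div_le_one_div_of_le (by positivity) (pow_le_pow_left₀ (by positivity)
        (by linarith) 3)
    · rw [le_div_iff₀ (by linarith)]
      simp only [T] at hj2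
      nlinarith
  calc ∑ ξ ∈ s, ‖qfun N ξ a‖ ^ 3
      ≤ (15 / 2) ^ 3 * ∑ ξ ∈ s, 1 / T ξ ^ 3 := by
        rw [Finset.mul_sum]; exact Finset.sum_le_sum hq
    _ ≤ (15 / 2) ^ 3 * ∑ j ∈ Finset.range J, C * 9 / M * (1 / 2) ^ j := by
        refine mul_le_mul_of_nonneg_left ((Finset.sum_le_sum hone).trans ?_) (by positivity)
        rw [Finset.sum_comm]
        refine Finset.sum_le_sum fun j _ => ?_
        rw [← Finset.sum_filter, Finset.sum_const, nsmul_eq_mul]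
        refine (mul_le_mul_of_nonneg_right (hcard N hN s hs e he _ (by positivity))
          (by positivity)).trans ?_
        rw [mul_div_cancel₀ _ (by linarith : N ≠ 0)]
        have h2 : 1 ≤ M * 2 ^ j := one_le_mul_of_one_le_of_one_le hM (one_le_pow₀ (by norm_num))
        calc C * (1 + M * 2 ^ (j + 1)) ^ 2 * (1 / (M * 2 ^ j) ^ 3)
            ≤ C * (3 * (M * 2 ^ j)) ^ 2 * (1 / (M * 2 ^ j) ^ 3) := by
              gcongr
              rw [pow_succ]; linarith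
          _ = C * 9 / M * (1 / 2) ^ j := by
              rw [div_pow, one_pow]; field_simp; ring
    _ ≤ (15 / 2) ^ 3 * (C * 9 / M * 2) := by
        rw [← Finset.mul_sum]
        gcongr
        exact sum_geometric_two_le J
    _ = _ := by ring

end Vale.BDU
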