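import Mathlib

/-!
# P250: calculus tools — series of functions on an open convex set, derivatives in parameters
-/

open scoped ContDiff Topology
open Filter Function

namespace Vale.BDU

variable {E F P : Type*} [NormedAddCommGroup E] [NormedSpace ℝ E] [NormedAddCommGroup F]
  [NormedSpace ℝ F] [NormedAddCommGroup P] [NormedSpace ℝ P]

lemma differentiableAt_iteratedFDeriv_of_isOpen {U : Set E} (hU : IsOpen U) {f : E → F}
    (hf : ContDiffOn ℝ ∞ f U) (k : ℕ) {x : E} (hx : x ∈ U) :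
    DifferentiableAt ℝ (iteratedFDeriv ℝ k f) x := by
  have h := hf.differentiableOn_iteratedFDerivWithin (m := k)
    (WithTop.coe_lt_coe.2 (ENat.natCast_lt_top k)) hU.uniqueDiffOn
  exact (h.congr fun y hy => (iteratedFDerivWithin_of_isOpen k hU hy).symm).differentiableAt
    (hU.mem_nhds hx)

/-- A series with summable bounds on all derivatives on a convex open set may be differentiated
term by term. -/
theorem series_smooth [CompleteSpace F] {ι : Type*} {U : Set E} (hU : IsOpen U)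
    (hconv : Convex ℝ U) {f : ι → E → F} {v : ℕ → ι → ℝ}
    (hf : ∀ i, ContDiffOn ℝ ∞ (f i) U) (hv : ∀ k, Summable (v k))
    (hb : ∀ k i, ∀ x ∈ U, ‖iteratedFDeriv ℝ k (f i) x‖ ≤ v k i) :
    ContDiffOn ℝ ∞ (fun y => ∑' i, f i y) U ∧
      ∀ k, ∀ x ∈ U, iteratedFDeriv ℝ k (fun y => ∑' i, f i y) x
        = ∑' i, iteratedFDeriv ℝ k (f i) x := by
  rcases U.eq_empty_or_nonempty with rfl | ⟨x₀, hx₀⟩
  · exact ⟨contDiffOn_empty, fun k x hx => absurd hx (by simp)⟩
  have hd : ∀ k i, ∀ x ∈ U, HasFDerivAt (iteratedFDeriv ℝ k (f i))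
      (fderiv ℝ (iteratedFDeriv ℝ k (f i)) x) x := fun k i x hx =>
    (differentiableAt_iteratedFDeriv_of_isOpen hU (hf i) k hx).hasFDerivAt
  have hD : ∀ k, ∀ x ∈ U, HasFDerivAt (fun y => ∑' i, iteratedFDeriv ℝ k (f i) y)
      (∑' i, fderiv ℝ (iteratedFDeriv ℝ k (f i)) x) x := fun k x hx =>
    hasFDerivAt_tsum_of_isPreconnected (hv (k + 1)) hU hconv.isPreconnected (hd k)
      (fun i y hy => norm_fderiv_iteratedFDeriv.trans_le (hb (k + 1) i y hy)) hx₀
      (Summable.of_norm_bounded (hv k) fun i => hb k i x₀ hx₀) hx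
  have key : ∀ k, ∀ x ∈ U, iteratedFDeriv ℝ k (fun y => ∑' i, f i y) x
      = ∑' i, iteratedFDeriv ℝ k (f i) x := by
    intro k
    induction k with
    | zero =>
      intro x hx
      simp only [iteratedFDeriv_zero_eq_comp, comp_apply]
      exact (continuousMultilinearCurryFin0 ℝ E F).symm.toContinuousLinearEquiv.map_tsum
    | succ k ih =>
      intro x hx
      have he : iteratedFDeriv ℝ k (fun y => ∑' i, f i y) =ᶠ[𝓝 x]
          fun y => ∑' i, iteratedFDeriv ℝ k (f i) y :=
        Filter.mem_of_superset (hU.mem_nhds hx) (ih ·)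
      simp only [iteratedFDeriv_succ_eq_comp_left, comp_apply, he.fderiv_eq, (hD k x hx).fderiv]
      exact (continuousMultilinearCurryLeftEquiv ℝ
        (fun _ : Fin (k + 1) => E) F).symm.toContinuousLinearEquiv.map_tsum
  refine ⟨contDiffOn_of_differentiableOn fun m _ x hx => ?_, key⟩
  refine ((hD m x hx).differentiableAt.differentiableWithinAt (s := U)).congr (fun y hy => ?_) ?_
  · rw [iteratedFDerivWithin_of_isOpen m hU hy, key m y hy]
  · rw [iteratedFDerivWithin_of_isOpen m hU hx, key m x hx]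

/-- Derivatives in the second variable are bounded on compact sets of both variables. -/
theorem exists_jet_bound {U : Set (P × E)} (hU : IsOpen U) {G : P × E → F}
    (hG : ContDiffOn ℝ ∞ G U) {K : Set (P × E)} (hK : IsCompact K) (hKU : K ⊆ U) (n : ℕ) :
    ∃ C, 1 ≤ C ∧ ∀ x ∈ K, ∀ i ≤ n, ‖iteratedFDeriv ℝ i (fun z => G (x.1, z)) x.2‖ ≤ C := by
  have hb : ∀ i, ∃ B, ∀ x ∈ K, ‖iteratedFDeriv ℝ i G x‖ ≤ B := fun i => by
    obtain ⟨B, hB⟩ := hK.exists_bound_of_continuousOn
      (((hG.continuousOn_iteratedFDerivWithin (m := i) (by exact_mod_cast le_top)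
        hU.uniqueDiffOn).congr fun y hy => (iteratedFDerivWithin_of_isOpen i hU hy).symm).mono hKU)
    exact ⟨B, hB⟩
  choose B hB using hb
  refine ⟨1 + ∑ i ∈ Finset.range (n + 1), |B i|, le_add_of_nonneg_right
    (Finset.sum_nonneg fun i _ => abs_nonneg _), fun x hx i hi => ?_⟩
  obtain ⟨p, z⟩ := x
  set h : P × E → F := fun y => G (y + (p, 0))
  set s : Set (P × E) := (fun y => y + (p, 0)) ⁻¹' U
  have hs : IsOpen s := hU.preimage (continuous_add_const _)
  have hh : ContDiffOn ℝ ∞ h s :=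
    hG.comp (contDiff_id.add contDiff_const).contDiffOn (Set.mapsTo_preimage _ U)
  have hzs : ((0 : P), z) ∈ s := by simpa [s] using hKU hx
  have hs' : IsOpen (ContinuousLinearMap.inr ℝ P E ⁻¹' s) :=
    hs.preimage (ContinuousLinearMap.inr ℝ P E).continuous
  have h1 := (ContinuousLinearMap.inr ℝ P E).iteratedFDerivWithin_comp_right hh hs.uniqueDiffOn
    hs'.uniqueDiffOn (x := z) hzs (i := i) (by exact_mod_cast le_top)
  have hzs' : ContinuousLinearMap.inr ℝ P E z ∈ s := by simpa using hzs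
  rw [iteratedFDerivWithin_of_isOpen i hs' hzs', iteratedFDerivWithin_of_isOpen i hs hzs'] at h1
  have hfun : h ∘ ContinuousLinearMap.inr ℝ P E = fun z => G (p, z) := by
    ext w; simp [h]
  rw [hfun] at h1
  have h2 : iteratedFDeriv ℝ i h (ContinuousLinearMap.inr ℝ P E z) = iteratedFDeriv ℝ i G (p, z) := by
    rw [show h = fun y => G (y + (p, 0)) from rfl, iteratedFDeriv_comp_add_right]
    simp
  rw [h2] at h1
  rw [h1]
  refine (ContinuousMultilinearMap.norm_compContinuousLinearMap_le _ _).trans ?_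
  have h3 : ∏ _j : Fin i, ‖ContinuousLinearMap.inr ℝ P E‖ ≤ 1 :=
    Finset.prod_le_one (fun _ _ => norm_nonneg _) fun _ _ => ContinuousLinearMap.norm_inr_le_one _ _ _
  refine (mul_le_of_le_one_right (norm_nonneg _) h3).trans ((hB i (p, z) hx).trans
    ((le_abs_self _).trans ?_))
  have := Finset.single_le_sum (f := fun i => |B i|) (fun _ _ => abs_nonneg _)
    (Finset.mem_range.2 (Nat.lt_succ_of_le hi))
  linarith

/-- The composition bound on open sets. -/
theorem norm_iteratedFDeriv_comp_le_of_isOpen {s : Set P} {t : Set E} (hs : IsOpen s)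
    (ht : IsOpen t) {g : E → F} {f : P → E} (hg : ContDiffOn ℝ ∞ g t) (hf : ContDiffOn ℝ ∞ f s)
    (hst : Set.MapsTo f s t) {x : P} (hx : x ∈ s) (n : ℕ) {C D : ℝ}
    (hC : ∀ i, i ≤ n → ‖iteratedFDeriv ℝ i g (f x)‖ ≤ C)
    (hD : ∀ i, 1 ≤ i → i ≤ n → ‖iteratedFDeriv ℝ i f x‖ ≤ D ^ i) :
    ‖iteratedFDeriv ℝ n (g ∘ f) x‖ ≤ n.factorial * C * D ^ n := by
  have := norm_iteratedFDerivWithin_comp_le hg hf (n := n) (by exact_mod_cast le_top)
    ht.uniqueDiffOn hs.uniqueDiffOn hst hx (C := C) (D := D)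
    (fun i hi => by rw [iteratedFDerivWithin_of_isOpen i ht (hst hx)]; exact hC i hi)
    (fun i h1 hi => by rw [iteratedFDerivWithin_of_isOpen i hs hx]; exact hD i h1 hi)
  rwa [iteratedFDerivWithin_of_isOpen n hs hx] at this

end Vale.BDU
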