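import Vale.Agent.BDU.Well
import Vale.Agent.BDU.Series
import Vale.Agent.BDU.Net
import Vale.Agent.BDU.Ball

/-!
# P250: the series of wells — smoothness, plurisubharmonicity, invariant derivative bounds
-/

open scoped ContDiff ComplexConjugate Topology
open Filter

namespace Vale.BDU

lemma one_le_scale {Q : ℝ} (hQ : 1 ≤ Q) (l : ℕ) : 1 ≤ scale Q l := one_le_pow₀ hQ

lemma one_sub_le_re {ξ z : V2} (hξ : ‖ξ‖ = 1) : 1 - ‖z‖ ≤ (1 - inner ℂ ξ z).re := by
  have h := (Complex.re_le_norm (inner ℂ ξ z)).trans (norm_inner_le_norm (𝕜 := ℂ) ξ z)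
  rw [hξ, one_mul] at h
  simp only [Complex.sub_re, Complex.one_re]
  linarith

/-- `N` times `q`, as a function of `(1/N, ξ)` and the point. -/
noncomputable def zeta (x : (ℝ × V2) × V2) : ℂ :=
  (3 / 2 : ℂ) * ((x.1.1 : ℂ) + (1 - inner ℂ x.1.2 x.2))⁻¹

lemma zeta_dom_open : IsOpen {x : (ℝ × V2) × V2 | (x.1.1 : ℂ) + (1 - inner ℂ x.1.2 x.2) ≠ 0} :=
  isOpen_ne_fun (by fun_prop) continuous_const

lemma contDiffOn_zeta : ContDiffOn ℝ ∞ zeta
    {x : (ℝ × V2) × V2 | (x.1.1 : ℂ) + (1 - inner ℂ x.1.2 x.2) ≠ 0} := by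
  have h : ContDiff ℝ ∞ fun x : (ℝ × V2) × V2 => (x.1.1 : ℂ) + (1 - inner ℂ x.1.2 x.2) :=
    (Complex.ofRealCLM.contDiff.comp (contDiff_fst.comp contDiff_fst)).add
      (contDiff_const.sub ((contDiff_snd.comp contDiff_fst).inner ℂ contDiff_snd))
  exact contDiffOn_const.mul (h.contDiffOn.inv fun x hx => hx)

lemma zeta_den_re {τ : ℝ} (hτ : 0 ≤ τ) {ξ z : V2} (hξ : ‖ξ‖ = 1) :
    1 - ‖z‖ ≤ ((τ : ℂ) + (1 - inner ℂ ξ z)).re := by
  have := one_sub_le_re (z := z) hξ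
  simp only [Complex.add_re, Complex.ofReal_re]
  linarith

lemma qfun_eq_zeta {N : ℝ} (hN : N ≠ 0) (ξ z : V2) :
    qfun N ξ z = ((1 / N : ℝ) : ℂ) * zeta ((1 / N, ξ), z) := by
  simp only [qfun, zeta]
  push_cast
  have : (N : ℂ) ≠ 0 := Complex.ofReal_ne_zero.2 hN
  rw [show (1 : ℂ) / N + (1 - inner ℂ ξ z) = (1 + (N : ℂ) * (1 - inner ℂ ξ z)) / N by field_simp,
    inv_div]
  field_simp

lemma qfun_den_ne {N : ℝ} (hN : 0 ≤ N) {ξ : V2} (hξ : ‖ξ‖ = 1) {z : V2} (hz : ‖z‖ ≤ 1) :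
    1 + (N : ℂ) * (1 - inner ℂ ξ z) ≠ 0 := by
  intro h
  have h1 := congrArg Complex.re h
  have h2 := one_sub_le_re (z := z) hξ
  simp only [Complex.add_re, Complex.one_re, Complex.mul_re, Complex.ofReal_re, Complex.ofReal_im,
    zero_mul, sub_zero, Complex.zero_re] at h1
  nlinarith

lemma differentiableOn_qfun {N : ℝ} (hN : 0 ≤ N) {ξ : V2} (hξ : ‖ξ‖ = 1) :
    DifferentiableOn ℂ (qfun N ξ) ball2 := fun z hz => by
  have h1 : DifferentiableAt ℂ (fun z : V2 => inner ℂ ξ z) z := (innerSL ℂ ξ).differentiableAt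
  have h2 : DifferentiableAt ℂ (fun z : V2 => 1 + (N : ℂ) * (1 - inner ℂ ξ z)) z :=
    ((h1.const_sub 1).const_mul (N : ℂ)).const_add 1
  exact ((h2.inv (qfun_den_ne hN hξ (mem_ball_zero_iff.1 hz).le)).const_mul
    (3 / 2 : ℂ)).differentiableWithinAt.congr (fun w _ => by simp [qfun, div_eq_mul_inv])
      (by simp [qfun, div_eq_mul_inv])

lemma contDiffOn_qfun {N : ℝ} (hN : 0 ≤ N) {ξ : V2} (hξ : ‖ξ‖ = 1) :
    ContDiffOn ℝ ∞ (qfun N ξ) ball2 := by
  have h : ContDiff ℝ ∞ fun z : V2 => 1 + (N : ℂ) * (1 - inner ℂ ξ z) :=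
    contDiff_const.add (contDiff_const.mul (contDiff_const.sub (contDiff_const.inner ℂ contDiff_id)))
  refine (contDiffOn_const (c := (3 / 2 : ℂ))).mul
    (h.contDiffOn.inv fun z hz => qfun_den_ne hN hξ (mem_ball_zero_iff.1 hz).le) |>.congr
    fun z _ => ?_
  simp [qfun, div_eq_mul_inv]

lemma contDiffOn_term {ε N : ℝ} (hε : 0 < ε) (hN : 0 ≤ N) {ξ : V2} (hξ : ‖ξ‖ = 1) :
    ContDiffOn ℝ ∞ (fun z => well ε (qfun N ξ z)) ball2 :=
  (contDiff_well hε).comp_contDiffOn (contDiffOn_qfun hN hξ)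

lemma contDiffOn_levelSum {ε Q : ℝ} (hε : 0 < ε) (hQ : 1 ≤ Q) (l : ℕ) :
    ContDiffOn ℝ ∞ (levelSum ε Q l) ball2 :=
  ContDiffOn.sum fun ξ hξ => contDiffOn_term hε (zero_le_one.trans (one_le_scale hQ l))
    ((net_spec (one_le_scale hQ l)).1.1 ξ hξ)

/-- Derivatives of `y ↦ well (c y)` are of third order in `c`. -/
lemma scaled_well_bound {ε : ℝ} (hε : 0 < ε) (R : ℝ) (k : ℕ) :
    ∃ C, 0 ≤ C ∧ ∀ c y : ℂ, ‖c‖ ≤ R → ‖y‖ ≤ R → ∀ i ≤ k,
      ‖iteratedFDeriv ℝ i (fun y => well ε (c * y)) y‖ ≤ C * ‖c‖ ^ 3 := by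
  set R' := max R 1
  have hR' : 1 ≤ R' := le_max_right _ _
  obtain ⟨C, hC, hb⟩ := well_jet_bound hε (R' * R') k
  refine ⟨C * R' ^ 3 * R' ^ k, by positivity, fun c y hc hy i hi => ?_⟩
  have hc' := hc.trans (le_max_left R 1)
  have hy' := hy.trans (le_max_left R 1)
  have h := (ContinuousLinearMap.mul ℝ ℂ c).iteratedFDeriv_comp_right (contDiff_well hε) y (i := i)
    (by exact_mod_cast le_top)
  rw [show (fun y => well ε (c * y)) = well ε ∘ (ContinuousLinearMap.mul ℝ ℂ c) from rfl, h]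
  refine (ContinuousMultilinearMap.norm_compContinuousLinearMap_le _ _).trans ?_
  have hL : ‖ContinuousLinearMap.mul ℝ ℂ c‖ ≤ ‖c‖ := ContinuousLinearMap.opNorm_mul_apply_le _ _ _
  rw [Finset.prod_const, Finset.card_univ, Fintype.card_fin]
  refine (mul_le_mul (hb _ ?_ i hi) (pow_le_pow_left₀ (norm_nonneg _) hL i) (by positivity)
    (by positivity)).trans ?_
  · rw [ContinuousLinearMap.mul_apply', norm_mul]
    exact mul_le_mul hc' hy' (norm_nonneg _) (by linarith)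
  · rw [ContinuousLinearMap.mul_apply', norm_mul, mul_pow]
    have h1 : ‖y‖ ^ (3 - i) ≤ R' ^ 3 :=
      (pow_le_pow_left₀ (norm_nonneg _) hy' _).trans (pow_le_pow_right₀ hR' (by omega))
    have h2 : ‖c‖ ^ (3 - i) * ‖c‖ ^ i ≤ ‖c‖ ^ 3 * R' ^ k := by
      rw [← pow_add, show 3 - i + i = 3 + (i - 3) by omega, pow_add]
      exact mul_le_mul_of_nonneg_left ((pow_le_pow_left₀ (norm_nonneg _) hc' _).trans
        (pow_le_pow_right₀ hR' (by omega))) (by positivity)
    calc C * (‖c‖ ^ (3 - i) * ‖y‖ ^ (3 - i)) * ‖c‖ ^ i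
        = C * ‖y‖ ^ (3 - i) * (‖c‖ ^ (3 - i) * ‖c‖ ^ i) := by ring
      _ ≤ C * R' ^ 3 * (‖c‖ ^ 3 * R' ^ k) :=
          mul_le_mul (mul_le_mul_of_nonneg_left h1 hC) h2 (by positivity) (by positivity)
      _ = _ := by ring

/-- Summable bounds on the derivatives of the levels inside a smaller ball. -/
lemma level_bounds {ε Q : ℝ} (hε : 0 < ε) (hQ : 16 ≤ Q) {r : ℝ} (hr : r < 1) (k : ℕ) :
    ∃ v : ℕ → ℝ, Summable v ∧ (∀ l, 0 ≤ v l) ∧
      ∀ l, ∀ z : V2, ‖z‖ ≤ r → ∀ i ≤ k, ‖iteratedFDeriv ℝ i (levelSum ε Q l) z‖ ≤ v l := by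
  obtain ⟨Cc, hCc, hcard⟩ := card_cap_le
  set K : Set ((ℝ × V2) × V2) :=
    (Set.Icc (0 : ℝ) 1 ×ˢ Metric.sphere (0 : V2) 1) ×ˢ Metric.closedBall (0 : V2) r
  have hK : IsCompact K :=
    (isCompact_Icc.prod (isCompact_sphere _ _)).prod (isCompact_closedBall _ _)
  have hKU : K ⊆ {x : (ℝ × V2) × V2 | (x.1.1 : ℂ) + (1 - inner ℂ x.1.2 x.2) ≠ 0} := by
    rintro ⟨⟨τ, ξ⟩, z⟩ ⟨⟨hτ, hξ⟩, hz⟩ h
    have := zeta_den_re (z := z) hτ.1 (mem_sphere_zero_iff_norm.1 hξ)
    rw [h, Complex.zero_re] at this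
    linarith [mem_closedBall_zero_iff.1 hz]
  obtain ⟨D, hD1, hD⟩ := exists_jet_bound zeta_dom_open contDiffOn_zeta hK hKU k
  obtain ⟨Cw, hCw, hw⟩ := scaled_well_bound hε (max D 1) k
  set M : ℝ := k.factorial * Cw * D ^ k with hMd
  have hM : 0 ≤ M := by positivity
  refine ⟨fun l => M * (Cc * 9) * (1 / Q) ^ (l + 1),
    ((summable_geometric_of_lt_one (by positivity)
      (by rw [div_lt_one (by linarith)]; linarith)).comp_injective
        (add_left_injective 1)).mul_left _, fun l => by positivity, fun l z hz i hi => ?_⟩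
  have hN := one_le_scale (by linarith : 1 ≤ Q) l
  set N := scale Q l with hNd
  have hN0 : 0 < N := by linarith
  have hzball : z ∈ ball2 := mem_ball_zero_iff.2 (lt_of_le_of_lt hz hr)
  have hs := (net_spec hN).1
  have hterm : ∀ ξ ∈ net N,
      ‖iteratedFDeriv ℝ i (fun z => well ε (qfun N ξ z)) z‖ ≤ M * (1 / N) ^ 3 := by
    intro ξ hξ
    have hξ1 := hs.1 ξ hξ
    have hτ : (1 / N : ℝ) ∈ Set.Icc (0 : ℝ) 1 :=
      ⟨by positivity, by rw [div_le_one hN0]; exact hN⟩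
    have hmem : ((1 / N, ξ), z) ∈ K :=
      ⟨⟨hτ, mem_sphere_zero_iff_norm.2 hξ1⟩, mem_closedBall_zero_iff.2 hz⟩
    have hf : ContDiffOn ℝ ∞ (fun w : V2 => zeta ((1 / N, ξ), w)) ball2 := by
      refine contDiffOn_zeta.comp (contDiff_const.prodMk contDiff_id).contDiffOn fun w hw' h => ?_
      have := zeta_den_re (z := w) hτ.1 hξ1
      rw [h, Complex.zero_re] at this
      linarith [mem_ball_zero_iff.1 hw']
    have hfun : (fun z => well ε (qfun N ξ z)) =
        (fun y => well ε (((1 / N : ℝ) : ℂ) * y)) ∘ fun w => zeta ((1 / N, ξ), w) := by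
      funext w
      rw [Function.comp_apply, qfun_eq_zeta hN0.ne']
    have hnorm : ‖((1 / N : ℝ) : ℂ)‖ = 1 / N := by
      rw [Complex.norm_real, Real.norm_eq_abs, abs_of_nonneg hτ.1]
    rw [hfun]
    refine (norm_iteratedFDeriv_comp_le_of_isOpen Metric.isOpen_ball isOpen_univ
      (((contDiff_well hε).comp (contDiff_const.mul contDiff_id)).contDiffOn) hf
      (Set.mapsTo_univ _ _) hzball i (C := Cw * (1 / N) ^ 3) (D := D) (fun j hj => ?_)
      (fun j hj1 hj => ?_)).trans ?_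
    · have hy : ‖zeta ((1 / N, ξ), z)‖ ≤ max D 1 := by
        have := hD _ hmem 0 (Nat.zero_le k)
        rw [norm_iteratedFDeriv_zero] at this
        exact this.trans (le_max_left _ _)
      have := hw _ _ (by rw [hnorm]; exact hτ.2.trans (le_max_right _ _)) hy j (hj.trans hi)
      rwa [hnorm] at this
    · exact (hD _ hmem j (hj.trans hi)).trans (le_self_pow₀ hD1 (by omega))
    · rw [hMd, ← mul_assoc]
      calc (i.factorial : ℝ) * Cw * (1 / N) ^ 3 * D ^ i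
          ≤ k.factorial * Cw * (1 / N) ^ 3 * D ^ k := by
            gcongr
        _ = _ := by ring
  have hsum : iteratedFDeriv ℝ i (levelSum ε Q l) z =
      ∑ ξ ∈ net N, iteratedFDeriv ℝ i (fun z => well ε (qfun N ξ z)) z :=
    iteratedFDeriv_fun_sum_apply fun ξ hξ => ((contDiffOn_term hε hN0.le (hs.1 ξ hξ)).contDiffAt
      (Metric.isOpen_ball.mem_nhds hzball)).of_le (by exact_mod_cast le_top)
  have hcount : ((net N).card : ℝ) ≤ Cc * 9 * N ^ 2 := by
    let e : V2 := EuclideanSpace.single 0 1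
    have he : ‖e‖ = 1 := by simp [e]
    have := hcard N hN _ hs e he 2 (by norm_num)
    rw [Finset.filter_true_of_mem fun x hx => ?_] at this
    · refine this.trans ?_
      rw [mul_assoc]
      refine mul_le_mul_of_nonneg_left ?_ hCc
      calc (1 + N * 2) ^ 2 ≤ (3 * N) ^ 2 := by gcongr; linarith
        _ = _ := by ring
    · refine (norm_sub_le _ _).trans ?_
      have := norm_inner_le_norm (𝕜 := ℂ) e x
      rw [he, hs.1 x hx] at this
      simp only [norm_one]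
      linarith
  rw [hsum]
  calc _ ≤ ∑ ξ ∈ net N, M * (1 / N) ^ 3 := (norm_sum_le _ _).trans (Finset.sum_le_sum hterm)
    _ = (net N).card * (M * (1 / N) ^ 3) := by rw [Finset.sum_const, nsmul_eq_mul]
    _ ≤ Cc * 9 * N ^ 2 * (M * (1 / N) ^ 3) := mul_le_mul_of_nonneg_right hcount (by positivity)
    _ = M * (Cc * 9) * (1 / N) := by field_simp
    _ = _ := by simp only [hNd, scale, one_div_pow]

theorem psi_contDiffOn {ε Q : ℝ} (hε : 0 < ε) (_hε1 : ε ≤ 1) (hQ : 16 ≤ Q) :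
    ContDiffOn ℝ ∞ (Psi ε Q) ball2 := by
  intro x hx
  set r := (1 + ‖x‖) / 2 with hr
  have hx1 := mem_ball_zero_iff.1 hx
  choose v hv _ hb using level_bounds (Q := Q) hε hQ (show r < 1 by linarith)
  have h := series_smooth (Metric.isOpen_ball (x := (0 : V2)) (ε := r)) (convex_ball _ _)
    (f := levelSum ε Q) (v := v)
    (fun l => (contDiffOn_levelSum hε (by linarith) l).mono (Metric.ball_subset_ball (by linarith)))
    hv (fun k l z hz => hb k l z (mem_ball_zero_iff.1 hz).le k le_rfl)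
  exact (h.1.contDiffAt (Metric.isOpen_ball.mem_nhds
    (mem_ball_zero_iff.2 (by linarith)))).contDiffWithinAt

lemma contDiffOn_ballMap (a : V2) :
    ContDiffOn ℝ ∞ (ballMap a) {z | ‖a‖ * ‖z‖ < 1} := by
  have hi : ContDiff ℝ ∞ fun z : V2 => inner ℂ a z := contDiff_const.inner ℂ contDiff_id
  exact ((contDiff_const.sub hi).contDiffOn.inv fun z hz => one_sub_inner_ne hz).smul
    (((contDiff_const.sub (contDiff_id.const_smul (defect a : ℂ))).sub
      ((hi.div_const _).smul contDiff_const)).contDiffOn)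

lemma small_ball_subset {a : V2} (ha : a ∈ ball2) {r : ℝ} (hr : r ≤ 1) :
    Metric.closedBall (0 : V2) r ⊆ {z | ‖a‖ * ‖z‖ < 1} := fun _ hz =>
  norm_mul_norm_lt ha ((mem_closedBall_zero_iff.1 hz).trans hr)

/-- Term by term differentiation of `Ψ` recentred at `a`. -/
lemma psi_pullback {ε Q : ℝ} (hε : 0 < ε) (hQ : 16 ≤ Q) {a : V2} (ha : a ∈ ball2) (k : ℕ) :
    Summable (fun l => iteratedFDeriv ℝ k (fun z => levelSum ε Q l (ballMap a z)) 0) ∧
    iteratedFDeriv ℝ k (fun z => Psi ε Q (ballMap a z)) 0 =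
      ∑' l, iteratedFDeriv ℝ k (fun z => levelSum ε Q l (ballMap a z)) 0 := by
  set U := Metric.ball (0 : V2) (1 / 4)
  have hUc : U ⊆ Metric.closedBall (0 : V2) (1 / 4) := Metric.ball_subset_closedBall
  have hU1 : U ⊆ {z | ‖a‖ * ‖z‖ < 1} := hUc.trans (small_ball_subset ha (by norm_num))
  obtain ⟨r, hr, hmap⟩ : ∃ r < 1, ∀ z ∈ Metric.closedBall (0 : V2) (1 / 4), ‖ballMap a z‖ ≤ r := by
    obtain ⟨z, hz, hmax⟩ := (isCompact_closedBall (0 : V2) (1 / 4)).exists_isMaxOn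
      ⟨0, Metric.mem_closedBall_self (by norm_num)⟩
      ((contDiffOn_ballMap a).continuousOn.mono (small_ball_subset ha (by norm_num))).norm
    exact ⟨_, mem_ball_zero_iff.1 (ballMap_mem ha (mem_ball_zero_iff.2
      (lt_of_le_of_lt (mem_closedBall_zero_iff.1 hz) (by norm_num)))), fun w hw => hmax hw⟩
  choose v hv hv0 hb using level_bounds (Q := Q) hε hQ hr
  have hop : IsOpen {z : V2 | ‖a‖ * ‖z‖ < 1} :=
    isOpen_lt (continuous_const.mul continuous_norm) continuous_const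
  have hDex : ∀ k, ∃ D, 1 ≤ D ∧ ∀ z ∈ Metric.closedBall (0 : V2) (1 / 4), ∀ i ≤ k,
      ‖iteratedFDeriv ℝ i (ballMap a) z‖ ≤ D := fun k => by
    obtain ⟨D, hD1, hD⟩ := exists_jet_bound (P := ℝ) (hop.preimage continuous_snd)
      ((contDiffOn_ballMap a).comp contDiff_snd.contDiffOn (Set.mapsTo_preimage _ _))
      ((isCompact_singleton (x := (0 : ℝ))).prod (isCompact_closedBall (0 : V2) (1 / 4)))
      (fun x hx => small_ball_subset ha (by norm_num) hx.2) k
    exact ⟨D, hD1, fun z hz => hD (0, z) ⟨rfl, hz⟩⟩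
  choose D hD1 hD using hDex
  have hmapU : Set.MapsTo (ballMap a) U ball2 := fun z hz =>
    mem_ball_zero_iff.2 (lt_of_le_of_lt (hmap z (hUc hz)) hr)
  have hbound : ∀ k l, ∀ z ∈ U, ‖iteratedFDeriv ℝ k (fun z => levelSum ε Q l (ballMap a z)) z‖ ≤
      k.factorial * v k l * D k ^ k := fun k l z hz =>
    norm_iteratedFDeriv_comp_le_of_isOpen Metric.isOpen_ball Metric.isOpen_ball
      (contDiffOn_levelSum hε (by linarith) l) ((contDiffOn_ballMap a).mono hU1) hmapU hz k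
      (fun i hi => hb k l _ (hmap z (hUc hz)) i hi)
      (fun i h1 hi => (hD k z (hUc hz) i hi).trans (le_self_pow₀ (hD1 k) (by omega)))
  have hsum : ∀ k, Summable fun l => (k.factorial : ℝ) * v k l * D k ^ k := fun k =>
    ((hv k).mul_left _).mul_right _
  have h0 : (0 : V2) ∈ U := Metric.mem_ball_self (by norm_num)
  exact ⟨Summable.of_norm_bounded (hsum k) fun l => hbound k l 0 h0,
    (series_smooth (Metric.isOpen_ball (x := (0 : V2)) (ε := 1 / 4)) (convex_ball _ _)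
      (f := fun l z => levelSum ε Q l (ballMap a z))
      (v := fun k l => (k.factorial : ℝ) * v k l * D k ^ k)
      (fun l => (contDiffOn_levelSum hε (by linarith) l).comp ((contDiffOn_ballMap a).mono hU1)
        hmapU) hsum hbound).2 k 0 h0⟩

lemma leviQ_eq_iterated (f : V2 → ℝ) (v : V2) :
    leviQ f 0 v = iteratedFDeriv ℝ 2 f 0 (fun _ => v)
      + iteratedFDeriv ℝ 2 f 0 (fun _ => Complex.I • v) := by
  simp [leviQ, iteratedFDeriv_two_apply]

lemma leviQ_level_nonneg {ε Q : ℝ} (hε : 0 < ε) (hQ : 1 ≤ Q) {a : V2} (ha : a ∈ ball2) (l : ℕ)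
    (v : V2) : 0 ≤ leviQ (fun z => levelSum ε Q l (ballMap a z)) 0 v := by
  have hN := one_le_scale hQ l
  have hN0 : 0 ≤ scale Q l := by linarith
  have hs := (net_spec hN).1
  set U := Metric.ball (0 : V2) (1 / 4)
  have hU1 : U ⊆ ball2 := Metric.ball_subset_ball (by norm_num)
  have hmapU : Set.MapsTo (ballMap a) U ball2 := fun z hz => ballMap_mem ha (hU1 hz)
  have h0 : (0 : V2) ∈ U := Metric.mem_ball_self (by norm_num)
  have hcd : ∀ ξ ∈ net (scale Q l),
      ContDiffOn ℝ ∞ (fun z => well ε (qfun (scale Q l) ξ (ballMap a z))) U := fun ξ hξ =>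
    (contDiffOn_term hε hN0 (hs.1 ξ hξ)).comp ((contDiffOn_ballMap a).mono
      (Metric.ball_subset_closedBall.trans (small_ball_subset ha (by norm_num)))) hmapU
  have hadd : ∀ w : V2, iteratedFDeriv ℝ 2 (fun z => levelSum ε Q l (ballMap a z)) 0 (fun _ => w)
      = ∑ ξ ∈ net (scale Q l), iteratedFDeriv ℝ 2
          (fun z => well ε (qfun (scale Q l) ξ (ballMap a z))) 0 (fun _ => w) := fun w => by
    simp only [levelSum]
    rw [iteratedFDeriv_fun_sum_apply fun ξ hξ => ((hcd ξ hξ).contDiffAt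
      (Metric.isOpen_ball.mem_nhds h0)).of_le (WithTop.coe_le_coe.2 le_top),
      sum_apply]
  rw [leviQ_eq_iterated, hadd, hadd, ← Finset.sum_add_distrib]
  refine Finset.sum_nonneg fun ξ hξ => ?_
  rw [← leviQ_eq_iterated]
  have hS : IsOpen ((fun s : ℂ => s • v) ⁻¹' U) :=
    Metric.isOpen_ball.preimage (continuous_id.smul continuous_const)
  refine leviQ_well_comp_nonneg hε Metric.isOpen_ball h0
    ((hcd ξ hξ).of_le (WithTop.coe_le_coe.2 le_top)) v hS (by simp [h0])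
    (g := fun s => qfun (scale Q l) ξ (ballMap a (s • v))) ?_ fun s _ => rfl
  exact (differentiableOn_qfun hN0 (hs.1 ξ hξ)).comp
    ((differentiableOn_ballMap_ball ha).comp
      (differentiableOn_id.smul_const v) fun s hs => hU1 hs) fun s hs => hmapU hs

theorem psi_leviQ_nonneg {ε Q : ℝ} (hε : 0 < ε) (_hε1 : ε ≤ 1) (hQ : 16 ≤ Q) :
    ∀ a ∈ ball2, ∀ v, 0 ≤ leviQ (fun z => Psi ε Q (ballMap a z)) 0 v := by
  intro a ha v
  obtain ⟨hs, he⟩ := psi_pullback hε hQ ha 2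
  have hev : ∀ w : V2, HasSum (fun l =>
        iteratedFDeriv ℝ 2 (fun z => levelSum ε Q l (ballMap a z)) 0 (fun _ => w))
      (iteratedFDeriv ℝ 2 (fun z => Psi ε Q (ballMap a z)) 0 (fun _ => w)) := fun w =>
    ContinuousMultilinearMap.hasSum_eval (he ▸ hs.hasSum) _
  rw [leviQ_eq_iterated]
  refine ((hev v).add (hev (Complex.I • v))).nonneg fun l => ?_
  rw [← leviQ_eq_iterated]
  exact leviQ_level_nonneg hε (by linarith) ha l v

/-- The derivatives of one term recentred at `a`. -/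
lemma term_jet_bound {ε : ℝ} (hε : 0 < ε) : ∃ C, 0 ≤ C ∧ ∀ N : ℝ, 1 ≤ N → ∀ ξ : V2, ‖ξ‖ = 1 →
    ∀ a ∈ ball2, ∀ m : ℕ, 1 ≤ m → m ≤ 4 →
      ‖iteratedFDeriv ℝ m (fun z => well ε (qfun N ξ (ballMap a z))) 0‖ ≤
        C * ‖qfun N ξ a‖ ^ 3 * Real.sqrt (N * (1 - ‖a‖)) := by
  obtain ⟨C₀, hC₀⟩ := qfun_ballMap
  set C₁ := max C₀ 1
  have hC₁ : 1 ≤ C₁ := le_max_right _ _
  let G : (V2 × V2) × V2 → ℂ := fun x => inner ℂ x.1.1 x.2 * (1 - inner ℂ x.1.2 x.2)⁻¹
  have hGd : IsOpen {x : (V2 × V2) × V2 | 1 - inner ℂ x.1.2 x.2 ≠ (0 : ℂ)} :=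
    isOpen_ne_fun (by fun_prop) continuous_const
  have hG : ContDiffOn ℝ ∞ G {x : (V2 × V2) × V2 | 1 - inner ℂ x.1.2 x.2 ≠ (0 : ℂ)} :=
    (((contDiff_fst.comp contDiff_fst).inner ℂ contDiff_snd).contDiffOn).mul
      ((contDiff_const.sub ((contDiff_snd.comp contDiff_fst).inner ℂ
        contDiff_snd)).contDiffOn.inv fun x hx => hx)
  obtain ⟨D, hD1, hD⟩ := exists_jet_bound hGd hG
    (((isCompact_closedBall (0 : V2) C₁).prod (isCompact_closedBall (0 : V2) C₁)).prod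
      (isCompact_singleton (x := (0 : V2))))
    (fun x hx => by rcases hx with ⟨_, h⟩; rw [Set.mem_singleton_iff] at h; simp [h]) 4
  obtain ⟨Cw, hCw, hw⟩ := scaled_well_bound hε (3 / 2) 4
  refine ⟨24 * Cw * D ^ 4, by positivity, fun N hN ξ hξ a ha m hm1 hm4 => ?_⟩
  obtain ⟨d, μ, hμ, hd, hd', heq⟩ := hC₀ N hN ξ hξ a ha
  have hN0 : 0 ≤ N := by linarith
  set q := qfun N ξ a
  have hq : ‖q‖ ≤ 3 / 2 := by
    have h1 := Complex.re_le_norm (1 + (N : ℂ) * (1 - inner ℂ ξ a))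
    have h2 := one_sub_le_re (z := a) hξ
    have ha1 := mem_ball_zero_iff.1 ha
    simp only [Complex.add_re, Complex.one_re, Complex.mul_re, Complex.ofReal_re,
      Complex.ofReal_im, zero_mul, sub_zero] at h1
    simp only [q, qfun, norm_div, show ‖(3 / 2 : ℂ)‖ = 3 / 2 by norm_num]
    exact div_le_self (by norm_num) (by nlinarith)
  set t : ℝ := ‖d‖ / C₁ with htd
  have ht0 : 0 ≤ t := by positivity
  have ht1 : t ≤ 1 := (div_le_one (by linarith)).2 (hd.trans (le_max_left _ _))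
  have ht2 : t ≤ Real.sqrt (N * (1 - ‖a‖)) := by
    rw [htd, div_le_iff₀ (by linarith), mul_comm]
    exact hd'.trans (mul_le_mul_of_nonneg_right (le_max_left _ _) (Real.sqrt_nonneg _))
  set d₁ : V2 := ((C₁ / ‖d‖ : ℝ) : ℂ) • d
  have hd₁ : ‖d₁‖ ≤ C₁ := by
    rw [norm_smul, Complex.norm_real, Real.norm_eq_abs, abs_of_nonneg (by positivity)]
    rcases eq_or_ne ‖d‖ 0 with h | h
    · rw [h]; simp; linarith
    · rw [div_mul_cancel₀ _ h]
  have hdt : d = (t : ℂ) • d₁ := by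
    rcases eq_or_ne ‖d‖ 0 with h | h
    · simp [norm_eq_zero.1 h, d₁]
    · rw [smul_smul, ← Complex.ofReal_mul, htd]
      rw [show ‖d‖ / C₁ * (C₁ / ‖d‖) = 1 by field_simp]
      simp
  set h1 : ℂ → ℝ := fun y => well ε (q * (y + 1))
  have hh1 : ContDiff ℝ ∞ h1 :=
    (contDiff_well hε).comp (contDiff_const.mul (contDiff_id.add contDiff_const))
  set L : ℂ →L[ℝ] ℂ := t • ContinuousLinearMap.id ℝ ℂ
  set F : ℂ → ℝ := fun η => h1 (L η) - well ε q
  have hF : ContDiff ℝ ∞ F := (hh1.comp L.contDiff).sub contDiff_const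
  have hFC : ∀ i ≤ m, ‖iteratedFDeriv ℝ i F 0‖ ≤ Cw * ‖q‖ ^ 3 * t := by
    intro i hi
    rcases Nat.eq_zero_or_pos i with rfl | hi0
    · rw [norm_iteratedFDeriv_zero]
      simp [F, h1]
      positivity
    · have e1 : iteratedFDeriv ℝ i F 0 = iteratedFDeriv ℝ i (fun η => h1 (L η)) 0 := by
        simp only [F]
        rw [fun_iteratedFDeriv_sub_apply (f := fun η => h1 (L η))
          ((hh1.comp L.contDiff).contDiffAt.of_le (by exact_mod_cast le_top))
          (contDiff_const (c := well ε q)).contDiffAt, iteratedFDeriv_const_of_ne (by omega)]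
        simp
      rw [e1, show (fun η => h1 (L η)) = h1 ∘ L from rfl,
        L.iteratedFDeriv_comp_right hh1 0 (i := i) (by exact_mod_cast le_top)]
      refine (ContinuousMultilinearMap.norm_compContinuousLinearMap_le _ _).trans ?_
      rw [Finset.prod_const, Finset.card_univ, Fintype.card_fin, map_zero,
        show iteratedFDeriv ℝ i h1 0 = iteratedFDeriv ℝ i (fun y => well ε (q * y)) (0 + 1) from
          iteratedFDeriv_comp_add_right (f := fun y => well ε (q * y)) i (1 : ℂ) 0, zero_add]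
      have hLn : ‖L‖ ≤ t := by
        rw [norm_smul, Real.norm_eq_abs, abs_of_nonneg ht0]
        exact mul_le_of_le_one_right ht0 ContinuousLinearMap.norm_id_le
      refine mul_le_mul (hw q 1 hq (by norm_num) i (hi.trans hm4)) ?_ (by positivity)
        (by positivity)
      exact (pow_le_pow_left₀ (norm_nonneg _) hLn i).trans (pow_le_of_le_one ht0 ht1 (by omega))
  set V : Set V2 := {z | ‖z‖ * C₁ < 1} ∩ {z | 1 - inner ℂ μ z ≠ (0 : ℂ)} with hVd
  have hV : IsOpen V := (isOpen_lt (by fun_prop) continuous_const).inter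
    (isOpen_ne_fun (by fun_prop) continuous_const)
  have h0 : (0 : V2) ∈ V := ⟨by simp, by simp⟩
  have hg : ContDiffOn ℝ ∞ (fun z => G ((d₁, μ), z)) V :=
    hG.comp (contDiff_const.prodMk contDiff_id).contDiffOn fun z hz => hz.2
  have hev : (fun z => well ε (qfun N ξ (ballMap a z))) =ᶠ[𝓝 0]
      fun z => (F ∘ fun z => G ((d₁, μ), z)) z + well ε q := by
    filter_upwards [hV.mem_nhds h0] with z hz
    rw [heq z (lt_of_le_of_lt (mul_le_mul_of_nonneg_left (le_max_left _ _) (norm_nonneg z)) hz.1),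
      hdt, inner_smul_left]
    simp [F, h1, L, G, div_eq_mul_inv, Complex.real_smul]
    ring_nf
  have hcomp : ContDiffAt ℝ m (F ∘ fun z => G ((d₁, μ), z)) 0 :=
    (hF.comp_contDiffOn hg).contDiffAt (hV.mem_nhds h0) |>.of_le (by exact_mod_cast le_top)
  rw [(hev.iteratedFDeriv ℝ m).eq_of_nhds, fun_iteratedFDeriv_add_apply hcomp
    (contDiff_const (c := well ε q)).contDiffAt, iteratedFDeriv_const_of_ne (by omega),
    Pi.zero_apply, add_zero]
  refine (norm_iteratedFDeriv_comp_le_of_isOpen hV isOpen_univ hF.contDiffOn hg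
    (Set.mapsTo_univ _ _) h0 m (C := Cw * ‖q‖ ^ 3 * t) (D := D) (fun i hi => ?_)
    fun i h1 hi => ?_).trans ?_
  · simpa [G] using hFC i hi
  · exact (hD ((d₁, μ), 0) ⟨⟨mem_closedBall_zero_iff.2 hd₁,
      mem_closedBall_zero_iff.2 (hμ.trans (le_max_left _ _))⟩, rfl⟩ i (hi.trans hm4)).trans
      (le_self_pow₀ hD1 (by omega))
  · have hf : (m.factorial : ℝ) ≤ 24 := by
      exact_mod_cast (Nat.factorial_le hm4).trans_eq rfl
    calc (m.factorial : ℝ) * (Cw * ‖q‖ ^ 3 * t) * D ^ m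
        ≤ 24 * (Cw * ‖q‖ ^ 3 * Real.sqrt (N * (1 - ‖a‖))) * D ^ 4 := by gcongr
      _ = _ := by ring

lemma sum_range_profile_le {ρ : ℝ} (hρ : 4 ≤ ρ) {s : ℝ} (hs : 0 ≤ s) (n : ℕ) :
    ∑ l ∈ Finset.range n, s * ρ ^ l / (1 + (s * ρ ^ l) ^ 2) ≤ 3 := by
  let h : ℕ → ℝ := fun l => s * ρ ^ l / (1 + s * ρ ^ l)
  have hstep : ∀ l, s * ρ ^ l / (1 + (s * ρ ^ l) ^ 2) ≤ 3 * (h (l + 1) - h l) := by
    intro l
    simp only [h, pow_succ]
    rw [show s * (ρ ^ l * ρ) = s * ρ ^ l * ρ by ring]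
    set x := s * ρ ^ l
    have hx : 0 ≤ x := by positivity
    rw [div_sub_div _ _ (by positivity) (by positivity), mul_div_assoc',
      div_le_div_iff₀ (by positivity) (by positivity)]
    nlinarith [mul_nonneg (mul_nonneg hx (show 0 ≤ ρ by linarith)) (sq_nonneg (x - 1)),
      mul_nonneg hx hx, mul_nonneg (mul_nonneg hx hx) hx,
      mul_nonneg (mul_nonneg hx hx) (show 0 ≤ ρ - 4 by linarith),
      mul_nonneg hx (show 0 ≤ ρ - 4 by linarith),
      mul_nonneg (mul_nonneg hx hx) (mul_nonneg hx (show 0 ≤ ρ - 4 by linarith))]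
  refine (Finset.sum_le_sum fun l _ => hstep l).trans ?_
  rw [← Finset.mul_sum, Finset.sum_range_sub]
  have h1 : h n ≤ 1 := (div_le_one (by positivity)).2 (by linarith)
  have h2 : 0 ≤ h 0 := by positivity
  linarith

theorem psi_jet_bound {ε Q : ℝ} (hε : 0 < ε) (_hε1 : ε ≤ 1) (hQ : 16 ≤ Q) :
    ∃ B, ∀ a ∈ ball2, ∀ m : ℕ, 1 ≤ m → m ≤ 4 →
      ‖iteratedFDeriv ℝ m (fun z => Psi ε Q (ballMap a z)) 0‖ ≤ B := by
  obtain ⟨Ct, hCt, ht⟩ := term_jet_bound hε
  obtain ⟨Cn, hCn, hn⟩ := net_sum_le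
  refine ⟨Ct * Cn * 3, fun a ha m hm1 hm4 => ?_⟩
  obtain ⟨-, he⟩ := psi_pullback hε hQ ha m
  have ha1 := mem_ball_zero_iff.1 ha
  set s := Real.sqrt (Q * (1 - ‖a‖))
  set ρ := Real.sqrt Q
  have hρ : 4 ≤ ρ := Real.le_sqrt_of_sq_le (by norm_num; linarith)
  let u : ℕ → ℝ := fun l => s * ρ ^ l / (1 + (s * ρ ^ l) ^ 2)
  have hu0 : ∀ l, 0 ≤ u l := fun l => by positivity
  have hu : Summable u :=
    summable_of_sum_range_le hu0 fun n => sum_range_profile_le hρ (Real.sqrt_nonneg _) n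
  have hlev : ∀ l, ‖iteratedFDeriv ℝ m (fun z => levelSum ε Q l (ballMap a z)) 0‖
      ≤ Ct * Cn * u l := by
    intro l
    have hN := one_le_scale (by linarith : 1 ≤ Q) l
    set N := scale Q l with hNd
    have hs' := (net_spec hN).1
    have hsx : Real.sqrt (N * (1 - ‖a‖)) = s * ρ ^ l := by
      rw [hNd, scale, pow_succ, mul_assoc, Real.sqrt_mul (by positivity)]
      rw [show Q ^ l = (ρ ^ l) ^ 2 by rw [← pow_mul, mul_comm l 2, pow_mul,
        Real.sq_sqrt (by linarith : (0:ℝ) ≤ Q)], Real.sqrt_sq (by positivity), mul_comm]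
    have hmap : Set.MapsTo (ballMap a) ball2 ball2 := fun z hz => ballMap_mem ha hz
    simp only [levelSum]
    rw [← hNd, iteratedFDeriv_fun_sum_apply (f := fun ξ z => well ε (qfun N ξ (ballMap a z)))
      fun ξ hξ => (((contDiffOn_term (N := N) hε (by linarith) (hs'.1 ξ hξ)).comp
        ((contDiffOn_ballMap a).mono
        (Metric.ball_subset_closedBall.trans (small_ball_subset ha le_rfl))) hmap).contDiffAt
          (Metric.isOpen_ball.mem_nhds (Metric.mem_ball_self one_pos))).of_le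
        (by exact_mod_cast le_top)]
    refine (norm_sum_le _ _).trans ((Finset.sum_le_sum fun ξ hξ =>
      ht N hN ξ (hs'.1 ξ hξ) a ha m hm1 hm4).trans ?_)
    rw [← Finset.sum_mul, ← Finset.mul_sum]
    refine (mul_le_mul_of_nonneg_right (mul_le_mul_of_nonneg_left (hn N hN _ hs' a ha1.le) hCt)
      (Real.sqrt_nonneg _)).trans (le_of_eq ?_)
    have hsq : N * (1 - ‖a‖) = (s * ρ ^ l) ^ 2 := by
      rw [← hsx, Real.sq_sqrt (mul_nonneg (by linarith) (by linarith))]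
    rw [hsx, hsq]
    simp only [u]
    ring
  rw [he]
  refine (tsum_of_norm_bounded ((hu.mul_left (Ct * Cn)).hasSum) hlev).trans ?_
  rw [tsum_mul_left]
  exact mul_le_mul_of_nonneg_left
    (Real.tsum_le_of_sum_range_le hu0 fun n => sum_range_profile_le hρ (Real.sqrt_nonneg _) n)
    (by positivity)

end Vale.BDU
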