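import Vale.Agent.BDU.PointTensor
import Vale.Agent.BDU.Psi

/-!
# P250: positivity of the metric and the gradient of its potential
-/

open scoped ContDiff Topology
open ComplexConjugate Filter

namespace Vale.BDU

/-- A second derivative along a curve through `p`. -/
lemma fderiv2_shift {V : Type*} [NormedAddCommGroup V] [NormedSpace ℝ V] {f : V → ℝ} {U : Set V}
    (hU : IsOpen U) {p : V} (hp : p ∈ U) (hf : ContDiffOn ℝ 2 f U) (w : V) {φ' : ℝ → ℝ} {φ'' : ℝ}
    (h1 : ∀ᶠ t in 𝓝 (0 : ℝ), HasDerivAt (fun t : ℝ => f (p + t • w)) (φ' t) t)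
    (h2 : HasDerivAt φ' φ'' 0) :
    fderiv ℝ (fderiv ℝ f) p w w = φ'' := by
  have h := fderiv2_line (f := fun y => f (p + y)) (U := (fun y => p + y) ⁻¹' U)
    (hU.preimage (continuous_const.add continuous_id)) (by simpa using hp)
    (hf.comp (contDiff_const.add contDiff_id).contDiffOn (Set.mapsTo_preimage _ _)) w h1 h2
  have e1 : fderiv ℝ (fun y => f (p + y)) = fun y => fderiv ℝ f (p + y) :=
    funext fun y => fderiv_comp_add_left p
  rw [e1, fderiv_comp_add_left, add_zero] at h
  exact h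

/-- Nonnegativity of the Levi form, transported from recentred functions. -/
lemma leviQ_nonneg_of_pullback {ψ : V2 → ℝ} (hψ : ContDiffOn ℝ ∞ ψ ball2)
    (h : ∀ a ∈ ball2, ∀ v, 0 ≤ leviQ (fun z => ψ (ballMap a z)) 0 v) {a : V2} (ha : a ∈ ball2)
    (v : V2) : 0 ≤ leviQ ψ a v := by
  set f : V2 → ℝ := fun z => ψ (ballMap a z)
  have hfC : ContDiffOn ℝ ∞ f ball2 := hψ.comp
    ((contDiffOn_ballMap a).mono fun _ hz => norm_mul_norm_lt ha (mem_ball_zero_iff.1 hz).le)
    fun _ hz => ballMap_mem ha hz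
  have hf2 : ContDiffOn ℝ 2 f ball2 := hfC.of_le (WithTop.coe_le_coe.2 le_top)
  set S : Set ℂ := {s | a + s • v ∈ ball2} with hSd
  have hS : IsOpen S := Metric.isOpen_ball.preimage
    (continuous_const.add (continuous_id.smul continuous_const))
  have hS0 : (0 : ℂ) ∈ S := by simpa [S] using ha
  set h' : ℂ → V2 := fun s => ballMap a (a + s • v)
  have hh : DifferentiableOn ℂ h' S := (differentiableOn_ballMap_ball ha).comp
    (((differentiable_id.smul_const v).const_add a).differentiableOn) fun _ hs => hs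
  have hmem : ∀ s ∈ S, h' s ∈ ball2 := fun s hs => ballMap_mem ha hs
  have hh0 : h' 0 = 0 := by
    simp only [h', zero_smul, add_zero]
    have := ballMap_ballMap ha (z := 0) (by simp)
    rwa [ballMap_zero] at this
  have key : ∀ c : ℂ, fderiv ℝ (fderiv ℝ ψ) a (c • v) (c • v) =
      fderiv ℝ (fderiv ℝ f) 0 (c • deriv h' 0) (c • deriv h' 0)
        + fderiv ℝ f 0 (c • c • deriv (deriv h') 0) := by
    intro c
    have hcont : Continuous fun t : ℝ => (t : ℂ) * c := Complex.continuous_ofReal.mul continuous_const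
    have hnear : ∀ᶠ t : ℝ in 𝓝 0, (t : ℂ) * c ∈ S :=
      hcont.continuousAt.preimage_mem_nhds (hS.mem_nhds (by simpa using hS0))
    have hcurve : ∀ {g : ℂ → V2} (t : ℝ), DifferentiableAt ℂ g ((t : ℂ) * c) →
        HasDerivAt (fun t : ℝ => g ((t : ℂ) * c)) (c • deriv g ((t : ℂ) * c)) t := fun {g} t hg => by
      have h1 : HasDerivAt (fun s : ℂ => g (s * c)) (c • deriv g ((t : ℂ) * c)) (t : ℂ) := by
        simpa [Function.comp_def] using
          hg.hasDerivAt.scomp (t : ℂ) ((hasDerivAt_id (t : ℂ)).mul_const c)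
      simpa [Function.comp_def] using h1.scomp t Complex.ofRealCLM.hasDerivAt
    refine fderiv2_shift Metric.isOpen_ball ha (hψ.of_le (WithTop.coe_le_coe.2 le_top)) (c • v)
      (φ' := fun t => fderiv ℝ f (h' ((t : ℂ) * c)) (c • deriv h' ((t : ℂ) * c))) ?_ ?_
    · filter_upwards [hnear, hnear.eventually_nhds] with t ht hev
      have hd : DifferentiableAt ℝ f (h' ((t : ℂ) * c)) :=
        (hfC.contDiffAt (Metric.isOpen_ball.mem_nhds (hmem _ ht))).differentiableAt (by simp)
      refine (hd.hasFDerivAt.comp_hasDerivAt t (hcurve t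
        ((hh.differentiableAt (hS.mem_nhds ht))))).congr_of_eventuallyEq ?_
      filter_upwards [hev] with u hu
      have e : a + u • c • v = a + ((u : ℂ) * c) • v := by rw [mul_smul, Complex.coe_smul]
      simp only [Function.comp, f, h', e]
      rw [ballMap_ballMap ha (mem_ball_zero_iff.1 hu).le]
    · have hd2 : HasFDerivAt (fderiv ℝ f) (fderiv ℝ (fderiv ℝ f) 0) (h' (((0 : ℝ) : ℂ) * c)) := by
        rw [Complex.ofReal_zero, zero_mul, hh0]
        exact (((hf2.fderiv_of_isOpen (m := 1) Metric.isOpen_ball (by norm_num)).differentiableOn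
          one_ne_zero).differentiableAt
          (Metric.isOpen_ball.mem_nhds (Metric.mem_ball_self one_pos))).hasFDerivAt
      have hz : ((0 : ℝ) : ℂ) * c ∈ S := by simpa using hS0
      have d1 := hd2.comp_hasDerivAt (0 : ℝ) (hcurve 0 (hh.differentiableAt (hS.mem_nhds hz)))
      have d2 := (hcurve 0 ((hh.deriv hS).differentiableAt (hS.mem_nhds hz))).const_smul c
      refine (d1.clm_apply d2).congr_deriv ?_
      simp [hh0]
  have h1 := key 1
  rw [one_smul, one_smul, one_smul, one_smul] at h1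
  have h2 : Complex.I • Complex.I • deriv (deriv h') 0 = -deriv (deriv h') 0 := by
    rw [smul_smul, Complex.I_mul_I, neg_one_smul]
  have hnn := h a ha (deriv h' 0)
  simp only [leviQ] at hnn ⊢
  rw [h1, key Complex.I, h2, map_neg]
  linarith

/-- The second derivative of a function of the base coordinates. -/
lemma fderiv2_base {φ : V2 → ℝ} (hφ : ContDiffOn ℝ ∞ φ ball2) {r : C3} (hr : r ∈ cyl) (A : C3) :
    fderiv ℝ (fderiv ℝ fun s => φ (zc s)) r A A
      = fderiv ℝ (fderiv ℝ φ) (zc r) (zc A) (zc A) := by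
  have hz : zc r ∈ ball2 := mem_ball_zero_iff.2 ((mem_cyl_iff r).1 hr)
  have hd2 : HasFDerivAt (fderiv ℝ φ) (fderiv ℝ (fderiv ℝ φ) (zc r))
      (zc r + (0 : ℝ) • zc A) := by
    rw [zero_smul, add_zero]
    exact (((hφ.fderiv_of_isOpen (m := 1) Metric.isOpen_ball
      (WithTop.coe_le_coe.2 le_top)).differentiableOn one_ne_zero).differentiableAt
      (Metric.isOpen_ball.mem_nhds hz)).hasFDerivAt
  have hlin : ∀ t : ℝ, HasDerivAt (fun t : ℝ => zc r + t • zc A) (zc A) t := fun t => by
    simpa using ((hasDerivAt_id t).smul_const (zc A)).const_add (zc r)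
  have hnear : ∀ᶠ t : ℝ in 𝓝 0, zc r + t • zc A ∈ ball2 :=
    (hlin 0).continuousAt.preimage_mem_nhds (Metric.isOpen_ball.mem_nhds (by simpa using hz))
  have hzc : ∀ u : ℝ, zc r + u • zc A = zc (r + u • A) := fun u => by
    rw [← zcL_apply, ← zcL_apply, ← zcL_apply, map_add, ← Complex.coe_smul u A, map_smul,
      Complex.coe_smul]
  refine fderiv2_shift isOpen_cyl hr ((contDiffOn_base hφ).of_le (WithTop.coe_le_coe.2 le_top)) A
    (φ' := fun t => fderiv ℝ φ (zc r + t • zc A) (zc A)) ?_ ?_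
  · filter_upwards [hnear] with t ht
    have hd : DifferentiableAt ℝ φ (zc r + t • zc A) :=
      (hφ.contDiffAt (Metric.isOpen_ball.mem_nhds ht)).differentiableAt (by simp)
    refine (hd.hasFDerivAt.comp_hasDerivAt t (hlin t)).congr_of_eventuallyEq
      (.of_forall fun u => ?_)
    simp only [Function.comp, hzc]
  · have d1 : HasDerivAt (fun t : ℝ => fderiv ℝ φ (zc r + t • zc A))
        (fderiv ℝ (fderiv ℝ φ) (zc r) (zc A)) 0 :=
      HasFDerivAt.comp_hasDerivAt (l := fderiv ℝ φ) (f := fun t : ℝ => zc r + t • zc A)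
        (f' := zc A) (0 : ℝ) hd2 (hlin 0)
    exact (ContinuousLinearMap.apply ℝ ℝ (zc A)).hasFDerivAt.comp_hasDerivAt (0 : ℝ) d1

/-- A twist with the hypotheses has nonnegative Levi form on the cylinder. -/
lemma levi_nonneg_of_goodTwist {ψ : V2 → ℝ} (hψ : GoodTwist ψ) :
    ∀ r ∈ cyl, ∀ X, 0 ≤ (herm (fun s => ψ (zc s)) X X r).re := by
  intro r hr X
  have hz : zc r ∈ ball2 := mem_ball_zero_iff.2 ((mem_cyl_iff r).1 hr)
  have hΨ := contDiffOn_base hψ.1
  have key := fderiv2_base hψ.1 hr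
  have hI : zc (Complex.I • X) = Complex.I • zc X := map_smul zcL _ _
  rw [herm_re isOpen_cyl hΨ hr, metricOf_apply, key, key, hI]
  have hl : 0 ≤ leviQ ψ (zc r) (zc X) := leviQ_nonneg_of_pullback hψ.1
    (fun a ha v => (mul_nonneg (by norm_num) (sq_nonneg ‖v‖)).trans (hψ.2.1 a ha v)) hz _
  simp only [leviQ] at hl
  linarith

variable {φ : V2 → ℝ} {b : ℝ}

/-- The fibre weight as a real number. -/
lemma weights_real (Ψ : C3 → ℝ) (q : C3) :
    kf Ψ q = ((Real.exp (Ψ q) / (1 - fibT Ψ q) : ℝ) : ℂ) ∧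
      uf Ψ q = ((fibT Ψ q / (1 - fibT Ψ q) : ℝ) : ℂ) := by
  have hk : kf Ψ q = ((Real.exp (Ψ q) / (1 - fibT Ψ q) : ℝ) : ℂ) := by
    simp [kf, cplx, div_eq_mul_inv]
  refine ⟨hk, ?_⟩
  rw [uf, hk, Complex.mul_conj]
  simp only [fibT]
  push_cast
  ring

/-- The model form on a diagonal vector. -/
lemma metricOf_model (hφ : ContDiffOn ℝ ∞ φ ball2) (b : ℝ) {q : C3}
    (hq : q ∈ modelDom fun r => φ (zc r)) (X : C3) :
    metricOf (modelPot b fun r => φ (zc r)) q X X =
      (Complex.normSq (X 0) + Complex.normSq (X 1)) / (1 - baseSq q)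
        + Complex.normSq (dot2 X q) / (1 - baseSq q) ^ 2
        + b * (fibT (fun r => φ (zc r)) q / (1 - fibT (fun r => φ (zc r)) q)
            * (herm (fun r => φ (zc r)) X X q).re
          + Real.exp (φ (zc q)) / (1 - fibT (fun r => φ (zc r)) q)
            * (1 + fibT (fun r => φ (zc r)) q / (1 - fibT (fun r => φ (zc r)) q))
            * Complex.normSq (theta (fun r => φ (zc r)) q X)) := by
  have hΨ := contDiffOn_base hφ
  have hM := isOpen_modelDom hΨ
  rw [← herm_re hM (contDiffOn_modelPot hΨ b) hq,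
    show modelPot b (fun r => φ (zc r)) = fun r => ballPot r + b * fibPot (fun s => φ (zc s)) r
      from rfl,
    herm_add_mul hM (contDiffOn_ballPot.mono (modelDom_subset _)) (contDiffOn_fibPot hΨ) b X X hq]
  simp only [ballPot_herm hq.1, fibPot_herm hΨ hq, cf, (weights_real _ q).1, (weights_real _ q).2]
  have e1 : dot2 X X = ((Complex.normSq (X 0) + Complex.normSq (X 1) : ℝ) : ℂ) := by
    simp [dot2, Complex.mul_conj]
  have e2 : dot2 q X * dot2 X q = ((Complex.normSq (dot2 X q) : ℝ) : ℂ) := by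
    rw [← Complex.mul_conj, mul_comm]
    simp [dot2, mul_comm]
  rw [e1, e2, ← Complex.ofReal_one, ← Complex.ofReal_add]
  simp only [mul_assoc, Complex.mul_conj]
  simp only [← Complex.ofReal_mul, Complex.add_re, Complex.ofReal_re, Complex.re_ofReal_mul]
  ring

/-- The model form is positive when the twist has nonnegative Levi form. -/
theorem posOn_modelPot (hb : 0 < b) (hφ : ContDiffOn ℝ ∞ φ ball2)
    (hlevi : ∀ r ∈ cyl, ∀ X, 0 ≤ (herm (fun s => φ (zc s)) X X r).re) :
    PosOn (modelPot b fun r => φ (zc r)) (modelDom fun r => φ (zc r)) := by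
  intro q hq v hv
  rw [metricOf_model hφ b hq]
  have hs : 0 < 1 - baseSq q := sub_pos.2 hq.1
  set t := fibT (fun r => φ (zc r)) q
  have ht : 0 < 1 - t := sub_pos.2 hq.2
  have ht0 : 0 ≤ t := mul_nonneg (Complex.normSq_nonneg _) (Real.exp_pos _).le
  have h3 : 0 ≤ b * (t / (1 - t) * (herm (fun r => φ (zc r)) v v q).re
      + Real.exp (φ (zc q)) / (1 - t) * (1 + t / (1 - t))
        * Complex.normSq (theta (fun r => φ (zc r)) q v)) := by
    have := hlevi q hq.1 v
    have := Complex.normSq_nonneg (theta (fun r => φ (zc r)) q v)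
    positivity
  have h2 : 0 ≤ Complex.normSq (dot2 v q) / (1 - baseSq q) ^ 2 :=
    div_nonneg (Complex.normSq_nonneg _) (sq_nonneg _)
  by_cases h01 : v 0 = 0 ∧ v 1 = 0
  · have hv2 : v 2 ≠ 0 := fun h => hv (by
      funext i
      fin_cases i <;> simp [h01.1, h01.2, h])
    have hth : theta (fun r => φ (zc r)) q v = v 2 := by
      have e : v = v 2 • ev 2 := by
        conv_lhs => rw [ev_decomp v, h01.1, h01.2]
        simp
      simp only [theta]
      conv_lhs => arg 2; rw [e, pd_smul, pd_base_vert hφ hq.1]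
      simp
    have hh := hlevi q hq.1 v
    have hpos := Complex.normSq_pos.2 hv2
    rw [hth]
    have hk : 0 < b * (Real.exp (φ (zc q)) / (1 - t) * (1 + t / (1 - t))
        * Complex.normSq (v 2)) := by positivity
    have hu : 0 ≤ b * (t / (1 - t) * (herm (fun r => φ (zc r)) v v q).re) := by positivity
    simp [h01.1, h01.2] at *
    linarith
  · have h1 : 0 < Complex.normSq (v 0) + Complex.normSq (v 1) := by
      rcases not_and_or.1 h01 with h | h <;>
        linarith [Complex.normSq_pos.2 h, Complex.normSq_nonneg (v 0), Complex.normSq_nonneg (v 1)]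
    linarith [div_pos h1 hs]

/-- The potential has bounded gradient. -/
theorem fderiv_modelPot_le (hb : 0 < b) (hφ : ContDiffOn ℝ ∞ φ ball2)
    (hlevi : ∀ r ∈ cyl, ∀ X, 0 ≤ (herm (fun s => φ (zc s)) X X r).re) :
    ∃ K, ∀ p ∈ modelDom fun r => φ (zc r), ∀ v,
      |fderiv ℝ (modelPot b fun r => φ (zc r)) p v| ≤
        K * Real.sqrt (metricOf (modelPot b fun r => φ (zc r)) p v v) := by
  refine ⟨2 * (1 + Real.sqrt b), fun p hp v => ?_⟩
  set Ψ : C3 → ℝ := fun r => φ (zc r)
  have hΨ : ContDiffOn ℝ ∞ Ψ cyl := contDiffOn_base hφ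
  have hM := isOpen_modelDom hΨ
  have hP := contDiffOn_modelPot hΨ b
  have hd : DifferentiableAt ℝ (modelPot b Ψ) p :=
    (hP.contDiffAt (hM.mem_nhds hp)).differentiableAt (by simp)
  have e1 : fderiv ℝ (modelPot b Ψ) p v = 2 * (pb v (cplx (modelPot b Ψ)) p).re := by
    have h : fderiv ℝ (cplx (modelPot b Ψ)) p = Complex.ofRealCLM.comp (fderiv ℝ (modelPot b Ψ) p) :=
      (Complex.ofRealCLM.hasFDerivAt.comp p hd.hasFDerivAt).fderiv
    simp [pb, h]
  have e2 : pb v (cplx (modelPot b Ψ)) p = ((1 / (1 - baseSq p) : ℝ) : ℂ) * dot2 p v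
      + (b : ℂ) * (kf Ψ p * p 2 * conj (theta Ψ p v)) := by
    have e : cplx (modelPot b Ψ) = fun r => cplx ballPot r + (b : ℂ) * cplx (fibPot Ψ) r := by
      funext r
      simp [cplx, modelPot]
    rw [e, ((hw_self (differentiableAt_of_contDiffOn hM
      (contDiffOn_cplx (contDiffOn_ballPot.mono (modelDom_subset _))) hp)).add
        ((hw_self (differentiableAt_of_contDiffOn hM (contDiffOn_cplx (contDiffOn_fibPot hΨ))
          hp)).const_mul b)).pb_eq v, ballPot_pb hp.1, fibPot_pb hΨ hp]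
  have hg := metricOf_model hφ b hp v
  set t := fibT Ψ p
  set θ := Complex.normSq (theta Ψ p v)
  set k := Real.exp (φ (zc p)) / (1 - t)
  set G := metricOf (modelPot b Ψ) p v v
  have hs : 0 < 1 - baseSq p := sub_pos.2 hp.1
  have ht : 0 < 1 - t := sub_pos.2 hp.2
  have ht0 : 0 ≤ t := mul_nonneg (Complex.normSq_nonneg _) (Real.exp_pos _).le
  have hθ : 0 ≤ θ := Complex.normSq_nonneg _
  have hk : 0 ≤ k := by positivity
  have hh := hlevi p hp.1 v
  have ha : 0 ≤ (Complex.normSq (v 0) + Complex.normSq (v 1)) / (1 - baseSq p) :=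
    div_nonneg (add_nonneg (Complex.normSq_nonneg _) (Complex.normSq_nonneg _)) hs.le
  have hb' : 0 ≤ Complex.normSq (dot2 v p) / (1 - baseSq p) ^ 2 :=
    div_nonneg (Complex.normSq_nonneg _) (sq_nonneg _)
  have hc : 0 ≤ b * (t / (1 - t) * (herm Ψ v v p).re) := by positivity
  have hd' : 0 ≤ b * (k * (1 + t / (1 - t)) * θ) := by positivity
  have hbase : ‖((1 / (1 - baseSq p) : ℝ) : ℂ) * dot2 p v‖ ≤ Real.sqrt G := by
    refine Real.le_sqrt_of_sq_le ?_
    have e : dot2 p v = conj (dot2 v p) := by simp [dot2, mul_comm]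
    rw [e, norm_mul, mul_pow, Complex.norm_conj, Complex.sq_norm (dot2 v p), Complex.norm_real,
      Real.norm_eq_abs, sq_abs, hg, div_pow, one_pow, div_mul_eq_mul_div, one_mul]
    linarith
  have hfib : ‖(b : ℂ) * (kf Ψ p * p 2 * conj (theta Ψ p v))‖ ≤ Real.sqrt b * Real.sqrt G := by
    rw [← Real.sqrt_mul hb.le]
    refine Real.le_sqrt_of_sq_le ?_
    have ek : k * Complex.normSq (p 2) = t / (1 - t) := by
      simp only [k, t, fibT, Ψ]
      ring
    rw [(weights_real Ψ p).1]
    simp only [norm_mul, mul_pow, Complex.norm_conj, Complex.norm_real, Real.norm_eq_abs, sq_abs,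
      Complex.sq_norm, hg]
    calc b ^ 2 * (k ^ 2 * Complex.normSq (p 2) * θ)
        = b * (b * (k * (k * Complex.normSq (p 2)) * θ)) := by ring
      _ ≤ b * (b * (k * (1 + t / (1 - t)) * θ)) := by
          rw [ek]
          gcongr
          linarith
      _ ≤ _ := by
          refine mul_le_mul_of_nonneg_left ?_ hb.le
          linarith
  rw [e1, e2, abs_mul, abs_two]
  refine (mul_le_mul_of_nonneg_left ((Complex.abs_re_le_norm _).trans
    ((norm_add_le _ _).trans (add_le_add hbase hfib))) zero_le_two).trans (le_of_eq ?_)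
  ring

end Vale.BDU
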