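import Vale.Agent.BDU.Domain

/-!
# P250: a biholomorphism of the Hartogs domain with a bounded domain gives a zero-free function

The Jacobian on the zero section is holomorphic (Cauchy formula under the integral sign) and is
bounded by Cauchy's estimates.
-/

open scoped ContDiff Real
open Set Filter Topology MeasureTheory Metric Complex

namespace Vale.BDU

variable {M : Set C3} {G : C3 → C3} {R : ℝ}

/-- Cauchy's estimate along a complex line. -/
lemma norm_fderiv_apply_le (hM : IsOpen M) (hG : DifferentiableOn ℂ G M)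
    (hR : ∀ p ∈ M, ‖G p‖ ≤ R) {y u : C3} {r : ℝ} (hr : 0 < r)
    (hmem : ∀ t : ℂ, ‖t‖ ≤ r → y + t • u ∈ M) : ‖fderiv ℂ G y u‖ ≤ R / r := by
  have hy : y ∈ M := by simpa using hmem 0 (by simpa using hr.le)
  have hline : ∀ t : ℂ, HasDerivAt (fun t : ℂ => y + t • u) u t := fun t => by
    simpa using ((hasDerivAt_id t).smul_const u).const_add y
  have hd : DifferentiableOn ℂ (fun t : ℂ => G (y + t • u)) (closedBall 0 r) :=
    hG.comp (fun t _ => (hline t).differentiableAt.differentiableWithinAt) fun t ht =>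
      hmem t (mem_closedBall_zero_iff.1 ht)
  have h0 : HasDerivAt (fun t : ℂ => G (y + t • u)) (fderiv ℂ G y u) 0 := by
    have := (hG.differentiableAt (hM.mem_nhds (by simpa using hy : y + (0 : ℂ) • u ∈ M))).hasFDerivAt
      |>.comp_hasDerivAt (0 : ℂ) (hline 0)
    simpa [Function.comp_def] using this
  rw [← h0.deriv]
  exact norm_deriv_le_of_forall_mem_sphere_norm_le hr
    (hd.diffContOnCl_ball subset_rfl) fun t ht =>
      hR _ (hmem t (mem_sphere_zero_iff_norm.1 ht).le)

/-- The derivative of a bounded holomorphic map in a fixed direction is holomorphic. -/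
theorem differentiableOn_fderiv_apply (hM : IsOpen M) (hG : DifferentiableOn ℂ G M)
    (hR : ∀ p ∈ M, ‖G p‖ ≤ R) (v : C3) : DifferentiableOn ℂ (fun p => fderiv ℂ G p v) M := by
  intro p₀ hp₀
  obtain ⟨ρ, hρ, hρM⟩ := nhds_basis_closedBall.mem_iff.1 (hM.mem_nhds hp₀)
  set r := ρ / (8 * (‖v‖ + 1))
  have hr : 0 < r := by positivity
  have hrv : r * ‖v‖ ≤ ρ / 8 := by
    rw [div_mul_eq_mul_div, div_le_div_iff₀ (by positivity) (by norm_num)]
    nlinarith [norm_nonneg v]
  set s := ball p₀ (ρ / 4)
  have hin : ∀ x ∈ s, ∀ t : ℂ, ‖t‖ ≤ r → x + t • v ∈ closedBall p₀ (ρ / 2) := by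
    intro x hx t ht
    have h1 : ‖t • v‖ ≤ r * ‖v‖ := by rw [norm_smul]; gcongr
    have h2 : ‖x - p₀‖ < ρ / 4 := mem_ball_iff_norm.1 hx
    rw [mem_closedBall_iff_norm, show x + t • v - p₀ = x - p₀ + t • v by abel]
    linarith [norm_add_le (x - p₀) (t • v)]
  have hsub : closedBall p₀ (ρ / 2) ⊆ M :=
    (closedBall_subset_closedBall (by linarith)).trans hρM
  have hbound : ∀ y ∈ closedBall p₀ (ρ / 2), ‖fderiv ℂ G y‖ ≤ R * 4 / ρ := by
    intro y hy
    have hR0 : 0 ≤ R := (norm_nonneg _).trans (hR p₀ hp₀)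
    refine ContinuousLinearMap.opNorm_le_bound _ (by positivity) fun u => ?_
    rcases eq_or_ne u 0 with rfl | hu
    · simp
    have hu' := norm_pos_iff.2 hu
    refine (norm_fderiv_apply_le hM hG hR (r := ρ / 4 / ‖u‖) (by positivity) fun t ht => hρM ?_).trans
      (le_of_eq (by field_simp))
    rw [le_div_iff₀ hu'] at ht
    rw [mem_closedBall_iff_norm, show y + t • u - p₀ = y - p₀ + t • u by abel]
    have := mem_closedBall_iff_norm.1 hy
    linarith [norm_add_le (y - p₀) (t • u), norm_smul t u]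
  set c : ℝ → ℂ := circleMap 0 r
  set k : ℝ → ℂ := fun θ => (2 * π * I : ℂ)⁻¹ * (c θ * I * ((c θ) ^ 2)⁻¹)
  have hcn : ∀ θ, ‖c θ‖ = r := fun θ => by simp [c, abs_of_pos hr]
  have hc : Continuous c := continuous_circleMap 0 r
  have hk : Continuous k := continuous_const.mul ((hc.mul continuous_const).mul
    ((hc.pow 2).inv₀ fun θ => pow_ne_zero 2 fun h => by
      have := hcn θ; rw [h, norm_zero] at this; linarith))
  have hpath : ∀ x : C3, Continuous fun θ => x + c θ • v := fun x => continuous_const.add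
    (hc.smul continuous_const)
  have hFc : ∀ x ∈ s, Continuous fun θ => k θ • G (x + c θ • v) := fun x hx =>
    hk.smul (hG.continuousOn.comp_continuous (hpath x) fun θ => hsub (hin x hx _ (hcn θ).le))
  have hs : s ∈ 𝓝 p₀ := ball_mem_nhds p₀ (by positivity)
  have hmain := intervalIntegral.hasFDerivAt_integral_of_dominated_of_fderiv_le (𝕜 := ℂ)
    (μ := volume) (a := 0) (b := 2 * π) (bound := fun θ => ‖k θ‖ * (R * 4 / ρ))
    (F := fun x θ => k θ • G (x + c θ • v))
    (F' := fun x θ => k θ • fderiv ℂ G (x + c θ • v)) hs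
    (eventually_of_mem hs fun x hx => (hFc x hx).aestronglyMeasurable)
    ((hFc p₀ (mem_ball_self (by positivity))).intervalIntegrable _ _)
    (hk.aestronglyMeasurable.smul
      ((measurable_fderiv ℂ G).comp (hpath p₀).measurable).aestronglyMeasurable)
    (Eventually.of_forall fun θ _ x hx => by
      rw [norm_smul]
      exact mul_le_mul_of_nonneg_left (hbound _ (hin x hx _ (hcn θ).le)) (norm_nonneg _))
    ((hk.norm.mul continuous_const).intervalIntegrable _ _)
    (Eventually.of_forall fun θ _ x hx => by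
      have h := (hG.differentiableAt (hM.mem_nhds (hsub (hin x hx _ (hcn θ).le)))).hasFDerivAt
      have := (h.comp x ((hasFDerivAt_id x).add_const (c θ • v))).const_smul (k θ)
      simpa [Function.comp_def] using this)
  have heq : ∀ x ∈ s, fderiv ℂ G x v = ∫ θ in (0 : ℝ)..2 * π, k θ • G (x + c θ • v) := by
    intro x hx
    have hline : ∀ t : ℂ, HasDerivAt (fun t : ℂ => x + t • v) v t := fun t => by
      simpa using ((hasDerivAt_id t).smul_const v).const_add x
    have hU : IsOpen ((fun t : ℂ => x + t • v) ⁻¹' M) :=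
      hM.preimage (by fun_prop)
    have hd : DifferentiableOn ℂ (fun t : ℂ => G (x + t • v)) ((fun t : ℂ => x + t • v) ⁻¹' M) :=
      hG.comp (fun t _ => (hline t).differentiableAt.differentiableWithinAt) fun t ht => ht
    have hcb : closedBall (0 : ℂ) r ⊆ (fun t : ℂ => x + t • v) ⁻¹' M := fun t ht =>
      hsub (hin x hx t (mem_closedBall_zero_iff.1 ht))
    have hxM : x + (0 : ℂ) • v ∈ M := hsub (hin x hx 0 (by simpa using hr.le))
    have h0 : HasDerivAt (fun t : ℂ => G (x + t • v)) (fderiv ℂ G x v) 0 := by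
      have := (hG.differentiableAt (hM.mem_nhds hxM)).hasFDerivAt.comp_hasDerivAt (0 : ℂ) (hline 0)
      simpa [Function.comp_def] using this
    rw [← h0.deriv, ← two_pi_I_inv_smul_circleIntegral_sub_sq_inv_smul_of_differentiable hU hcb hd
      (mem_ball_self hr), circleIntegral, ← intervalIntegral.integral_smul]
    refine intervalIntegral.integral_congr fun θ _ => ?_
    simp only [deriv_circleMap, sub_zero, smul_smul, k, c]
  exact ((hmain.congr_of_eventuallyEq
    (eventually_of_mem hs heq)).differentiableAt).differentiableWithinAt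

/-- The inclusion of the zero section. -/
noncomputable def zeroSection : V2 →L[ℂ] C3 :=
  LinearMap.toContinuousLinearMap
    { toFun := fun z => ![z 0, z 1, 0]
      map_add' := fun z z' => by ext i; fin_cases i <;> simp
      map_smul' := fun a z => by ext i; fin_cases i <;> simp }

lemma zeroSection_eq (z : V2) : zeroSection z = lift3 z 0 := rfl

/-- The Jacobian of `G` on the zero section. -/
noncomputable def jacobian (G : C3 → C3) (z : V2) : ℂ :=
  (Matrix.of fun i j : Fin 3 => fderiv ℂ G (zeroSection z) (Pi.single j 1) i).det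

theorem exists_zeroFree_of_biholomorphic {ψ : V2 → ℝ} (hψ : ContinuousOn ψ ball2)
    (h : BiholomorphicToBoundedDomain (hartogs ψ)) :
    ∃ (g : V2 → ℂ) (C : ℝ), DifferentiableOn ℂ g ball2 ∧ (∀ z ∈ ball2, g z ≠ 0) ∧
      ∀ z ∈ ball2, Real.log ‖g z‖ ≤ ψ z / 2 + 2 * (-Real.log (1 - ‖z‖)) + C := by
  obtain ⟨U, G, H, hU, hUb, hG, hH, hGU, hHM, hinv⟩ := h
  have hM := isOpen_hartogs hψ
  obtain ⟨R₀, hR₀⟩ := hUb.exists_norm_le
  set R := max R₀ 1
  have hR1 : 1 ≤ R := le_max_right _ _
  have hR : ∀ p ∈ hartogs ψ, ‖G p‖ ≤ R := fun p hp => (hR₀ _ (hGU hp)).trans (le_max_left _ _)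
  have hmem : ∀ z ∈ ball2, zeroSection z ∈ hartogs ψ := fun z hz =>
    ⟨by rw [zeroSection_eq, zc_lift3]; exact mem_ball2.1 hz,
      by simp [zeroSection_eq, lift3_two]⟩
  have hne : ∀ z ∈ ball2, jacobian G z ≠ 0 := by
    intro z hz
    set p := zeroSection z
    have hp : p ∈ hartogs ψ := hmem z hz
    have h1 := (hG.differentiableAt (hM.mem_nhds hp)).hasFDerivAt
    have h2 := (hH.differentiableAt (hU.mem_nhds (hGU hp))).hasFDerivAt
    have h3 : (fderiv ℂ H (G p)).comp (fderiv ℂ G p) = ContinuousLinearMap.id ℂ C3 :=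
      (h2.comp p h1).unique ((hasFDerivAt_id p).congr_of_eventuallyEq
        (eventually_of_mem (hM.mem_nhds hp) fun q hq => hinv.1 hq))
    have h4 : LinearMap.det (fderiv ℂ H (G p)).toLinearMap *
        LinearMap.det (fderiv ℂ G p).toLinearMap = 1 := by
      rw [← LinearMap.det_comp]
      change LinearMap.det ((fderiv ℂ H (G p)).comp (fderiv ℂ G p)).toLinearMap = 1
      rw [h3]; simp
    have h5 : jacobian G z = LinearMap.det (fderiv ℂ G p).toLinearMap := by
      rw [← LinearMap.det_toMatrix' (fderiv ℂ G p).toLinearMap, jacobian]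
      congr 1
    rw [h5]
    exact right_ne_zero_of_mul_eq_one h4
  have hentry : ∀ i j : Fin 3,
      DifferentiableOn ℂ (fun z => fderiv ℂ G (zeroSection z) (Pi.single j 1) i) ball2 :=
    fun i j => differentiableOn_pi.1
      ((differentiableOn_fderiv_apply hM hG hR (Pi.single j 1)).comp
        zeroSection.differentiable.differentiableOn hmem) i
  refine ⟨jacobian G, Real.log (6 * ((2 * R) * (2 * R) * (2 * R))), ?_, hne, fun z hz => ?_⟩
  · unfold jacobian
    simp only [Matrix.det_fin_three, Matrix.of_apply]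
    fun_prop (disch := assumption)
  have hz1 : 0 < 1 - ‖z‖ := by linarith [mem_ball2.1 hz]
  set a := 1 - ‖z‖
  set e := Real.exp (ψ z / 2)
  have he : 0 < e := Real.exp_pos _
  have hhor : ∀ j : Fin 3, j ≠ 2 → ‖fderiv ℂ G (zeroSection z) (Pi.single j 1)‖ ≤ 2 * R / a := by
    intro j hj
    refine (norm_fderiv_apply_le hM hG hR (r := a / 2) (by positivity) fun t ht => ?_).trans
      (le_of_eq (by field_simp))
    obtain ⟨k, rfl⟩ : ∃ k : Fin 2, k.castSucc = j := by
      revert hj; revert j; decide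
    have e1 : zc (zeroSection z + t • Pi.single k.castSucc 1) = z + EuclideanSpace.single k t := by
      ext i; fin_cases i <;> fin_cases k <;> simp [zc, zeroSection_eq, lift3]
    have e2 : (zeroSection z + t • Pi.single k.castSucc 1 : C3) 2 = 0 := by
      fin_cases k <;> simp [zeroSection_eq, lift3]
    refine ⟨?_, by rw [e2]; simp⟩
    rw [e1]
    have := norm_add_le z (EuclideanSpace.single k t)
    rw [PiLp.norm_single] at this
    simp only [a] at ht ⊢
    linarith
  have hver : ‖fderiv ℂ G (zeroSection z) (Pi.single 2 1)‖ ≤ 2 * R * e := by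
    refine (norm_fderiv_apply_le hM hG hR (r := 1 / (2 * e)) (by positivity) fun t ht => ?_).trans
      (le_of_eq (by field_simp))
    have e1 : zeroSection z + t • Pi.single 2 1 = lift3 z t := by
      ext i; fin_cases i <;> simp [zeroSection_eq, lift3]
    rw [e1]
    refine ⟨by rw [zc_lift3]; exact mem_ball2.1 hz, ?_⟩
    rw [zc_lift3, lift3_two, Complex.normSq_eq_norm_sq]
    have he2 : Real.exp (ψ z) = e ^ 2 := by
      simp only [e, ← Real.exp_nat_mul]; congr 1; push_cast; ring
    rw [he2]
    rw [le_div_iff₀ (by positivity)] at ht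
    nlinarith [mul_nonneg (norm_nonneg t) he.le]
  have hE : ∀ i j : Fin 3, ‖fderiv ℂ G (zeroSection z) (Pi.single j 1) i‖ ≤
      if j = 2 then 2 * R * e else 2 * R / a := by
    intro i j
    refine (norm_le_pi_norm _ i).trans ?_
    split_ifs with hj
    · exact hj ▸ hver
    · exact hhor j hj
  have hdet : ‖jacobian G z‖ ≤ 6 * ((2 * R / a) * (2 * R / a) * (2 * R * e)) := by
    set A := Matrix.of fun i j : Fin 3 => fderiv ℂ G (zeroSection z) (Pi.single j 1) i
    have h3 : ∀ i k l : Fin 3, ‖A i 0 * A k 1 * A l 2‖ ≤ (2*R/a) * (2*R/a) * (2*R*e) := by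
      intro i k l
      rw [norm_mul, norm_mul]
      have := hE i 0; have := hE k 1; have := hE l 2
      simp only [A, Matrix.of_apply, Fin.reduceEq, if_false, if_true] at *
      gcongr
    have : A.det = A 0 0 * A 1 1 * A 2 2 - A 0 0 * A 2 1 * A 1 2 - A 1 0 * A 0 1 * A 2 2
        + A 1 0 * A 2 1 * A 0 2 + A 2 0 * A 0 1 * A 1 2 - A 2 0 * A 1 1 * A 0 2 := by
      rw [Matrix.det_fin_three]; ring
    change ‖A.det‖ ≤ _
    rw [this]
    have t1 := h3 0 1 2; have t2 := h3 0 2 1; have t3 := h3 1 0 2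
    have t4 := h3 1 2 0; have t5 := h3 2 0 1; have t6 := h3 2 1 0
    refine (norm_sub_le _ _).trans ?_
    grw [norm_add_le, norm_add_le, norm_sub_le, norm_sub_le]
    linarith
  have hpos : 0 < ‖jacobian G z‖ := norm_pos_iff.2 (hne z hz)
  refine (Real.log_le_log hpos hdet).trans (le_of_eq ?_)
  rw [show 6 * ((2 * R / a) * (2 * R / a) * (2 * R * e))
      = (6 * ((2 * R) * (2 * R) * (2 * R))) * (e / (a * a)) by field_simp,
    Real.log_mul (by positivity) (by positivity), Real.log_div he.ne' (by positivity),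
    Real.log_mul hz1.ne' hz1.ne', Real.log_exp]
  simp only [a]
  ring

end Vale.BDU
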