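import Vale.Agent.BDU.Calculus

/-!
# P250: naturality of the metric and of the curvature under holomorphic maps
-/

open scoped ContDiff
open ComplexConjugate Filter Topology

namespace Vale.BDU

/-- The standard basis. -/
noncomputable def bas (i : Fin 3) : C3 := Pi.single i 1

lemma sum_bas (X : C3) : X = X 0 • bas 0 + X 1 • bas 1 + X 2 • bas 2 := by
  funext j
  fin_cases j <;> simp [bas]

lemma pd_expand (X : C3) (f : C3 → ℂ) (x : C3) :
    pd X f x = ∑ i, X i * pd (bas i) f x := by
  conv_lhs => rw [sum_bas X]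
  simp only [pd_add, pd_smul, Fin.sum_univ_three]

lemma pb_expand (X : C3) (f : C3 → ℂ) (x : C3) :
    pb X f x = ∑ i, conj (X i) * pb (bas i) f x := by
  conv_lhs => rw [sum_bas X]
  simp only [pb_add, pb_smul, Fin.sum_univ_three]

variable {f : C3 → ℂ} {F : C3 → C3} {q : C3} {a b : C3 → ℂ}

lemma hw_hol (hf : DifferentiableAt ℂ f q) :
    HW f q (fun Z => fderiv ℂ f q Z) (fun _ => 0) := by
  refine ⟨hf.restrictScalars ℝ, fun Z => ?_⟩
  simp only [pd, pb, (hf.hasFDerivAt.restrictScalars ℝ).fderiv,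
    ContinuousLinearMap.coe_restrictScalars', map_smul, smul_eq_mul, ← mul_assoc, Complex.I_mul_I]
  constructor <;> ring

lemma HW.comp_hol (h : HW f (F q) a b) (hF : DifferentiableAt ℂ F q) :
    HW (fun r => f (F r)) q (fun Z => a (fderiv ℂ F q Z)) (fun Z => b (fderiv ℂ F q Z)) := by
  refine ⟨h.1.comp q (hF.restrictScalars ℝ), fun Z => ?_⟩
  have hc := (h.1.hasFDerivAt.comp q (hF.hasFDerivAt.restrictScalars ℝ)).fderiv
  simp only [← h.pd_eq, ← h.pb_eq, pd, pb]
  rw [show fderiv ℝ (fun r => f (F r)) q = _ from hc]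
  simp only [ContinuousLinearMap.comp_apply, ContinuousLinearMap.coe_restrictScalars', map_smul,
    and_self]

/-- A family depending linearly on a vector, evaluated on a holomorphic vector field. -/
lemma hw_left {g : C3 → C3 → ℂ} {A : C3 → C3}
    (hlin : ∀ᶠ r in 𝓝 q, ∀ X, g X r = ∑ i, X i * g (bas i) r)
    (hd : ∀ i, DifferentiableAt ℝ (g (bas i)) q) (hA : DifferentiableAt ℂ A q) :
    HW (fun r => g (A r) r) q (fun Z => g (fderiv ℂ A q Z) q + pd Z (g (A q)) q)
      (fun W => pb W (g (A q)) q) := by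
  have hAi : ∀ i, HW (fun r => A r i) q (fun Z => fderiv ℂ A q Z i) (fun _ => 0) := fun i =>
    (hw_hol ((differentiableAt_pi.1 hA) i)).congr_val
      (fun Z => (fderiv_pi (differentiableAt_pi.1 hA)).symm ▸ rfl) (fun _ => rfl)
  have h1 := ((((hAi 0).mul (hw_self (hd 0))).add ((hAi 1).mul (hw_self (hd 1)))).add
    ((hAi 2).mul (hw_self (hd 2)))).congr_fun (g := fun r => g (A r) r)
    (hlin.mono fun r hr => (hr _).trans (Fin.sum_univ_three _))
  have h2 := ((((hw_const (A q 0)).mul (hw_self (hd 0))).add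
    ((hw_const (A q 1)).mul (hw_self (hd 1)))).add
    ((hw_const (A q 2)).mul (hw_self (hd 2)))).congr_fun (g := g (A q))
    (hlin.mono fun r hr => (hr _).trans (Fin.sum_univ_three _))
  refine h1.congr_val (fun Z => ?_) (fun W => ?_)
  · rw [h2.pd_eq, hlin.self_of_nhds (fderiv ℂ A q Z), Fin.sum_univ_three]
    ring
  · rw [h2.pb_eq]

/-- A family depending antilinearly on a vector, evaluated on a holomorphic vector field. -/
lemma hw_right {g : C3 → C3 → ℂ} {A : C3 → C3}
    (hlin : ∀ᶠ r in 𝓝 q, ∀ X, g X r = ∑ i, conj (X i) * g (bas i) r)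
    (hd : ∀ i, DifferentiableAt ℝ (g (bas i)) q) (hA : DifferentiableAt ℂ A q) :
    HW (fun r => g (A r) r) q (fun Z => pd Z (g (A q)) q)
      (fun W => g (fderiv ℂ A q W) q + pb W (g (A q)) q) := by
  have hAi : ∀ i, HW (fun r => conj (A r i)) q (fun _ => 0)
      (fun W => conj (fderiv ℂ A q W i)) := fun i =>
    ((hw_hol ((differentiableAt_pi.1 hA) i)).congr_val
      (a' := fun Z => fderiv ℂ A q Z i) (b' := fun _ => 0)
      (fun Z => (fderiv_pi (differentiableAt_pi.1 hA)).symm ▸ rfl) (fun _ => rfl)).conj.congr_val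
      (fun _ => map_zero _) (fun _ => rfl)
  have h1 := ((((hAi 0).mul (hw_self (hd 0))).add ((hAi 1).mul (hw_self (hd 1)))).add
    ((hAi 2).mul (hw_self (hd 2)))).congr_fun (g := fun r => g (A r) r)
    (hlin.mono fun r hr => (hr _).trans (Fin.sum_univ_three _))
  have h2 := ((((hw_const (conj (A q 0))).mul (hw_self (hd 0))).add
    ((hw_const (conj (A q 1))).mul (hw_self (hd 1)))).add
    ((hw_const (conj (A q 2))).mul (hw_self (hd 2)))).congr_fun (g := g (A q))
    (hlin.mono fun r hr => (hr _).trans (Fin.sum_univ_three _))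
  refine h1.congr_val (fun Z => ?_) (fun W => ?_)
  · rw [h2.pd_eq]
  · rw [h2.pb_eq, hlin.self_of_nhds (fderiv ℂ A q W), Fin.sum_univ_three]
    ring

variable {M V : Set C3} {P P' : C3 → ℝ}

lemma herm_expand_right (hM : IsOpen M) (hP : ContDiffOn ℝ ∞ P M) {x : C3} (hx : x ∈ M)
    (A B : C3) : herm P A B x = ∑ i, conj (B i) * herm P A (bas i) x := by
  conv_lhs => rw [sum_bas B]
  simp only [herm_add_right hM hP _ _ _ hx, herm_smul_right hM hP _ _ _ hx, Fin.sum_univ_three]

lemma herm_sub_left (A B Y x : C3) : herm P (A - B) Y x = herm P A Y x - herm P B Y x := by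
  have h := pd_add (f := pb Y (cplx P)) (A - B) B x
  rw [sub_add_cancel] at h
  show pd (A - B) _ x = pd A _ x - pd B _ x
  rw [h, add_sub_cancel_right]

lemma herm_add_left (A B Y x : C3) : herm P (A + B) Y x = herm P A Y x + herm P B Y x :=
  pd_add _ _ _

lemma third_expand_right (hM : IsOpen M) (hP : ContDiffOn ℝ ∞ P M) {x : C3} (hx : x ∈ M)
    (Z A B : C3) : third P Z A B x = ∑ i, conj (B i) * third P Z A (bas i) x := by
  conv_lhs => rw [sum_bas B]
  simp only [third_add_right hM hP _ _ _ _ hx, third_smul_right hM hP _ _ _ _ hx,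
    Fin.sum_univ_three]

lemma third_expand_mid (hM : IsOpen M) (hP : ContDiffOn ℝ ∞ P M) {x : C3} (hx : x ∈ M)
    (Z A B : C3) : third P Z A B x = ∑ i, A i * third P Z (bas i) B x := by
  rw [third_comm hM hP Z A B hx, show third P A Z B x = _ from pd_expand A _ x]
  exact Finset.sum_congr rfl fun i _ => congrArg _ (third_comm hM hP (bas i) Z B hx)

lemma differentiableAt_comp_of {g : C3 → ℂ} (hM : IsOpen M) (hg : ContDiffOn ℝ ∞ g M)
    (hF : DifferentiableAt ℂ F q) (hq : F q ∈ M) : DifferentiableAt ℝ (fun r => g (F r)) q :=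
  (differentiableAt_of_contDiffOn hM hg hq).comp q (hF.restrictScalars ℝ)

/-- The derivatives of `r ↦ ∂∂̄P(A(r), B(r))` at `F(r)`. -/
lemma hw_herm_field (hM : IsOpen M) (hP : ContDiffOn ℝ ∞ P M) {A B : C3 → C3}
    (hF : DifferentiableAt ℂ F q) (hq : F q ∈ M)
    (hA : DifferentiableAt ℂ A q) (hB : DifferentiableAt ℂ B q) :
    HW (fun r => herm P (A r) (B r) (F r)) q
      (fun Z => herm P (fderiv ℂ A q Z) (B q) (F q)
        + third P (fderiv ℂ F q Z) (A q) (B q) (F q))
      (fun W => herm P (A q) (fderiv ℂ B q W) (F q)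
        + conj (third P (fderiv ℂ F q W) (B q) (A q) (F q))) := by
  have hev : ∀ᶠ r in 𝓝 q, F r ∈ M := hF.continuousAt.preimage_mem_nhds (hM.mem_nhds hq)
  have hcomp : ∀ X Y, HW (fun r => herm P X Y (F r)) q
      (fun Z => third P (fderiv ℂ F q Z) X Y (F q))
      (fun W => conj (third P (fderiv ℂ F q W) Y X (F q))) := fun X Y =>
    ((hw_self (differentiableAt_of_contDiffOn hM (contDiffOn_herm hM hP X Y) hq)).comp_hol
      hF).congr_val (fun _ => rfl) fun W => (conj_third hM hP _ Y X hq).symm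
  have h1 : ∀ Y, HW (fun r => herm P (A r) Y (F r)) q
      (fun Z => herm P (fderiv ℂ A q Z) Y (F q) + third P (fderiv ℂ F q Z) (A q) Y (F q))
      (fun W => conj (third P (fderiv ℂ F q W) Y (A q) (F q))) := fun Y =>
    (hw_left (g := fun X r => herm P X Y (F r))
      (Eventually.of_forall fun r X => pd_expand X _ _)
      (fun i => (hcomp (bas i) Y).1) hA).congr_val
      (fun Z => by rw [(hcomp (A q) Y).pd_eq]) (fun W => (hcomp (A q) Y).pb_eq W)
  refine (hw_right (g := fun Y r => herm P (A r) Y (F r))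
    (hev.mono fun r hr X => herm_expand_right hM hP hr _ X)
    (fun i => (h1 (bas i)).1) hB).congr_val (fun Z => (h1 (B q)).pd_eq Z)
    (fun W => by rw [(h1 (B q)).pb_eq])

/-- The antiholomorphic derivative of `r ↦ ∂∂∂̄P(C(r), A(r), B(r))` at `F(r)`. -/
lemma pb_third_field (hM : IsOpen M) (hP : ContDiffOn ℝ ∞ P M) {C A B : C3 → C3}
    (hF : DifferentiableAt ℂ F q) (hq : F q ∈ M) (hC : DifferentiableAt ℂ C q)
    (hA : DifferentiableAt ℂ A q) (hB : DifferentiableAt ℂ B q) :
    DifferentiableAt ℝ (fun r => third P (C r) (A r) (B r) (F r)) q ∧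
    ∀ W, pb W (fun r => third P (C r) (A r) (B r) (F r)) q =
      third P (C q) (A q) (fderiv ℂ B q W) (F q)
        + fourth P (C q) (A q) (fderiv ℂ F q W) (B q) (F q) := by
  have hev : ∀ᶠ r in 𝓝 q, F r ∈ M := hF.continuousAt.preimage_mem_nhds (hM.mem_nhds hq)
  have hcomp : ∀ Z X Y, HW (fun r => third P Z X Y (F r)) q
      (fun U => pd (fderiv ℂ F q U) (third P Z X Y) (F q))
      (fun W => fourth P Z X (fderiv ℂ F q W) Y (F q)) := fun Z X Y =>
    (hw_self (differentiableAt_of_contDiffOn hM (contDiffOn_third hM hP Z X Y) hq)).comp_hol hF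
  have h1 : ∀ X Y, HW (fun r => third P (C r) X Y (F r)) q
      (fun U => pd U (fun r => third P (C r) X Y (F r)) q)
      (fun W => fourth P (C q) X (fderiv ℂ F q W) Y (F q)) := fun X Y =>
    have h := hw_left (g := fun Z r => third P Z X Y (F r))
      (Eventually.of_forall fun r Z => pd_expand Z _ _) (fun i => (hcomp (bas i) X Y).1) hC
    (hw_self h.1).congr_val (fun _ => rfl) fun W => (h.pb_eq W).trans ((hcomp _ X Y).pb_eq W)
  have h2 : ∀ Y, HW (fun r => third P (C r) (A r) Y (F r)) q
      (fun U => pd U (fun r => third P (C r) (A r) Y (F r)) q)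
      (fun W => fourth P (C q) (A q) (fderiv ℂ F q W) Y (F q)) := fun Y =>
    have h := hw_left (g := fun X r => third P (C r) X Y (F r))
      (hev.mono fun r hr X => third_expand_mid hM hP hr _ X _) (fun i => (h1 (bas i) Y).1) hA
    (hw_self h.1).congr_val (fun _ => rfl) fun W => (h.pb_eq W).trans ((h1 _ Y).pb_eq W)
  have h3 := hw_right (g := fun Y r => third P (C r) (A r) Y (F r))
    (hev.mono fun r hr Y => third_expand_right hM hP hr _ _ Y) (fun i => (h2 (bas i)).1) hB
  exact ⟨h3.1, fun W => by rw [h3.pb_eq, (h2 (B q)).pb_eq]⟩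

/-- The complex differential applied to a vector, as a vector field. -/
noncomputable def dfield (F : C3 → C3) (X : C3) : C3 → C3 := fun r => fderiv ℂ F r X

section

variable (hM : IsOpen M) (hV : IsOpen V) (hP : ContDiffOn ℝ ∞ P M)
  (hF : ContDiffOn ℂ ∞ F V) (hMF : Set.MapsTo F V M)

include hV hF in
lemma differentiableAt_hol (hq : q ∈ V) : DifferentiableAt ℂ F q :=
  (hF.contDiffAt (hV.mem_nhds hq)).differentiableAt (by simp)

include hV hF in
lemma contDiffOn_dfield (X : C3) : ContDiffOn ℂ ∞ (dfield F X) V :=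
  (hF.fderiv_of_isOpen hV (by simp)).clm_apply contDiffOn_const

include hM hV hP hF hMF in
lemma herm_comp (hq : q ∈ V) (X Y : C3) :
    herm (fun s => P (F s)) X Y q = herm P (dfield F X q) (dfield F Y q) (F q) := by
  have hc := contDiffOn_cplx hP
  have h1 : pb Y (cplx fun s => P (F s)) =ᶠ[𝓝 q]
      fun r => pb (dfield F Y r) (cplx P) (F r) := by
    filter_upwards [hV.mem_nhds hq] with r hr
    exact ((hw_self (differentiableAt_of_contDiffOn hM hc (hMF hr))).comp_hol
      (differentiableAt_hol hV hF hr)).pb_eq Y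
  have hd : ∀ A, DifferentiableAt ℝ (fun r => pb A (cplx P) (F r)) q := fun A =>
    differentiableAt_comp_of hM (contDiffOn_pb hM hc A) (differentiableAt_hol hV hF hq) (hMF hq)
  have h2 := hw_right (g := fun A r => pb A (cplx P) (F r))
    (Eventually.of_forall fun r A => pb_expand A _ _) (fun i => hd (bas i))
    (((contDiffOn_dfield hV hF Y).contDiffAt (hV.mem_nhds hq)).differentiableAt (by simp))
  show pd X (pb Y (cplx fun s => P (F s))) q = _
  rw [pd_congr h1, h2.pd_eq]
  exact (((hw_self (differentiableAt_of_contDiffOn hM (contDiffOn_pb hM hc (dfield F Y q))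
    (hMF hq))).comp_hol (differentiableAt_hol hV hF hq)).pd_eq X)

variable (h' : ∀ r ∈ V, ∀ X Y, herm P' X Y r = herm (fun s => P (F s)) X Y r)

include hM hV hP hF hMF h' in
lemma herm_pullback (hq : q ∈ V) (X Y : C3) :
    herm P' X Y q = herm P (dfield F X q) (dfield F Y q) (F q) :=
  (h' q hq X Y).trans (herm_comp hM hV hP hF hMF hq X Y)

include hM hV hP hF hMF h' in
lemma third_pullback (hq : q ∈ V) (Z X Y : C3) :
    third P' Z X Y q = herm P (fderiv ℂ (dfield F X) q Z) (dfield F Y q) (F q)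
      + third P (dfield F Z q) (dfield F X q) (dfield F Y q) (F q) := by
  have hd : ∀ A, DifferentiableAt ℂ (dfield F A) q := fun A =>
    ((contDiffOn_dfield hV hF A).contDiffAt (hV.mem_nhds hq)).differentiableAt (by simp)
  have h := (hw_herm_field hM hP (differentiableAt_hol hV hF hq) (hMF hq) (hd X) (hd Y)).congr_fun
    (g := herm P' X Y) (eventuallyEq_of_mem (hV.mem_nhds hq)
      fun r hr => herm_pullback hM hV hP hF hMF h' hr X Y)
  exact h.pd_eq Z

include hM hV hP hF hMF h' in
lemma fourth_pullback (hq : q ∈ V) (Z X W Y : C3) :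
    fourth P' Z X W Y q =
      herm P (fderiv ℂ (dfield F X) q Z) (fderiv ℂ (dfield F Y) q W) (F q)
      + conj (third P (dfield F W q) (dfield F Y q) (fderiv ℂ (dfield F X) q Z) (F q))
      + (third P (dfield F Z q) (dfield F X q) (fderiv ℂ (dfield F Y) q W) (F q)
        + fourth P (dfield F Z q) (dfield F X q) (dfield F W q) (dfield F Y q) (F q)) := by
  have hd : ∀ A, DifferentiableAt ℂ (dfield F A) q := fun A =>
    ((contDiffOn_dfield hV hF A).contDiffAt (hV.mem_nhds hq)).differentiableAt (by simp)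
  have hd2 : DifferentiableAt ℂ (dfield (dfield F X) Z) q :=
    ((contDiffOn_dfield hV (contDiffOn_dfield hV hF X) Z).contDiffAt
      (hV.mem_nhds hq)).differentiableAt (by simp)
  have hF' := differentiableAt_hol hV hF hq
  have h1 := hw_herm_field hM hP hF' (hMF hq) hd2 (hd Y)
  obtain ⟨hd3, h3⟩ := pb_third_field hM hP hF' (hMF hq) (hd Z) (hd X) (hd Y)
  have h := (h1.add (hw_self hd3)).congr_fun (g := third P' Z X Y)
    (eventuallyEq_of_mem (hV.mem_nhds hq)
      fun r hr => third_pullback hM hV hP hF hMF h' hr Z X Y)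
  show pb W (third P' Z X Y) q = _
  rw [h.pb_eq, h3]
  rfl

variable (hpos : PosOn P M) (hP' : ContDiffOn ℝ ∞ P' V)

include hM hV hP hF hMF h' hP' in
lemma metricOf_pullback (hq : q ∈ V) (u v : C3) :
    metricOf P' q u v = metricOf P (F q) (fderiv ℂ F q u) (fderiv ℂ F q v) := by
  rw [← herm_re hV hP' hq, ← herm_re hM hP (hMF hq), herm_pullback hM hV hP hF hMF h' hq]
  rfl

include hM hV hP hF hMF h' hP' hpos in
lemma pos_pullback (hq : q ∈ V) (hinj : Function.Injective (fderiv ℂ F q)) (v : C3) (hv : v ≠ 0) :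
    0 < metricOf P' q v v := by
  rw [metricOf_pullback hM hV hP hF hMF h' hP' hq]
  exact hpos _ (hMF hq) _ fun h0 => hv (hinj (h0.trans (map_zero _).symm))

include hM hV hP hF hMF h' hP' hpos in
/-- The curvature is natural. -/
theorem curv_transform (hq : q ∈ V) (hbij : Function.Bijective (fderiv ℂ F q)) (u v : C3) :
    curvNum (metricOf P') (gamma P') q u v =
      curvNum (metricOf P) (gamma P) (F q) (fderiv ℂ F q u) (fderiv ℂ F q v) := by
  set V' := {r | r ∈ V ∧ Function.Injective (fderiv ℂ F r)}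
  have hV' : IsOpen V' :=
    (hF.continuousOn_fderiv_of_isOpen hV (by simp)).isOpen_inter_preimage hV
      ContinuousLinearMap.isOpen_injective
  have hq' : q ∈ V' := ⟨hq, hbij.1⟩
  have hP'' : ContDiffOn ℝ ∞ P' V' := hP'.mono fun r hr => hr.1
  have hpos' : PosOn P' V' := fun r hr =>
    pos_pullback hM hV hP hF hMF h' hpos hP' hr.1 hr.2
  have hG : ∀ Z X, dfield F (gamma P' q Z X) q =
      gamma P (F q) (dfield F Z q) (dfield F X q) + fderiv ℂ (dfield F X) q Z := by
    intro Z X
    obtain ⟨A, hA⟩ := hbij.2 (dfield F (gamma P' q Z X) q -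
      (gamma P (F q) (dfield F Z q) (dfield F X q) + fderiv ℂ (dfield F X) q Z))
    rw [← sub_eq_zero]
    by_contra hne
    have h0 : herm P (dfield F (gamma P' q Z X) q -
        (gamma P (F q) (dfield F Z q) (dfield F X q) + fderiv ℂ (dfield F X) q Z))
        (dfield F A q) (F q) = 0 := by
      rw [herm_sub_left, herm_add_left, herm_gamma hM hP hpos (hMF hq),
        ← herm_pullback hM hV hP hF hMF h' hq, herm_gamma hV' hP'' hpos' hq',
        third_pullback hM hV hP hF hMF h' hq]
      ring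
    rw [show dfield F A q = _ from hA] at h0
    have := hpos _ (hMF hq) _ hne
    rw [← herm_re hM hP (hMF hq), h0] at this
    simp at this
  have hR : ∀ Z X W Y, curvTensor P' q Z X W Y = curvTensor P (F q) (dfield F Z q)
      (dfield F X q) (dfield F W q) (dfield F Y q) := by
    intro Z X W Y
    simp only [curvTensor]
    rw [fourth_pullback hM hV hP hF hMF h' hq, herm_pullback hM hV hP hF hMF h' hq, hG, hG,
      herm_add_left, herm_add_right hM hP _ _ _ (hMF hq), herm_add_right hM hP _ _ _ (hMF hq)]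
    have e : herm P (fderiv ℂ (dfield F X) q Z)
        (gamma P (F q) (dfield F W q) (dfield F Y q)) (F q) =
        conj (third P (dfield F W q) (dfield F Y q) (fderiv ℂ (dfield F X) q Z) (F q)) := by
      rw [← conj_herm hM hP _ _ (hMF hq)]
      exact congrArg conj (herm_gamma hM hP hpos (hMF hq) _ _ _)
    beta_reduce
    rw [e, herm_gamma hM hP hpos (hMF hq) _ _ (fderiv ℂ (dfield F Y) q W)]
    ring
  rw [curvNum_eq hV hP' hq, curvNum_eq hM hP (hMF hq), hR, hR]
  rfl

end

end Vale.BDU
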