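import Vale.Agent.BDU.Psi

/-!
# P250: the twist of the counterexample satisfies the hypotheses of the construction
-/

open scoped ContDiff ComplexConjugate Topology
open Filter

namespace Vale.BDU

lemma contDiffOn_ballLog : ContDiffOn ℝ ∞ (fun z : V2 => -Real.log (1 - ‖z‖ ^ 2)) ball2 :=
  ((contDiffOn_const.sub (contDiff_norm_sq ℝ).contDiffOn).log fun z hz => by
    nlinarith [mem_ball_zero_iff.1 hz, norm_nonneg z]).neg

lemma leviQ_ballLog (v : V2) : leviQ (fun z : V2 => -Real.log (1 - ‖z‖ ^ 2)) 0 v = 4 * ‖v‖ ^ 2 := by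
  have key : ∀ w : V2, fderiv ℝ (fderiv ℝ (fun z : V2 => -Real.log (1 - ‖z‖ ^ 2))) 0 w w =
      2 * ‖w‖ ^ 2 := by
    intro w
    refine fderiv2_line Metric.isOpen_ball (Metric.mem_ball_self one_pos)
      (contDiffOn_ballLog.of_le (WithTop.coe_le_coe.2 le_top)) w
      (φ' := fun t : ℝ => 2 * ‖w‖ ^ 2 * t / (1 - ‖w‖ ^ 2 * t ^ 2)) ?_ ?_
    · have hev : ∀ᶠ t : ℝ in 𝓝 0, 0 < 1 - ‖w‖ ^ 2 * t ^ 2 :=
        (show Continuous fun t : ℝ => 1 - ‖w‖ ^ 2 * t ^ 2 by fun_prop).continuousAt.eventually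
          (lt_mem_nhds (by simp))
      filter_upwards [hev] with t ht
      have h := ((((hasDerivAt_id t).pow 2).const_mul (‖w‖ ^ 2)).const_sub 1).log ht.ne' |>.neg
      refine (h.congr_of_eventuallyEq (.of_forall fun s => ?_)).congr_deriv ?_
      · simp [norm_smul, mul_pow, mul_comm]
      · simp; field_simp
    · have h := (((hasDerivAt_id (0 : ℝ)).const_mul (2 * ‖w‖ ^ 2))).div
        ((((hasDerivAt_id (0 : ℝ)).pow 2).const_mul (‖w‖ ^ 2)).const_sub 1) (by simp)
      refine (h.congr_of_eventuallyEq (.of_forall fun s => by simp)).congr_deriv ?_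
      simp
  rw [leviQ, key, key, norm_smul, Complex.norm_I, one_mul]
  ring

/-- The pluriharmonic correction of the potential of the ball under recentring. -/
noncomputable def shiftLog (a z : V2) : ℝ := Real.log (Complex.normSq (1 - inner ℂ a z))

lemma contDiffOn_shiftLog : ContDiffOn ℝ ∞ (fun x : V2 × V2 => shiftLog x.1 x.2)
    {x | 1 - inner ℂ x.1 x.2 ≠ (0 : ℂ)} :=
  (contDiff_normSq'.comp_contDiffOn
    (contDiff_const.sub (contDiff_fst.inner ℂ contDiff_snd)).contDiffOn).log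
    fun _ hx => (Complex.normSq_pos.2 hx).ne'

lemma contDiffOn_shiftLog' {a : V2} (ha : a ∈ ball2) : ContDiffOn ℝ ∞ (shiftLog a) ball2 :=
  ContDiffOn.comp (g := fun x : V2 × V2 => shiftLog x.1 x.2) (f := fun z : V2 => (a, z))
    contDiffOn_shiftLog ((contDiff_const (c := a)).prodMk contDiff_id).contDiffOn fun _ hz =>
      one_sub_inner_ne (norm_mul_norm_lt ha (mem_ball_zero_iff.1 hz).le)

lemma leviQ_shiftLog {a : V2} (ha : a ∈ ball2) (v : V2) : leviQ (shiftLog a) 0 v = 0 := by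
  set k : ℂ := inner ℂ a v
  have key : ∀ c : ℂ, fderiv ℝ (fderiv ℝ (shiftLog a)) 0 (c • v) (c • v) =
      2 * Complex.normSq (c * k) - 4 * (c * k).re ^ 2 := by
    intro c
    set γ : ℝ → ℂ := fun t => 1 - (t : ℂ) * (c * k)
    have hγ : ∀ t, HasDerivAt γ (-(c * k)) t := fun t => by
      simpa [γ] using (((hasDerivAt_id (t : ℂ)).comp_ofReal).mul_const (c * k)).const_sub 1
    have hev : ∀ᶠ t : ℝ in 𝓝 0, Complex.normSq (γ t) ≠ 0 :=
      (show Continuous fun t => Complex.normSq (γ t) by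
        exact Complex.continuous_normSq.comp (by fun_prop)).continuousAt.eventually_ne (by simp [γ])
    refine fderiv2_line Metric.isOpen_ball (Metric.mem_ball_self one_pos)
      ((contDiffOn_shiftLog' ha).of_le (WithTop.coe_le_coe.2 le_top)) (c • v)
      (φ' := fun t => 2 * (conj (γ t) * -(c * k)).re / Complex.normSq (γ t)) ?_ ?_
    · filter_upwards [hev] with t ht
      refine ((hasDerivAt_normSq (hγ t)).log ht).congr_of_eventuallyEq (.of_forall fun s => ?_)
      simp only [shiftLog, γ]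
      rw [← Complex.coe_smul, inner_smul_right, inner_smul_right]
    · have h := ((hasDerivAt_re ((hasDerivAt_conj (hγ 0)).mul_const (-(c * k)))).const_mul 2).div
        (hasDerivAt_normSq (hγ 0)) (by simp [γ])
      refine h.congr_deriv ?_
      simp [γ, Complex.normSq_apply, Complex.mul_re]
      ring
  have h1 := key 1
  rw [one_smul, one_mul] at h1
  rw [leviQ, h1, key Complex.I]
  simp [Complex.normSq_apply, Complex.mul_re, Complex.mul_im]
  ring

/-- The twist of the counterexample. -/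
theorem goodTwist_twist {ε Q L : ℝ} (hε : 0 < ε) (hε1 : ε ≤ 1) (hQ : 16 ≤ Q) (hL : 0 ≤ L) :
    GoodTwist (fun z => 2 * L * Psi ε Q z + (-Real.log (1 - ‖z‖ ^ 2))) := by
  have hΨ := psi_contDiffOn hε hε1 hQ
  refine ⟨(contDiffOn_const.mul hΨ).add contDiffOn_ballLog, ?_⟩
  have hU : IsOpen ball2 := Metric.isOpen_ball
  have h0 : (0 : V2) ∈ ball2 := Metric.mem_ball_self one_pos
  have hA : ∀ a ∈ ball2, ContDiffOn ℝ ∞ (fun z => (2 * L) • Psi ε Q (ballMap a z)) ball2 :=
    fun a ha => (hΨ.comp ((contDiffOn_ballMap a).mono (Metric.ball_subset_closedBall.trans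
      (small_ball_subset ha le_rfl))) fun z hz => ballMap_mem ha hz).const_smul (2 * L)
  have hev : ∀ a ∈ ball2, (fun z => 2 * L * Psi ε Q (ballMap a z)
      + (-Real.log (1 - ‖ballMap a z‖ ^ 2))) =ᶠ[𝓝 0] fun z => ((2 * L) • Psi ε Q (ballMap a z)
        + (-Real.log (1 - ‖z‖ ^ 2)) + shiftLog a z) + (-Real.log (1 - ‖a‖ ^ 2)) := fun a ha => by
    filter_upwards [hU.mem_nhds h0] with z hz
    have hz1 := mem_ball_zero_iff.1 hz
    have ha1 := mem_ball_zero_iff.1 ha
    have hn := one_sub_inner_ne (norm_mul_norm_lt ha hz1.le)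
    have ha2 : 0 < 1 - ‖a‖ ^ 2 := by nlinarith [norm_nonneg a]
    have hz2 : 0 < 1 - ‖z‖ ^ 2 := by nlinarith [norm_nonneg z]
    rw [one_sub_norm_ballMap_sq ha hz1.le, shiftLog, Complex.normSq_eq_norm_sq,
      Real.log_div (mul_ne_zero ha2.ne' hz2.ne') (by positivity),
      Real.log_mul ha2.ne' hz2.ne', smul_eq_mul]
    ring
  have key : ∀ a ∈ ball2, ∀ m : ℕ, 1 ≤ m →
      iteratedFDeriv ℝ m (fun z => 2 * L * Psi ε Q (ballMap a z)
        + (-Real.log (1 - ‖ballMap a z‖ ^ 2))) 0 =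
      (2 * L) • iteratedFDeriv ℝ m (fun z => Psi ε Q (ballMap a z)) 0
        + iteratedFDeriv ℝ m (fun z : V2 => -Real.log (1 - ‖z‖ ^ 2)) 0
        + iteratedFDeriv ℝ m (shiftLog a) 0 := by
    intro a ha m hm
    have hc : ∀ {f : V2 → ℝ}, ContDiffOn ℝ ∞ f ball2 → ContDiffAt ℝ m f 0 := fun hf =>
      (hf.contDiffAt (hU.mem_nhds h0)).of_le (by exact_mod_cast le_top)
    have h1 := hc (hA a ha)
    have h2 := hc contDiffOn_ballLog
    have h3 := hc (contDiffOn_shiftLog' ha)
    rw [((hev a ha).iteratedFDeriv ℝ m).eq_of_nhds,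
      fun_iteratedFDeriv_add_apply ((h1.add h2).add h3) contDiff_const.contDiffAt,
      fun_iteratedFDeriv_add_apply (h1.add h2) h3, fun_iteratedFDeriv_add_apply h1 h2,
      iteratedFDeriv_const_of_ne (by omega), Pi.zero_apply, add_zero]
    congr 2
    exact iteratedFDeriv_const_smul_apply' (hc ((hΨ.comp ((contDiffOn_ballMap a).mono
      (Metric.ball_subset_closedBall.trans (small_ball_subset ha le_rfl))))
      fun z hz => ballMap_mem ha hz))
  refine ⟨fun a ha v => ?_, ?_⟩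
  · have e := key a ha 2 (by norm_num)
    simp only [leviQ_eq_iterated, e, add_apply, smul_apply, smul_eq_mul]
    have h1 := psi_leviQ_nonneg hε hε1 hQ a ha v
    have h2 := leviQ_ballLog v
    have h3 := leviQ_shiftLog ha v
    rw [leviQ_eq_iterated] at h1 h2 h3
    nlinarith [mul_nonneg (mul_nonneg (two_pos.le : (0:ℝ) ≤ 2) hL) h1]
  · obtain ⟨B, hB⟩ := psi_jet_bound hε hε1 hQ
    obtain ⟨D, _, hD⟩ := exists_jet_bound
      (isOpen_ne_fun (f := fun x : V2 × V2 => 1 - inner ℂ x.1 x.2) (g := fun _ => (0 : ℂ))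
        (by fun_prop) continuous_const)
      contDiffOn_shiftLog ((isCompact_closedBall (0 : V2) 1).prod (isCompact_singleton (x := (0 : V2))))
      (fun x hx => by rcases hx with ⟨_, h⟩; rw [Set.mem_singleton_iff] at h; simp [h]) 4
    refine ⟨2 * L * B + (∑ m ∈ Finset.range 5,
      ‖iteratedFDeriv ℝ m (fun z : V2 => -Real.log (1 - ‖z‖ ^ 2)) 0‖) + D, fun a ha m hm1 hm4 => ?_⟩
    rw [key a ha m hm1]
    refine norm_add₃_le.trans (add_le_add (add_le_add ?_ ?_) ?_)
    · rw [norm_smul, Real.norm_eq_abs, abs_of_nonneg (by linarith)]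
      exact mul_le_mul_of_nonneg_left (hB a ha m hm1 hm4) (by linarith)
    · exact Finset.single_le_sum (f := fun m =>
        ‖iteratedFDeriv ℝ m (fun z : V2 => -Real.log (1 - ‖z‖ ^ 2)) 0‖)
        (fun _ _ => norm_nonneg _) (Finset.mem_range.2 (by omega))
    · exact hD (a, 0) ⟨mem_closedBall_zero_iff.2 (mem_ball_zero_iff.1 ha).le, rfl⟩ m hm4

end Vale.BDU
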