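import Vale.Agent.BDU.Complete
import Vale.Agent.BDU.Domain
import Vale.Agent.BDU.Twist
import Vale.Agent.BDU.Escape
import Vale.Agent.BDU.Obstruction
import Vale.Agent.BDU.Metric
import Vale.Agent.BDU.Adapted
import Vale.Agent.BDU.Transform
import Vale.Agent.BDU.CurvatureAt

/-!
# P250: assembly of the counterexample
-/

open scoped ContDiff

namespace Vale.BDU

lemma areaSq_pullback {g g' : Form} {p q : C3} {L : C3 → C3}
    (h : ∀ u v, g' q u v = g p (L u) (L v)) (u v : C3) :
    areaSq g' q u v = areaSq g p (L u) (L v) := by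
  simp only [areaSq, h]

/-- Any good twist gives, for small `b`, a negatively pinched metric on its Hartogs domain. -/
theorem exists_pinched {ψ : V2 → ℝ} (hψ : GoodTwist ψ) :
    ∃ b a0 B0 : ℝ, 0 < b ∧ 0 < a0 ∧ a0 ≤ B0 ∧
      IsKahlerMetricOn (metricOf (potential b ψ)) (hartogs ψ) ∧
      IsLeviCivitaOn (metricOf (potential b ψ)) (gamma (potential b ψ)) (hartogs ψ) ∧
      GeodesicallyComplete (gamma (potential b ψ)) (hartogs ψ) ∧
      SectionalCurvatureIn (metricOf (potential b ψ)) (gamma (potential b ψ)) (hartogs ψ) a0 B0 := by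
  obtain ⟨K, hK, had⟩ := exists_adapted hψ
  obtain ⟨b, a0, B0, hb, -, ha0, hcurv⟩ := curvature_at K hK
  have hψc : ContinuousOn ψ ball2 := hψ.1.continuousOn
  have hM : IsOpen (hartogs ψ) := isOpen_hartogs hψc
  have hP := contDiffOn_potential b hψ.1
  have hlevi := levi_nonneg_of_goodTwist hψ
  have hpos : PosOn (potential b ψ) (hartogs ψ) := by
    rw [potential_eq_modelPot, hartogs_eq_modelDom]
    exact posOn_modelPot hb hψ.1 hlevi
  have hg := isKahlerMetricOn hM hP hpos
  have hLC := isLeviCivitaOn hM hP hpos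
  refine ⟨b, a0, max B0 a0, hb, ha0, le_max_right _ _, hg, hLC, ?_, ?_⟩
  · refine geodesicallyComplete_of_exhaustion hM hg hLC (potential b ψ) hP
      (fun c => isCompact_potential_le hb hψc c) ?_
    rw [potential_eq_modelPot, hartogs_eq_modelDom]
    exact fderiv_modelPot_le hb hψ.1 hlevi
  intro p hp u v harea
  obtain ⟨φ, F, w, d1, d2, had', -, hFp, hF, hMF, hherm, hbij, h1, h1K, h2, h2K, h3, h4⟩ := had b p hp
  set q : C3 := ![0, 0, (w : ℂ)]
  have hΦ := contDiffOn_base had'.smooth
  have hV := isOpen_modelDom hΦ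
  have hP' := contDiffOn_modelPot hΦ b
  have hq := had'.mem
  have hnear : PosNear b φ q := by
    refine ⟨{r | r ∈ modelDom (fun r => φ (zc r)) ∧ Function.Injective (fderiv ℂ F r)},
      (hF.continuousOn_fderiv_of_isOpen hV (by simp)).isOpen_inter_preimage hV
        ContinuousLinearMap.isOpen_injective, ⟨hq, hbij.1⟩, fun _ hr => hr.1, fun r hr => ?_⟩
    exact pos_pullback hM hV hP hF hMF hherm hpos hP' hr.1 hr.2
  obtain ⟨u', rfl⟩ := hbij.2 u
  obtain ⟨v', rfl⟩ := hbij.2 v
  have hmet := metricOf_pullback hM hV hP hF hMF hherm hP' hq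
  have hA := areaSq_pullback hmet u' v'
  have hC := curv_transform hM hV hP hF hMF hherm hpos hP' hq hbij u' v'
  rw [hFp] at hA hC
  have key := hcurv φ q w d1 d2 had' h1 h1K h2 h2K h3 h4 hnear u' v'
  rw [hA, hC] at key
  constructor
  · rw [le_div_iff₀ harea]
    have := mul_le_mul_of_nonneg_right (le_max_left B0 a0) harea.le
    linarith [key.2]
  · rw [div_le_iff₀ harea]
    linarith [key.1]

/-- The counterexample. -/
theorem negativelyPinchedCounterexample : NegativelyPinchedCounterexample := by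
  obtain ⟨ε, Q, L, hε, hε1, hQ, hL, hno⟩ := exists_twist_no_growth
  have hψ : GoodTwist (twist ε Q L) := goodTwist_twist hε hε1 hQ hL.le
  obtain ⟨b, a0, B0, -, ha0, hab, hg, hLC, hcomp, hsec⟩ := exists_pinched hψ
  have hψc : ContinuousOn (twist ε Q L) ball2 := hψ.1.continuousOn
  exact ⟨hartogs (twist ε Q L), _, _, a0, B0, isOpen_hartogs hψc, isConnected_hartogs hψc,
    simplyConnectedSpace_hartogs hψc, hg, hLC, hcomp, ha0, hab, hsec,
    fun h => hno (exists_zeroFree_of_biholomorphic hψc h)⟩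

end Vale.BDU
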