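import Vale.Agent.BDU.Calculus

/-!
# P250: derivatives of the model potential
-/

open scoped ContDiff
open ComplexConjugate

namespace Vale.BDU

/-- The base pairing. -/
def dot2 (A B : C3) : ℂ := A 0 * conj (B 0) + A 1 * conj (B 1)

/-- The squared length of the base coordinates. -/
noncomputable def baseSq (r : C3) : ℝ := Complex.normSq (r 0) + Complex.normSq (r 1)

/-- The cylinder over the ball. -/
def cyl : Set C3 := {r | baseSq r < 1}

/-- The fibre variable `|w|² e^Ψ`. -/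
noncomputable def fibT (Ψ : C3 → ℝ) (r : C3) : ℝ :=
  Complex.normSq (r 2) * Real.exp (Ψ r)

/-- The domain of the model. -/
def modelDom (Ψ : C3 → ℝ) : Set C3 := {r | baseSq r < 1 ∧ fibT Ψ r < 1}

/-- The potential of the ball. -/
noncomputable def ballPot (r : C3) : ℝ := -Real.log (1 - baseSq r)

/-- The potential of the fibre. -/
noncomputable def fibPot (Ψ : C3 → ℝ) (r : C3) : ℝ := -Real.log (1 - fibT Ψ r)

/-- The model potential. -/
noncomputable def modelPot (b : ℝ) (Ψ : C3 → ℝ) (r : C3) : ℝ := ballPot r + b * fibPot Ψ r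

lemma baseSq_eq (p : C3) : baseSq p = ‖zc p‖ ^ 2 := by
  rw [EuclideanSpace.norm_sq_eq]
  simp [baseSq, zc, Fin.sum_univ_two, Complex.normSq_eq_norm_sq]

lemma mem_cyl_iff (p : C3) : p ∈ cyl ↔ ‖zc p‖ < 1 := by
  show baseSq p < 1 ↔ _
  rw [baseSq_eq, sq_lt_one_iff_abs_lt_one, abs_norm]

lemma potential_eq_modelPot (b : ℝ) (ψ : V2 → ℝ) :
    potential b ψ = modelPot b (fun r => ψ (zc r)) := by
  funext p
  simp only [potential, modelPot, ballPot, fibPot, fibT, baseSq_eq]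
  ring

lemma hartogs_eq_modelDom (ψ : V2 → ℝ) : hartogs ψ = modelDom (fun r => ψ (zc r)) := by
  ext p
  show (‖zc p‖ < 1 ∧ _) ↔ (baseSq p < 1 ∧ _)
  rw [← mem_cyl_iff]
  rfl

lemma isOpen_cyl : IsOpen cyl := by
  refine isOpen_lt ?_ continuous_const
  exact (Complex.continuous_normSq.comp (continuous_apply 0)).add
    (Complex.continuous_normSq.comp (continuous_apply 1))

lemma contDiff_baseSq : ContDiff ℝ ∞ baseSq := by
  have h : ∀ i : Fin 3, ContDiff ℝ ∞ fun r : C3 => Complex.normSq (r i) := fun i => by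
    simp only [Complex.normSq_eq_norm_sq]
    exact (contDiff_norm_sq ℝ).comp (contDiff_apply ℝ ℂ i)
  exact (h 0).add (h 1)

lemma contDiffOn_fibT {Ψ : C3 → ℝ} (hΨ : ContDiffOn ℝ ∞ Ψ cyl) :
    ContDiffOn ℝ ∞ (fibT Ψ) cyl := by
  have h : ContDiff ℝ ∞ fun r : C3 => Complex.normSq (r 2) := by
    simp only [Complex.normSq_eq_norm_sq]
    exact (contDiff_norm_sq ℝ).comp (contDiff_apply ℝ ℂ 2)
  exact h.contDiffOn.mul (Real.contDiff_exp.comp_contDiffOn hΨ)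

lemma modelDom_subset (Ψ : C3 → ℝ) : modelDom Ψ ⊆ cyl := fun _ h => h.1

lemma isOpen_modelDom {Ψ : C3 → ℝ} (hΨ : ContDiffOn ℝ ∞ Ψ cyl) : IsOpen (modelDom Ψ) :=
  (contDiffOn_fibT hΨ).continuousOn.isOpen_inter_preimage isOpen_cyl isOpen_Iio

lemma contDiffOn_modelPot {Ψ : C3 → ℝ} (hΨ : ContDiffOn ℝ ∞ Ψ cyl) (b : ℝ) :
    ContDiffOn ℝ ∞ (modelPot b Ψ) (modelDom Ψ) := by
  refine ContDiffOn.add ?_ (contDiffOn_const.mul ?_)
  · exact ((contDiffOn_const.sub contDiff_baseSq.contDiffOn).log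
      fun r hr => (sub_pos.2 hr.1).ne').neg
  · exact ((contDiffOn_const.sub ((contDiffOn_fibT hΨ).mono (modelDom_subset Ψ))).log
      fun r hr => (sub_pos.2 hr.2).ne').neg

/-! ### Scalar derivatives -/

lemma hasDerivAt_G0 {s : ℝ} (hs : s < 1) :
    HasDerivAt (fun x : ℝ => -Real.log (1 - x)) (1 / (1 - s)) s := by
  have := (((hasDerivAt_id s).const_sub 1).log (sub_pos.2 hs).ne').neg
  simpa [neg_div, Pi.neg_def] using this

lemma hasDerivAt_G1 {s : ℝ} (hs : s < 1) :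
    HasDerivAt (fun x : ℝ => 1 / (1 - x)) (1 / (1 - s) ^ 2) s := by
  have := ((hasDerivAt_id s).const_sub 1).inv (sub_pos.2 hs).ne'
  simpa [one_div, Pi.inv_def] using this

lemma hasDerivAt_G2 {s : ℝ} (hs : s < 1) :
    HasDerivAt (fun x : ℝ => 1 / (1 - x) ^ 2) (2 / (1 - s) ^ 3) s := by
  have h0 : (1 - s) ≠ 0 := (sub_pos.2 hs).ne'
  have := (((hasDerivAt_id s).const_sub 1).pow 2).inv (pow_ne_zero 2 h0)
  simp only [one_div]
  refine this.congr_deriv ?_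
  simp only [id, Pi.pow_apply]
  field_simp
  ring

/-! ### The ball part -/

lemma hw_dot_left (Y q : C3) : HW (fun r => dot2 r Y) q (fun Z => dot2 Z Y) (fun _ => 0) :=
  (((hw_coord 0).mul (hw_const _)).add ((hw_coord 1).mul (hw_const _))).congr_val
    (fun Z => by simp [dot2]) (fun Z => by simp)

lemma hw_dot_right (Z q : C3) : HW (fun r => dot2 Z r) q (fun _ => 0) (fun W => dot2 Z W) :=
  (((hw_const _).mul (hw_coord 0).conj).add ((hw_const _).mul (hw_coord 1).conj)).congr_val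
    (fun W => by simp) (fun W => by simp [dot2])

lemma hw_baseSq (q : C3) :
    HW (cplx baseSq) q (fun Z => dot2 Z q) (fun Z => dot2 q Z) := by
  refine hw_cplx_of_eq ((((hw_coord 0).mul (hw_coord 0).conj).add
    ((hw_coord 1).mul (hw_coord 1).conj)).congr_val (fun Z => ?_) (fun Z => ?_)) fun r => ?_
  · simp [dot2]
  · simp [dot2]
  · simp [baseSq, Complex.mul_conj]

lemma ballPot_pb {q : C3} (hq : q ∈ cyl) (Y : C3) :
    pb Y (cplx ballPot) q = ((1 / (1 - baseSq q) : ℝ) : ℂ) * dot2 q Y :=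
  ((hw_baseSq q).comp_real (hasDerivAt_G0 hq)).pb_eq Y

lemma ballPot_herm {q : C3} (hq : q ∈ cyl) (X Y : C3) :
    herm ballPot X Y q = ((1 / (1 - baseSq q) : ℝ) : ℂ) * dot2 X Y
      + ((1 / (1 - baseSq q) ^ 2 : ℝ) : ℂ) * (dot2 q Y * dot2 X q) := by
  have h := (((hw_baseSq q).comp_real (hasDerivAt_G1 hq)).mul (hw_dot_left Y q)).congr_fun
    (g := pb Y (cplx ballPot))
    (Filter.eventuallyEq_of_mem (isOpen_cyl.mem_nhds hq) fun r hr => ballPot_pb hr Y)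
  show pd X (pb Y (cplx ballPot)) q = _
  rw [h.pd_eq]
  simp only [cplx]
  ring

lemma ballPot_third {q : C3} (hq : q ∈ cyl) (Z X Y : C3) :
    third ballPot Z X Y q =
      ((1 / (1 - baseSq q) ^ 2 : ℝ) : ℂ) * (dot2 X Y * dot2 Z q + dot2 Z Y * dot2 X q)
      + ((2 / (1 - baseSq q) ^ 3 : ℝ) : ℂ) * (dot2 q Y * dot2 X q * dot2 Z q) := by
  have h := ((((hw_baseSq q).comp_real (hasDerivAt_G1 hq)).mul (hw_const (dot2 X Y))).add
    (((hw_baseSq q).comp_real (hasDerivAt_G2 hq)).mul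
      ((hw_dot_left Y q).mul (hw_dot_right X q)))).congr_fun (g := herm ballPot X Y)
    (Filter.eventuallyEq_of_mem (isOpen_cyl.mem_nhds hq) fun r hr => ballPot_herm hr X Y)
  show pd Z (herm ballPot X Y) q = _
  rw [h.pd_eq]
  simp only [cplx]
  ring

lemma ballPot_at {p : C3} (h0 : p 0 = 0) (h1 : p 1 = 0) (Z X W Y : C3) :
    herm ballPot X Y p = dot2 X Y ∧ third ballPot Z X Y p = 0 ∧
      fourth ballPot Z X W Y p = dot2 X Y * dot2 Z W + dot2 Z Y * dot2 X W := by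
  have hb : baseSq p = 0 := by simp [baseSq, h0, h1]
  have hp : p ∈ cyl := by show baseSq p < 1; rw [hb]; exact one_pos
  have hd : ∀ A, dot2 p A = 0 ∧ dot2 A p = 0 := fun A => by simp [dot2, h0, h1]
  refine ⟨?_, ?_, ?_⟩
  · simp [ballPot_herm hp, hb, hd]
  · simp [ballPot_third hp, hd]
  · have hG3 : HasDerivAt (fun x : ℝ => 2 / (1 - x) ^ 3)
        (deriv (fun x : ℝ => 2 / (1 - x) ^ 3) (baseSq p)) (baseSq p) := by
      refine DifferentiableAt.hasDerivAt ?_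
      refine DifferentiableAt.div (by fun_prop) (by fun_prop) ?_
      simp [hb]
    have h := ((((hw_baseSq p).comp_real (hasDerivAt_G2 hp)).mul
        (((hw_const (dot2 X Y)).mul (hw_dot_right Z p)).add
          ((hw_const (dot2 Z Y)).mul (hw_dot_right X p)))).add
      (((hw_baseSq p).comp_real hG3).mul
        (((hw_dot_left Y p).mul (hw_dot_right X p)).mul (hw_dot_right Z p)))).congr_fun
      (g := third ballPot Z X Y)
      (Filter.eventuallyEq_of_mem (isOpen_cyl.mem_nhds hp) fun r hr => ballPot_third hr Z X Y)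
    show pb W (third ballPot Z X Y) p = _
    rw [h.pb_eq]
    simp [cplx, hb, hd]

/-! ### The fibre part -/

variable {Ψ : C3 → ℝ}

/-- The vertical form `dw + w ∂Ψ`. -/
noncomputable def theta (Ψ : C3 → ℝ) (r X : C3) : ℂ := X 2 + r 2 * pd X (cplx Ψ) r

/-- `e^Ψ/(1-t)`. -/
noncomputable def kf (Ψ : C3 → ℝ) : C3 → ℂ :=
  fun r => cplx (fun s => Real.exp (Ψ s)) r * cplx (fun s => 1 / (1 - fibT Ψ s)) r

/-- `t/(1-t)`. -/
noncomputable def uf (Ψ : C3 → ℝ) : C3 → ℂ := fun r => kf Ψ r * (r 2 * conj (r 2))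

/-- `e^Ψ/(1-t)²`. -/
noncomputable def cf (Ψ : C3 → ℝ) : C3 → ℂ := fun r => kf Ψ r * (1 + uf Ψ r)

section

variable (hΨ : ContDiffOn ℝ ∞ Ψ cyl) {q : C3}
include hΨ

lemma hw_psi (hq : q ∈ cyl) :
    HW (cplx Ψ) q (fun Z => pd Z (cplx Ψ) q) (fun Z => conj (pd Z (cplx Ψ) q)) :=
  (hw_self (differentiableAt_of_contDiffOn isOpen_cyl (contDiffOn_cplx hΨ) hq)).congr_val
    (fun _ => rfl) fun Z => by
      rw [conj_pd Z (differentiableAt_of_contDiffOn isOpen_cyl (contDiffOn_cplx hΨ) hq),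
        conj_cplx]

lemma hw_exp (hq : q ∈ cyl) :
    HW (cplx (fun s => Real.exp (Ψ s))) q
      (fun Z => (Real.exp (Ψ q) : ℂ) * pd Z (cplx Ψ) q)
      (fun Z => (Real.exp (Ψ q) : ℂ) * conj (pd Z (cplx Ψ) q)) :=
  (hw_psi hΨ hq).comp_real (Real.hasDerivAt_exp _)

lemma hw_fibT (hq : q ∈ cyl) :
    HW (cplx (fibT Ψ)) q
      (fun Z => (Real.exp (Ψ q) : ℂ) * conj (q 2) * theta Ψ q Z)
      (fun Z => (Real.exp (Ψ q) : ℂ) * q 2 * conj (theta Ψ q Z)) := by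
  refine hw_cplx_of_eq ((((hw_coord 2).mul (hw_coord 2).conj).mul (hw_exp hΨ hq)).congr_val
    (fun Z => ?_) (fun Z => ?_)) fun r => ?_
  · simp [theta, cplx]; ring
  · simp [theta, cplx]; ring
  · simp [fibT, cplx, Complex.mul_conj]

lemma hw_kf (hq : q ∈ modelDom Ψ) :
    HW (kf Ψ) q (fun Z => kf Ψ q * (pd Z (cplx Ψ) q + kf Ψ q * conj (q 2) * theta Ψ q Z))
      (fun Z => kf Ψ q * (conj (pd Z (cplx Ψ) q) + kf Ψ q * q 2 * conj (theta Ψ q Z))) := by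
  refine ((hw_exp hΨ hq.1).mul ((hw_fibT hΨ hq.1).comp_real (hasDerivAt_G1 hq.2))).congr_val
    (fun Z => ?_) (fun Z => ?_)
  · simp only [kf, cplx]; push_cast; simp only [one_div, ← inv_pow]; ring
  · simp only [kf, cplx]; push_cast; simp only [one_div, ← inv_pow]; ring

lemma hw_uf (hq : q ∈ modelDom Ψ) :
    HW (uf Ψ) q (fun Z => cf Ψ q * conj (q 2) * theta Ψ q Z)
      (fun Z => cf Ψ q * q 2 * conj (theta Ψ q Z)) := by
  refine ((hw_kf hΨ hq).mul ((hw_coord 2).mul (hw_coord 2).conj)).congr_val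
    (fun Z => ?_) (fun Z => ?_)
  · simp only [uf, cf, theta, map_zero]; ring
  · simp only [uf, cf, theta, map_add, map_mul]; ring

lemma hw_cf (hq : q ∈ modelDom Ψ) :
    HW (cf Ψ) q
      (fun Z => cf Ψ q * (pd Z (cplx Ψ) q + 2 * kf Ψ q * conj (q 2) * theta Ψ q Z))
      (fun Z => cf Ψ q * (conj (pd Z (cplx Ψ) q) + 2 * kf Ψ q * q 2 * conj (theta Ψ q Z))) := by
  refine ((hw_kf hΨ hq).mul ((hw_const 1).add (hw_uf hΨ hq))).congr_val
    (fun Z => ?_) (fun Z => ?_)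
  · simp only [cf]; ring
  · simp only [cf]; ring

lemma hw_dPsi (hq : q ∈ cyl) (X : C3) :
    HW (pd X (cplx Ψ)) q (fun Z => pd Z (pd X (cplx Ψ)) q) (fun W => herm Ψ X W q) :=
  (hw_self (differentiableAt_of_contDiffOn isOpen_cyl
    (contDiffOn_pd isOpen_cyl (contDiffOn_cplx hΨ) X) hq)).congr_val (fun _ => rfl)
    fun W => (pd_pb_comm isOpen_cyl (contDiffOn_cplx hΨ) X W hq).symm

lemma hw_theta (hq : q ∈ cyl) (X : C3) :
    HW (fun r => theta Ψ r X) q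
      (fun Z => Z 2 * pd X (cplx Ψ) q + q 2 * pd Z (pd X (cplx Ψ)) q)
      (fun W => q 2 * herm Ψ X W q) :=
  ((hw_const (X 2)).add ((hw_coord 2).mul (hw_dPsi hΨ hq X))).congr_val
    (fun Z => by ring) (fun W => by ring)

lemma hw_conj_theta (hq : q ∈ cyl) (Y : C3) :
    HW (fun r => conj (theta Ψ r Y)) q (fun Z => conj (q 2) * herm Ψ Z Y q)
      (fun W => conj (W 2 * pd Y (cplx Ψ) q + q 2 * pd W (pd Y (cplx Ψ)) q)) :=
  (hw_theta hΨ hq Y).conj.congr_val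
    (fun Z => by rw [map_mul, ← conj_herm isOpen_cyl hΨ Y Z hq]) (fun _ => rfl)

lemma hw_hermPsi (hq : q ∈ cyl) (X Y : C3) :
    HW (herm Ψ X Y) q (fun Z => third Ψ Z X Y q) (fun W => conj (third Ψ W Y X q)) :=
  (hw_self (differentiableAt_of_contDiffOn isOpen_cyl (contDiffOn_herm isOpen_cyl hΨ X Y)
    hq)).congr_val (fun _ => rfl) fun W => (conj_third isOpen_cyl hΨ W Y X hq).symm

lemma fibPot_pb (hq : q ∈ modelDom Ψ) (Y : C3) :
    pb Y (cplx (fibPot Ψ)) q = kf Ψ q * q 2 * conj (theta Ψ q Y) := by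
  refine (((hw_fibT hΨ hq.1).comp_real (hasDerivAt_G0 hq.2)).pb_eq Y).trans ?_
  simp only [kf, cplx]
  ring

lemma fibPot_herm (hq : q ∈ modelDom Ψ) (X Y : C3) :
    herm (fibPot Ψ) X Y q =
      uf Ψ q * herm Ψ X Y q + cf Ψ q * theta Ψ q X * conj (theta Ψ q Y) := by
  have h := (((hw_kf hΨ hq).mul (hw_coord 2)).mul (hw_conj_theta hΨ hq.1 Y)).congr_fun
    (g := pb Y (cplx (fibPot Ψ)))
    (Filter.eventuallyEq_of_mem ((isOpen_modelDom hΨ).mem_nhds hq) fun r hr => fibPot_pb hΨ hr Y)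
  show pd X (pb Y (cplx (fibPot Ψ))) q = _
  rw [h.pd_eq]
  simp only [uf, cf, theta]
  ring

lemma fibPot_third (hq : q ∈ modelDom Ψ) (Z X Y : C3) :
    third (fibPot Ψ) Z X Y q =
      cf Ψ q * conj (q 2) * theta Ψ q Z * herm Ψ X Y q + uf Ψ q * third Ψ Z X Y q
      + cf Ψ q * (pd Z (cplx Ψ) q + 2 * kf Ψ q * conj (q 2) * theta Ψ q Z)
          * theta Ψ q X * conj (theta Ψ q Y)
      + cf Ψ q * (Z 2 * pd X (cplx Ψ) q + q 2 * pd Z (pd X (cplx Ψ)) q) * conj (theta Ψ q Y)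
      + cf Ψ q * theta Ψ q X * (conj (q 2) * herm Ψ Z Y q) := by
  have h := (((hw_uf hΨ hq).mul (hw_hermPsi hΨ hq.1 X Y)).add
    (((hw_cf hΨ hq).mul (hw_theta hΨ hq.1 X)).mul (hw_conj_theta hΨ hq.1 Y))).congr_fun
    (g := herm (fibPot Ψ) X Y)
    (Filter.eventuallyEq_of_mem ((isOpen_modelDom hΨ).mem_nhds hq)
      fun r hr => fibPot_herm hΨ hr X Y)
  show pd Z (herm (fibPot Ψ) X Y) q = _
  rw [h.pd_eq]
  ring

/-- The fourth derivative of the fibre potential at an adapted point. -/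
lemma fibPot_fourth_at {w : ℝ} (hq : q ∈ modelDom Ψ) (hw : q 2 = (w : ℂ)) 
    (hd : ∀ X, pd X (cplx Ψ) q = 0) (hd2 : ∀ Z X, pd Z (pd X (cplx Ψ)) q = 0)
    (Z X W Y : C3) :
    fourth (fibPot Ψ) Z X W Y q =
      uf Ψ q * fourth Ψ Z X W Y q
      + cf Ψ q * (w ^ 2 : ℝ) * (herm Ψ Z W q * herm Ψ X Y q + herm Ψ X W q * herm Ψ Z Y q)
      + cf Ψ q * (1 + 2 * uf Ψ q)
          * (conj (W 2) * Z 2 * herm Ψ X Y q + X 2 * conj (Y 2) * herm Ψ Z W q
            + Z 2 * conj (Y 2) * herm Ψ X W q + conj (W 2) * X 2 * herm Ψ Z Y q)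
      + cf Ψ q * (2 * kf Ψ q * (1 + uf Ψ q) + 4 * kf Ψ q * uf Ψ q)
          * (Z 2 * X 2 * conj (W 2) * conj (Y 2))
      + cf Ψ q * w * (conj (W 2) * third Ψ Z X Y q + conj (Y 2) * third Ψ Z X W q
            + Z 2 * conj (third Ψ W Y X q) + X 2 * conj (third Ψ W Y Z q)) := by
  have hd2s := differentiableAt_of_contDiffOn isOpen_cyl (contDiffOn_pd isOpen_cyl
    (contDiffOn_pd isOpen_cyl (contDiffOn_cplx hΨ) X) Z) hq.1
  have h2 : HW (pd Z (pd X (cplx Ψ))) q (fun V => pd V (pd Z (pd X (cplx Ψ))) q)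
      (fun V => third Ψ Z X V q) :=
    (hw_self hd2s).congr_val (fun _ => rfl) fun V => by
      rw [← pd_pb_comm isOpen_cyl (contDiffOn_pd isOpen_cyl (contDiffOn_cplx hΨ) X) Z V hq.1]
      exact (pd_congr_on isOpen_cyl (pd_pb_comm isOpen_cyl (contDiffOn_cplx hΨ) X V) Z hq.1).symm
  have h3 : HW (third Ψ Z X Y) q (fun V => pd V (third Ψ Z X Y) q)
      (fun V => fourth Ψ Z X V Y q) :=
    hw_self (differentiableAt_of_contDiffOn isOpen_cyl
      (contDiffOn_third isOpen_cyl hΨ Z X Y) hq.1)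
  have h := (((((((hw_cf hΨ hq).mul (hw_coord 2).conj).mul (hw_theta hΨ hq.1 Z)).mul
        (hw_hermPsi hΨ hq.1 X Y)).add ((hw_uf hΨ hq).mul h3)).add
      ((((hw_cf hΨ hq).mul ((hw_dPsi hΨ hq.1 Z).add
        ((((hw_const 2).mul (hw_kf hΨ hq)).mul (hw_coord 2).conj).mul
          (hw_theta hΨ hq.1 Z)))).mul (hw_theta hΨ hq.1 X)).mul (hw_conj_theta hΨ hq.1 Y))).add
      (((hw_cf hΨ hq).mul (((hw_const (Z 2)).mul (hw_dPsi hΨ hq.1 X)).add
        ((hw_coord 2).mul h2))).mul (hw_conj_theta hΨ hq.1 Y))).add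
      ((((hw_cf hΨ hq).mul (hw_theta hΨ hq.1 X))).mul
        ((hw_coord 2).conj.mul (hw_hermPsi hΨ hq.1 Z Y)))
    |>.congr_fun (g := third (fibPot Ψ) Z X Y)
      (Filter.eventuallyEq_of_mem ((isOpen_modelDom hΨ).mem_nhds hq)
        fun r hr => fibPot_third hΨ hr Z X Y)
  show pb W (third (fibPot Ψ) Z X Y) q = _
  rw [h.pb_eq]
  have hk : kf Ψ q * (w : ℂ) * w = uf Ψ q := by rw [uf, hw, Complex.conj_ofReal]; ring
  simp only [hd, hd2, theta, hw, Complex.conj_ofReal, map_zero, mul_zero, add_zero, zero_mul,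
    zero_add]
  push_cast
  rw [← hk]
  ring

end

lemma at_values {q : C3} {w : ℝ} (hw : q 2 = (w : ℂ)) (hΨ0 : Ψ q = 0) (hw1 : w ^ 2 < 1) :
    kf Ψ q = ((1 / (1 - w ^ 2) : ℝ) : ℂ) ∧ uf Ψ q = ((w ^ 2 / (1 - w ^ 2) : ℝ) : ℂ) ∧
      cf Ψ q = ((1 / (1 - w ^ 2) ^ 2 : ℝ) : ℂ) := by
  have ht : fibT Ψ q = w ^ 2 := by
    simp [fibT, hw, hΨ0, Complex.normSq_ofReal]; ring
  have hk : kf Ψ q = ((1 / (1 - w ^ 2) : ℝ) : ℂ) := by simp [kf, cplx, hΨ0, ht]
  have hu : uf Ψ q = ((w ^ 2 / (1 - w ^ 2) : ℝ) : ℂ) := by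
    rw [uf, hk, hw, Complex.conj_ofReal]
    push_cast
    ring
  refine ⟨hk, hu, ?_⟩
  rw [cf, hk, hu, ← Complex.ofReal_one, ← Complex.ofReal_add, ← Complex.ofReal_mul]
  congr 1
  have : (1 - w ^ 2) ≠ 0 := (sub_pos.2 hw1).ne'
  field_simp
  ring

end Vale.BDU
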