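import Vale.Agent.BDU.Net
import Vale.Agent.BDU.GrowthWell
import Vale.Agent.BDU.GrowthHarnack

/-!
# P250: no zero-free holomorphic function grows slower than the twist
-/

namespace Vale.BDU

variable {ε Q : ℝ}

theorem scale_pos (hQ : 16 ≤ Q) (k : ℕ) : 0 < scale Q k := pow_pos (by linarith) _

theorem sixteen_le_scale (hQ : 16 ≤ Q) (k : ℕ) : 16 ≤ scale Q k :=
  hQ.trans (le_self_pow₀ (by linarith) (Nat.succ_ne_zero k))

theorem scale_add (Q : ℝ) (l k : ℕ) : scale Q (l + k) = Q ^ l * scale Q k := by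
  simp only [scale, ← pow_add]
  ring_nf

theorem scale_succ (Q : ℝ) (k : ℕ) : scale Q (k + 1) = Q * scale Q k := by
  simp only [scale, pow_succ]
  ring

/-- The radius of level `k`. -/
noncomputable def radius (Q : ℝ) (k : ℕ) : ℝ := 1 - 1 / scale Q k

theorem radius_mem (hQ : 16 ≤ Q) (k : ℕ) : 15 / 16 ≤ radius Q k ∧ radius Q k < 1 := by
  have h : 1 / scale Q k ≤ 1 / 16 :=
    one_div_le_one_div_of_le (by norm_num) (sixteen_le_scale hQ k)
  have h' : 0 < 1 / scale Q k := one_div_pos.2 (scale_pos hQ k)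
  simp only [radius]
  constructor <;> linarith

theorem net_norm (hQ : 16 ≤ Q) {k : ℕ} {ξ : V2} (hξ : ξ ∈ net (scale Q k)) : ‖ξ‖ = 1 :=
  (net_spec (by linarith [sixteen_le_scale hQ k])).1.1 ξ hξ

/-- Bounds of one level: from above everywhere, from below inside the radius of the level, and in
modulus. -/
theorem levelSum_bounds : ∃ A : ℝ, 0 ≤ A ∧ ∀ ε : ℝ, 0 < ε → ε ≤ 1 → ∀ Q : ℝ, 16 ≤ Q → ∀ k,
    ∀ z : V2, ‖z‖ ≤ 1 →
      levelSum ε Q k z ≤ A / (1 + scale Q k * (1 - ‖z‖)) ∧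
      (1 ≤ scale Q k * (1 - ‖z‖) → -(A / (1 + scale Q k * (1 - ‖z‖))) ≤ levelSum ε Q k z) ∧
      ∀ ξ ∈ net (scale Q k), inner ℂ ξ z = ((1 - 1 / (2 * scale Q k) : ℝ) : ℂ) →
        levelSum ε Q k z ≤ A + (Real.log ε + 3) := by
  obtain ⟨K, hK, hwell⟩ := well_bounds
  obtain ⟨C, hC, hsum⟩ := net_sum_le
  refine ⟨K * C, mul_nonneg hK hC, fun ε hε hε1 Q hQ k z hz => ?_⟩
  have hN := scale_pos hQ k
  have hs := hsum (scale Q k) (by linarith [sixteen_le_scale hQ k]) _
    (net_spec (by linarith [sixteen_le_scale hQ k])).1 z hz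
  have hq : ∀ ξ ∈ net (scale Q k), ‖qfun (scale Q k) ξ z‖ ≤ 3 / 2 := fun ξ hξ =>
    norm_qfun_le hN.le (net_norm hQ hξ) hz
  have hKs : K * ∑ ξ ∈ net (scale Q k), ‖qfun (scale Q k) ξ z‖ ^ 3
      ≤ K * C / (1 + scale Q k * (1 - ‖z‖)) := by
    rw [mul_div_assoc]
    exact mul_le_mul_of_nonneg_left hs hK
  refine ⟨?_, fun h1 => ?_, fun ξ hξ hin => ?_⟩
  · refine le_trans ?_ hKs
    rw [Finset.mul_sum]
    exact Finset.sum_le_sum fun ξ hξ => (hwell ε hε hε1 _ (hq ξ hξ)).1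
  · refine le_trans (neg_le_neg hKs) ?_
    rw [Finset.mul_sum, ← Finset.sum_neg_distrib]
    exact Finset.sum_le_sum fun ξ hξ => (hwell ε hε hε1 _ (hq ξ hξ)).2
      (norm_one_sub_ge (norm_qfun_le_half hN.le (net_norm hQ hξ) h1))
  · classical
    rw [levelSum, ← Finset.add_sum_erase _ _ hξ, qfun_eq_one hN.ne' hin, well_one, add_comm]
    refine add_le_add_left ?_ _
    refine le_trans (Finset.sum_le_sum fun η hη => (hwell ε hε hε1 _
      (hq η (Finset.mem_of_mem_erase hη))).1) ?_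
    rw [← Finset.mul_sum]
    refine le_trans (mul_le_mul_of_nonneg_left (Finset.sum_le_sum_of_subset_of_nonneg
      (Finset.erase_subset _ _) fun _ _ _ => pow_nonneg (norm_nonneg _) 3) hK) (hKs.trans ?_)
    exact div_le_self (mul_nonneg hK hC)
      (le_add_of_nonneg_right (mul_nonneg hN.le (by linarith)))

/-- Bound in modulus and modulus of continuity of one level. -/
theorem level_move (hε : 0 < ε) (hε1 : ε ≤ 1) : ∃ D : ℝ, 0 ≤ D ∧ ∀ Q : ℝ, 16 ≤ Q → ∀ k,
    (∀ z : V2, ‖z‖ ≤ 1 → |levelSum ε Q k z| ≤ D / (1 + scale Q k * (1 - ‖z‖))) ∧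
    ∀ x y : V2, ‖x‖ ≤ 1 → ‖y‖ ≤ 1 → |levelSum ε Q k y - levelSum ε Q k x| ≤
      D * (Real.sqrt (scale Q k) * Real.sqrt ‖1 - inner ℂ x y‖) := by
  obtain ⟨B, hB, hLip⟩ := exists_well_lipschitz hε hε1
  obtain ⟨B', hB', hmove⟩ := exists_well_qfun_move hε hε1
  obtain ⟨C, hC, hsum⟩ := net_sum_le
  refine ⟨(B + 2 * B') * C, by positivity, fun Q hQ k => ?_⟩
  have hN := scale_pos hQ k
  have hs : ∀ z : V2, ‖z‖ ≤ 1 → ∑ ξ ∈ net (scale Q k), ‖qfun (scale Q k) ξ z‖ ^ 3
      ≤ C / (1 + scale Q k * (1 - ‖z‖)) := fun z hz =>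
    hsum (scale Q k) (by linarith [sixteen_le_scale hQ k]) _
      (net_spec (by linarith [sixteen_le_scale hQ k])).1 z hz
  have hs' : ∀ z : V2, ‖z‖ ≤ 1 → ∑ ξ ∈ net (scale Q k), ‖qfun (scale Q k) ξ z‖ ^ 3 ≤ C :=
    fun z hz => (hs z hz).trans
      (div_le_self hC (le_add_of_nonneg_right (mul_nonneg hN.le (by linarith))))
  refine ⟨fun z hz => ?_, fun x y hx hy => ?_⟩
  · refine le_trans (Finset.abs_sum_le_sum_abs _ _) ?_
    have h1 : ∀ ξ ∈ net (scale Q k), |well ε (qfun (scale Q k) ξ z)|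
        ≤ B * ‖qfun (scale Q k) ξ z‖ ^ 3 := fun ξ hξ => by
      have h := hLip 0 (qfun (scale Q k) ξ z) (by norm_num)
        (norm_qfun_le hN.le (net_norm hQ hξ) hz)
      have h0 : well ε 0 = 0 := by simp [well]
      rw [h0, sub_zero, sub_zero, norm_zero] at h
      refine h.trans (le_of_eq ?_)
      ring
    refine (Finset.sum_le_sum h1).trans ?_
    rw [← Finset.mul_sum]
    refine (mul_le_mul_of_nonneg_left (hs z hz) hB).trans ?_
    rw [← mul_div_assoc]
    refine div_le_div_of_nonneg_right (mul_le_mul_of_nonneg_right (by linarith) hC)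
      (by nlinarith [norm_nonneg z])
  · simp only [levelSum, ← Finset.sum_sub_distrib]
    refine (Finset.abs_sum_le_sum_abs _ _).trans ?_
    refine (Finset.sum_le_sum fun ξ hξ => hmove _ hN.le ξ x y (net_norm hQ hξ) hx hy).trans ?_
    rw [← Finset.mul_sum, Finset.sum_add_distrib]
    set P := Real.sqrt (scale Q k) * Real.sqrt ‖1 - inner ℂ x y‖
    have hP : 0 ≤ P := by positivity
    nlinarith [mul_le_mul_of_nonneg_left (add_le_add (hs' x hx) (hs' y hy)) (mul_nonneg hB' hP),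
      mul_nonneg (mul_nonneg hB hC) hP]

theorem summable_levelSums (hε : 0 < ε) (hε1 : ε ≤ 1) (hQ : 16 ≤ Q) {z : V2} (hz : ‖z‖ < 1) :
    Summable fun k => levelSum ε Q k z := by
  obtain ⟨D, hD, h⟩ := level_move hε hε1
  refine Summable.of_norm_bounded
    ((summable_geometric_of_lt_one (inv_nonneg.2 (by linarith : (0 : ℝ) ≤ Q))
      (inv_lt_one_of_one_lt₀ (by linarith))).mul_left (D / (1 - ‖z‖))) fun k => ?_
  refine ((h Q hQ k).1 z hz.le).trans ?_
  have h1 : 0 < 1 - ‖z‖ := by linarith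
  have h2 : Q ^ k ≤ scale Q k := pow_le_pow_right₀ (by linarith) (Nat.le_succ k)
  have h3 : (0 : ℝ) < Q ^ k := pow_pos (by linarith) _
  refine (div_le_div_of_nonneg_left hD (mul_pos h3 h1)
    (show Q ^ k * (1 - ‖z‖) ≤ 1 + scale Q k * (1 - ‖z‖) by
      nlinarith [mul_le_mul_of_nonneg_right h2 h1.le])).trans (le_of_eq ?_)
  rw [inv_pow]
  field_simp

/-- The levels below level `k` are bounded by the scale of level `k`. -/
theorem sum_sqrt_scale_le (hQ : 16 ≤ Q) (k : ℕ) :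
    ∑ l ∈ Finset.range k, Real.sqrt (scale Q l) ≤
      2 / Real.sqrt Q * Real.sqrt (scale Q k) := by
  have hq : 4 ≤ Real.sqrt Q := Real.le_sqrt_of_sq_le (by linarith)
  induction k with
  | zero => simp; positivity
  | succ k ih =>
    rw [Finset.sum_range_succ, scale_succ, Real.sqrt_mul (by linarith)]
    have hs := Real.sqrt_nonneg (scale Q k)
    have h2 : 2 / Real.sqrt Q * Real.sqrt (scale Q k) ≤ Real.sqrt (scale Q k) :=
      mul_le_of_le_one_left hs ((div_le_one (by linarith)).2 (by linarith))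
    have h3 : 2 / Real.sqrt Q * (Real.sqrt Q * Real.sqrt (scale Q k))
        = 2 * Real.sqrt (scale Q k) := by
      field_simp
    linarith

/-- The deep levels on the sphere of level `k`. -/
theorem tail_bounds : ∃ A : ℝ, 0 ≤ A ∧ ∀ ε : ℝ, 0 < ε → ε ≤ 1 → ∀ Q : ℝ, 16 ≤ Q → ∀ k,
    ∀ z : V2, ‖z‖ = radius Q k →
      |Psi ε Q z - ∑ l ∈ Finset.range k, levelSum ε Q l z| ≤ A := by
  obtain ⟨A, hA, h⟩ := levelSum_bounds
  refine ⟨2 * A, by positivity, fun ε hε hε1 Q hQ k z hz => ?_⟩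
  have hr := radius_mem hQ k
  have hz1 : ‖z‖ < 1 := by linarith
  have hS := summable_levelSums hε hε1 hQ hz1
  rw [Psi, ← hS.sum_add_tsum_nat_add k, add_sub_cancel_left]
  have hb : ∀ l, ‖levelSum ε Q (l + k) z‖ ≤ A * (1 / 16) ^ l := fun l => by
    have hscale : scale Q (l + k) * (1 - ‖z‖) = Q ^ l := by
      rw [scale_add, hz, radius, sub_sub_cancel, mul_one_div,
        mul_div_cancel_right₀ _ (scale_pos hQ k).ne']
    obtain ⟨hu, hl, -⟩ := h ε hε hε1 Q hQ (l + k) z hz1.le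
    rw [hscale] at hu hl
    have h16 : (16 : ℝ) ^ l ≤ 1 + Q ^ l := by
      linarith [pow_le_pow_left₀ (by norm_num) hQ l]
    have hq : A / (1 + Q ^ l) ≤ A * (1 / 16) ^ l := by
      rw [one_div_pow, mul_one_div]
      exact div_le_div_of_nonneg_left hA (by positivity) h16
    rw [Real.norm_eq_abs, abs_le]
    exact ⟨le_trans (neg_le_neg hq) (hl (one_le_pow₀ (by linarith))), hu.trans hq⟩
  have hg := (hasSum_geometric_of_lt_one (by norm_num : (0 : ℝ) ≤ 1 / 16) (by norm_num)).mul_left A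
  have := tsum_of_norm_bounded hg hb
  rw [Real.norm_eq_abs] at this
  refine this.trans ?_
  norm_num
  linarith

/-- The comparison point on a slice is at bounded invariant distance. -/
theorem ballMap_slice_le {r t u δ : ℝ} {x ξ : V2} (hu : 0 < u) (hu1 : u ≤ 1 / 16) (hδ : 0 ≤ δ)
    (hδu : δ ≤ u / 16) (hr : r = 1 - δ) (ht : t = 1 - u / 2) (hx : ‖x‖ = 1 - u) (hξ : ‖ξ‖ = 1)
    (hxξ : ‖(1 : ℂ) - inner ℂ ξ ((‖x‖ : ℂ)⁻¹ • x)‖ ≤ u) :
    ‖ballMap ((r : ℂ)⁻¹ • x) ((r : ℂ)⁻¹ • ((t : ℂ) • ξ))‖ ≤ 99 / 100 := by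
  have hr0 : 0 < r := by linarith
  set a := (r : ℂ)⁻¹ • x
  set b := (r : ℂ)⁻¹ • ((t : ℂ) • ξ)
  have hna : ‖a‖ = (1 - u) / r := by
    rw [norm_smul, norm_inv, Complex.norm_real, Real.norm_eq_abs, abs_of_pos hr0, hx,
      inv_mul_eq_div]
  have hnb : ‖b‖ = t / r := by
    rw [norm_smul, norm_smul, norm_inv, Complex.norm_real, Complex.norm_real, Real.norm_eq_abs,
      Real.norm_eq_abs, abs_of_pos hr0, abs_of_pos (by linarith : 0 < t), hξ, mul_one,
      inv_mul_eq_div]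
  have ha : a ∈ ball2 := mem_ball_zero_iff.2 (by rw [hna, div_lt_one hr0]; linarith)
  have hb : ‖b‖ ≤ 1 := by rw [hnb, div_le_one hr0]; linarith
  have key := one_sub_norm_ballMap_sq ha hb
  have hm : r ^ 2 * ‖1 - inner ℂ a b‖ ≤ 3 * u := by
    have hxn : (‖x‖ : ℂ) ≠ 0 := by
      rw [hx]
      exact Complex.ofReal_ne_zero.2 (by linarith)
    set w : ℂ := inner ℂ ((‖x‖ : ℂ)⁻¹ • x) ξ with hw
    have hwn : ‖(1 : ℂ) - w‖ ≤ u := by
      rw [hw, norm_one_sub_inner_symm]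
      exact hxξ
    have e : ((r ^ 2 : ℝ) : ℂ) * (1 - inner ℂ a b)
        = ((r ^ 2 - (1 - u) * t : ℝ) : ℂ) + (((1 - u) * t : ℝ) : ℂ) * (1 - w) := by
      rw [← hx]
      simp only [a, b, hw, inner_smul_left, inner_smul_right, map_inv₀, Complex.conj_ofReal]
      have hrc : (r : ℂ) ≠ 0 := Complex.ofReal_ne_zero.2 hr0.ne'
      push_cast
      field_simp
      ring
    have h1 := congrArg norm e
    rw [norm_mul, Complex.norm_real, Real.norm_eq_abs, abs_of_nonneg (sq_nonneg r)] at h1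
    rw [h1]
    refine (norm_add_le _ _).trans ?_
    rw [norm_mul, Complex.norm_real, Complex.norm_real, Real.norm_eq_abs, Real.norm_eq_abs,
      abs_of_nonneg (show 0 ≤ (1 - u) * t by nlinarith),
      abs_of_nonneg (show 0 ≤ r ^ 2 - (1 - u) * t by nlinarith)]
    have : ((1 - u) * t) * ‖1 - w‖ ≤ 1 * u :=
      mul_le_mul (by nlinarith) hwn (norm_nonneg _) zero_le_one
    have hrr : r ^ 2 ≤ 1 := pow_le_one₀ hr0.le (by linarith)
    nlinarith
  have hne : 0 < ‖1 - inner ℂ a b‖ := norm_pos_iff.2 (one_sub_inner_ne (norm_mul_norm_lt ha hb))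
  have h13 : 13 / 10 / 9 ≤ 1 - ‖ballMap a b‖ ^ 2 := by
    rw [key, le_div_iff₀ (pow_pos hne 2), hna, hnb]
    have e : (1 - ((1 - u) / r) ^ 2) * (1 - (t / r) ^ 2)
        = (r ^ 2 - (1 - u) ^ 2) * (r ^ 2 - t ^ 2) / r ^ 4 := by
      field_simp
    rw [e, le_div_iff₀ (pow_pos hr0 4)]
    have h1 : 168 / 100 * u ≤ r ^ 2 - (1 - u) ^ 2 := by nlinarith
    have h2 : 78 / 100 * u ≤ r ^ 2 - t ^ 2 := by nlinarith
    calc 13 / 10 / 9 * ‖1 - inner ℂ a b‖ ^ 2 * r ^ 4
        = 13 / 10 / 9 * (r ^ 2 * ‖1 - inner ℂ a b‖) ^ 2 := by ring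
      _ ≤ 13 / 10 / 9 * (3 * u) ^ 2 := by gcongr
      _ ≤ 168 / 100 * u * (78 / 100 * u) := by nlinarith
      _ ≤ _ := mul_le_mul h1 h2 (by positivity) (by linarith)
  nlinarith [norm_nonneg (ballMap a b)]

/-- One scale costs a fixed amount. -/
theorem exists_step : ∃ ε Q : ℝ, 0 < ε ∧ ε ≤ 1 ∧ 16 ≤ Q ∧
    ∀ (g : V2 → ℂ), DifferentiableOn ℂ g ball2 → (∀ z ∈ ball2, g z ≠ 0) → ∀ L : ℝ, 0 < L →
    ∀ k S, (∀ z, ‖z‖ = radius Q (k + 1) → Real.log ‖g z‖ / L - Psi ε Q z ≤ S) →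
      ∀ x, ‖x‖ = radius Q k → Real.log ‖g x‖ / L - Psi ε Q x ≤ S - 2 := by
  obtain ⟨A1, hA1, hlevel⟩ := levelSum_bounds
  obtain ⟨A2, hA2, htail⟩ := tail_bounds
  set A := A1 + A2 with hA
  set ε := Real.exp (-3 - 200 * (3 * A + 3)) with hεd
  have hε : 0 < ε := Real.exp_pos _
  have hε1 : ε ≤ 1 := Real.exp_le_one_iff.2 (by linarith)
  obtain ⟨D, hD, hmove⟩ := level_move hε hε1
  set Q := max 16 ((12 * D) ^ 2) with hQd
  have hQ : 16 ≤ Q := le_max_left _ _
  refine ⟨ε, Q, hε, hε1, hQ, fun g hg hg0 L hL k S hS x hxk => ?_⟩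
  set U : V2 → ℝ := fun z => Real.log ‖g z‖ / L - Psi ε Q z with hU
  set N := scale Q k
  have hN := scale_pos hQ k
  have hN16 := sixteen_le_scale hQ k
  set r := radius Q (k + 1)
  obtain ⟨hr15, hr1⟩ := radius_mem hQ (k + 1)
  obtain ⟨hk15, hk1⟩ := radius_mem hQ k
  have hrk : radius Q k < r := by
    simp only [r, radius, scale_succ]
    have : 1 / (Q * N) < 1 / N := one_div_lt_one_div_of_lt hN (by nlinarith)
    linarith
  have hx1 : x ∈ ball2 := mem_ball_zero_iff.2 (by rw [hxk]; exact hk1)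
  -- a slice near `x`
  have hxn : ‖(‖x‖ : ℂ)⁻¹ • x‖ = 1 := by
    rw [norm_smul, norm_inv, Complex.norm_real, norm_norm, inv_mul_cancel₀ (by linarith)]
  obtain ⟨ξ, hξ, hξe⟩ := (net_spec (N := N) (by linarith)).2 _ hxn
  have hξ1 := net_norm hQ hξ
  set t : ℝ := 1 - 1 / (2 * N) with ht
  set p : V2 := (t : ℂ) • ξ
  -- the comparison function
  set P := ∑ l ∈ Finset.range k, levelSum ε Q l x
  set W := 2 * D * ∑ l ∈ Finset.range k, Real.sqrt (scale Q l)
  have hW : 0 ≤ W := by positivity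
  set f : V2 → ℂ := fun z =>
    g z * Complex.exp (-(L : ℂ) * (((S + A + P : ℝ) : ℂ) + (W : ℂ) * rootFn x z))
  have hfd : DifferentiableOn ℂ f ball2 :=
    hg.mul (((differentiableOn_rootFn hx1).const_mul _ |>.const_add _).const_mul _).cexp
  have hf0 : ∀ z ∈ ball2, f z ≠ 0 := fun z hz =>
    mul_ne_zero (hg0 z hz) (Complex.exp_ne_zero _)
  have hlogf : ∀ z ∈ ball2, Real.log ‖f z‖
      = L * (U z + (Psi ε Q z - (S + A + P + W * (rootFn x z).re))) := fun z hz => by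
    rw [norm_mul, Real.log_mul (norm_ne_zero_iff.2 (hg0 z hz))
      (norm_ne_zero_iff.2 (Complex.exp_ne_zero _)), Complex.norm_exp, Real.log_exp]
    simp [U]
    field_simp
    ring
  have hsphere : ∀ z, ‖z‖ = r → U z + (Psi ε Q z - (S + A + P + W * (rootFn x z).re))
      ≤ levelSum ε Q k z - A1 := by
    intro z hz
    have h1 := (abs_le.1 (htail ε hε hε1 Q hQ (k + 1) z hz)).2
    rw [Finset.sum_range_succ] at h1
    have h2 : ∑ l ∈ Finset.range k, levelSum ε Q l z ≤ P + W * (rootFn x z).re := by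
      have h3 : ∀ l ∈ Finset.range k, levelSum ε Q l z ≤ levelSum ε Q l x
          + D * (Real.sqrt (scale Q l) * (2 * (rootFn x z).re)) := fun l _ => by
        have h := (abs_le.1 ((hmove Q hQ l).2 x z (by linarith) (by linarith))).2
        have hroot := (rootFn_re (norm_mul_norm_lt hx1 (by linarith : ‖z‖ ≤ 1))).1
        have := mul_le_mul_of_nonneg_left (mul_le_mul_of_nonneg_left hroot
          (Real.sqrt_nonneg (scale Q l))) hD
        linarith
      refine (Finset.sum_le_sum h3).trans (le_of_eq ?_)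
      simp only [Finset.sum_add_distrib, P, W, Finset.mul_sum, Finset.sum_mul]
      refine congrArg₂ _ rfl (Finset.sum_congr rfl fun l _ => ?_)
      ring
    have := hS z hz
    linarith
  have hsphere1 : ∀ z, ‖z‖ ≤ r → ‖f z‖ ≤ 1 := fun z hz => by
    refine norm_le_of_sphere hfd (by linarith) hr1 (fun w hw => ?_) hz
    have hwb : w ∈ ball2 := mem_ball_zero_iff.2 (by linarith)
    rw [← Real.log_nonpos_iff (norm_nonneg _), hlogf w hwb]
    refine mul_nonpos_of_nonneg_of_nonpos hL.le ((hsphere w hw).trans ?_)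
    have h := (hlevel ε hε hε1 Q hQ k w (by linarith)).1
    have : A1 / (1 + scale Q k * (1 - ‖w‖)) ≤ A1 :=
      div_le_self hA1 (le_add_of_nonneg_right (mul_nonneg hN.le (by linarith)))
    linarith
  have hslice : ‖f p‖ ≤ Real.exp (L * (Real.log ε + 3)) := by
    have htr : |t| < r := by
      have h2N : 1 / (2 * N) ≤ 1 / 32 := one_div_le_one_div_of_le (by norm_num) (by linarith)
      rw [abs_of_pos (by simp only [t]; linarith)]
      simp only [t, r, radius, scale_succ]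
      have : 1 / (Q * N) < 1 / (2 * N) := one_div_lt_one_div_of_lt (by linarith) (by nlinarith)
      linarith
    refine norm_le_of_slice hfd hξ1 htr hr1 fun w hw hin => ?_
    have hwb : w ∈ ball2 := mem_ball_zero_iff.2 (by linarith)
    rw [← Real.log_le_iff_le_exp (norm_pos_iff.2 (hf0 w hwb)), hlogf w hwb]
    refine mul_le_mul_of_nonneg_left ((hsphere w hw).trans ?_) hL.le
    linarith [(hlevel ε hε hε1 Q hQ k w (by linarith)).2.2 ξ hξ hin]
  -- propagation to `x`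
  have hpn : ‖p‖ < r := by
    have : ‖p‖ = |t| := by simp [p, norm_smul, hξ1]
    rw [this, abs_of_pos]
    · simp only [t, r, radius, scale_succ]
      have : 1 / (Q * N) < 1 / (2 * N) := one_div_lt_one_div_of_lt (by linarith) (by nlinarith)
      linarith
    · have h2N : 1 / (2 * N) ≤ 1 / 32 := one_div_le_one_div_of_le (by norm_num) (by linarith)
      simp only [t]
      linarith
  have hdist : ‖ballMap ((r : ℂ)⁻¹ • x) ((r : ℂ)⁻¹ • p)‖ ≤ 99 / 100 :=
    ballMap_slice_le (u := 1 / N) (δ := 1 / (Q * N)) (one_div_pos.2 hN)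
      (one_div_le_one_div_of_le (by norm_num) hN16)
      (one_div_nonneg.2 (mul_nonneg (by linarith) hN.le))
      (by rw [div_div, mul_comm N]; exact one_div_le_one_div_of_le (by positivity)
            (mul_le_mul_of_nonneg_right hQ hN.le))
      (by simp only [r, radius, scale_succ]; rfl)
      (by simp only [t]; field_simp)
      hxk hξ1 hξe.le
  have hfx := harnack_ball hfd hf0 (by linarith) hr1 hsphere1 (by rw [hxk]; exact hrk) hpn
    (by norm_num) hdist
  have hfp : Real.log ‖f p‖ ≤ L * (Real.log ε + 3) := by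
    rw [Real.log_le_iff_le_exp
      (norm_pos_iff.2 (hf0 p (mem_ball_zero_iff.2 (by linarith))))]
    exact hslice
  rw [hlogf x hx1] at hfx
  have hg1 : U x + (Psi ε Q x - (S + A + P + W * (rootFn x x).re)) ≤ -3 * A - 3 := by
    refine le_of_mul_le_mul_left (hfx.trans ((mul_le_mul_of_nonneg_left hfp
      (by norm_num : (0 : ℝ) ≤ (1 - 99 / 100) / 2)).trans (le_of_eq ?_))) hL
    rw [hεd, Real.log_exp]
    ring
  have hPsi := (abs_le.1 (htail ε hε hε1 Q hQ k x hxk)).1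
  have hWx : W * (rootFn x x).re ≤ 1 := by
    have hx2 : (1 : ℂ) - inner ℂ x x = ((1 - ‖x‖ ^ 2 : ℝ) : ℂ) := by
      simp [inner_self_eq_norm_sq_to_K]
    have hre := (rootFn_re (norm_mul_norm_lt hx1 (mem_ball_zero_iff.1 hx1).le)).2
    rw [hx2, Complex.norm_real, Real.norm_eq_abs, abs_of_pos (by nlinarith)] at hre
    have h1 : Real.sqrt (1 - ‖x‖ ^ 2) ≤ 3 / 2 / Real.sqrt N := by
      rw [Real.sqrt_le_left (by positivity), div_pow, Real.sq_sqrt hN.le, hxk]
      simp only [radius]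
      have hu0 : 0 < 1 / N := one_div_pos.2 hN
      have e : ((3 : ℝ) / 2) ^ 2 / N = 9 / 4 * (1 / N) := by ring
      rw [e]
      nlinarith
    have hQ12 : 12 * D ≤ Real.sqrt Q := Real.le_sqrt_of_sq_le (le_max_right _ _)
    have hsq : 0 < Real.sqrt Q := Real.sqrt_pos.2 (by linarith)
    refine (mul_le_mul_of_nonneg_left (hre.trans h1) hW).trans ?_
    refine (mul_le_mul_of_nonneg_right (mul_le_mul_of_nonneg_left (sum_sqrt_scale_le hQ k)
      (by positivity)) (by positivity)).trans ?_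
    have hsN : Real.sqrt N ≠ 0 := (Real.sqrt_pos.2 hN).ne'
    have e : 2 * D * (2 / Real.sqrt Q * Real.sqrt N) * (3 / 2 / Real.sqrt N)
        = 6 * D / Real.sqrt Q := by
      field_simp
      ring
    rw [e, div_le_one hsq]
    linarith
  linarith

/-- No zero-free holomorphic function on the ball grows slower than the twist. -/
theorem no_growth (c : ℝ) (hc : 0 ≤ c) :
    ∃ ε Q L : ℝ, 0 < ε ∧ ε ≤ 1 ∧ 16 ≤ Q ∧ 0 < L ∧
      ¬∃ (g : V2 → ℂ) (C : ℝ), DifferentiableOn ℂ g ball2 ∧ (∀ z ∈ ball2, g z ≠ 0) ∧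
        ∀ z ∈ ball2,
          Real.log ‖g z‖ ≤ L * Psi ε Q z + c * (-Real.log (1 - ‖z‖)) + C := by
  obtain ⟨ε, Q, hε, hε1, hQ, hstep'⟩ := exists_step
  set L := c * Real.log Q + 1
  have hlogQ : 0 ≤ Real.log Q := Real.log_nonneg (by linarith)
  have hL : 0 < L := by positivity
  refine ⟨ε, Q, L, hε, hε1, hQ, hL, ?_⟩
  rintro ⟨g, C, hg, hg0, hgb⟩
  set U : V2 → ℝ := fun z => Real.log ‖g z‖ / L - Psi ε Q z with hU
  have hstep := hstep' g hg hg0 L hL
  have hiter : ∀ m k S, (∀ z, ‖z‖ = radius Q (k + m) → U z ≤ S) →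
      ∀ x, ‖x‖ = radius Q k → U x ≤ S - 2 * m := by
    intro m
    induction m with
    | zero => intro k S hS x hx; simpa using hS x hx
    | succ m ih =>
      intro k S hS x hx
      have h := hstep k (S - 2 * m) (ih (k + 1) S (fun z hz => hS z (by rw [hz]; ring_nf))) x hx
      push_cast
      linarith
  set x0 : V2 := (radius Q 0 : ℂ) • EuclideanSpace.single (0 : Fin 2) (1 : ℂ)
  have hx0 : ‖x0‖ = radius Q 0 := by
    simp [x0, norm_smul, abs_of_pos (by linarith [(radius_mem hQ 0).1] : 0 < radius Q 0)]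
  obtain ⟨m, hm⟩ := exists_nat_gt (1 + C / L - U x0)
  have hS : ∀ z, ‖z‖ = radius Q (0 + m) → U z ≤ (m : ℝ) + 1 + C / L := by
    intro z hz
    rw [zero_add] at hz
    have hzb : z ∈ ball2 := mem_ball_zero_iff.2 (by linarith [(radius_mem hQ m).2])
    have h := hgb z hzb
    have hlog : -Real.log (1 - ‖z‖) = (m + 1) * Real.log Q := by
      rw [hz, radius, sub_sub_cancel, one_div, Real.log_inv, neg_neg, scale, Real.log_pow]
      push_cast
      ring
    rw [hlog] at h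
    have h1 : c * ((m + 1) * Real.log Q) ≤ L * (m + 1) := by
      simp only [L]
      nlinarith [(Nat.cast_nonneg m : (0 : ℝ) ≤ m)]
    simp only [U]
    rw [sub_le_iff_le_add, div_le_iff₀ hL]
    have : ((m : ℝ) + 1 + C / L + Psi ε Q z) * L = L * (m + 1) + C + L * Psi ε Q z := by
      field_simp
    linarith
  have := hiter m 0 _ hS x0 hx0
  linarith

end Vale.BDU
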