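import Vale.Agent.BDU.Setup

/-!
# P250: the pointwise inequality behind negative pinching

For a real two-plane spanned by `u,v` at an adapted point, `B₁, B₂, F` are the imaginary parts of
`uᵢ v̄ᵢ` and `uₑ v̄ₑ`, `Z = |u₁v₂ - u₂v₁|²` and `Wᵢ = |uᵢ v̄ₑ - vᵢ ūₑ|²`.
-/

namespace Vale.BDU

/-- The six real invariants of a plane, with the inequalities they satisfy. -/
structure PlaneData where
  B1 : ℝ
  B2 : ℝ
  F : ℝ
  Z : ℝ
  W1 : ℝ
  W2 : ℝ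
  hZ : 0 ≤ Z
  hZ' : 0 ≤ Z + 4 * B1 * B2
  hW1 : 0 ≤ W1
  hW2 : 0 ≤ W2
  hM : ∀ p q : ℝ, 0 ≤ p → 0 ≤ q →
    2 * |F| * Real.sqrt ((p * B1 + q * B2) ^ 2 + p * q * Z)
      ≤ p * W1 + q * W2 - 2 * (p * B1 + q * B2) * F

namespace PlaneData

variable (P : PlaneData)

/-- The weighted imaginary part. -/
def iW (p q : ℝ) : ℝ := p * P.B1 + q * P.B2

/-- The weighted Gram determinant. -/
def dW (p q : ℝ) : ℝ := P.iW p q ^ 2 + p * q * P.Z

/-- Its square root. -/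
noncomputable def rW (p q : ℝ) : ℝ := Real.sqrt (P.dW p q)

/-- The squared area of the plane, horizontal weights `1 + x dᵢ`. -/
def area (x d1 d2 : ℝ) : ℝ :=
  P.dW (1 + x * d1) (1 + x * d2) + P.F ^ 2
    + ((1 + x * d1) * P.W1 + (1 + x * d2) * P.W2 - 2 * P.iW (1 + x * d1) (1 + x * d2) * P.F)

lemma dW_nonneg {p q : ℝ} (hp : 0 ≤ p) (hq : 0 ≤ q) : 0 ≤ P.dW p q :=
  add_nonneg (sq_nonneg _) (mul_nonneg (mul_nonneg hp hq) P.hZ)

lemma sq_rW {p q : ℝ} (hp : 0 ≤ p) (hq : 0 ≤ q) : P.rW p q ^ 2 = P.dW p q :=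
  Real.sq_sqrt (P.dW_nonneg hp hq)

lemma rW_nonneg (p q : ℝ) : 0 ≤ P.rW p q := Real.sqrt_nonneg _

lemma abs_iW_le {p q : ℝ} (hp : 0 ≤ p) (hq : 0 ≤ q) : |P.iW p q| ≤ P.rW p q := by
  rw [rW, ← Real.sqrt_sq_eq_abs]
  exact Real.sqrt_le_sqrt (le_add_of_nonneg_right (mul_nonneg (mul_nonneg hp hq) P.hZ))

lemma dW_mono {p q p' q' : ℝ} (hp : 0 ≤ p) (hq : 0 ≤ q) (hpp : p ≤ p') (hqq : q ≤ q') :
    P.dW p q ≤ P.dW p' q' := by
  have h1 : p ^ 2 ≤ p' ^ 2 := pow_le_pow_left₀ hp hpp 2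
  have h2 : q ^ 2 ≤ q' ^ 2 := pow_le_pow_left₀ hq hqq 2
  have h3 : p * q ≤ p' * q' := mul_le_mul hpp hqq hq (hp.trans hpp)
  have hJ : 0 ≤ P.Z + 2 * P.B1 * P.B2 := by linarith [P.hZ, P.hZ']
  simp only [dW, iW]
  nlinarith [mul_le_mul_of_nonneg_left h1 (sq_nonneg P.B1),
    mul_le_mul_of_nonneg_left h2 (sq_nonneg P.B2), mul_le_mul_of_nonneg_left h3 hJ]

lemma rW_mono {p q p' q' : ℝ} (hp : 0 ≤ p) (hq : 0 ≤ q) (hpp : p ≤ p') (hqq : q ≤ q') :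
    P.rW p q ≤ P.rW p' q' :=
  Real.sqrt_le_sqrt (P.dW_mono hp hq hpp hqq)

lemma rW_smul {c p q : ℝ} (hc : 0 ≤ c) : P.rW (c * p) (c * q) = c * P.rW p q := by
  have : P.dW (c * p) (c * q) = c ^ 2 * P.dW p q := by simp only [dW, iW]; ring
  rw [rW, this, Real.sqrt_mul (sq_nonneg c), Real.sqrt_sq hc, rW]

lemma rW_add_le {p q p' q' : ℝ} (hp : 0 ≤ p) (hq : 0 ≤ q) (hp' : 0 ≤ p') (hq' : 0 ≤ q') :
    P.rW p q + P.rW p' q' ≤ P.rW (p + p') (q + q') := by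
  set B := p * p' * P.B1 ^ 2 + q * q' * P.B2 ^ 2
    + (p * q' + p' * q) * (P.Z + 2 * P.B1 * P.B2) / 2 with hB
  have hJ : 0 ≤ P.Z + 2 * P.B1 * P.B2 := by linarith [P.hZ, P.hZ']
  have hB0 : 0 ≤ B := by positivity
  have hd : P.dW p q * P.dW p' q' ≤ B ^ 2 := by
    have e : B ^ 2 - P.dW p q * P.dW p' q'
        = (p * q' - p' * q) ^ 2 * (P.Z * (P.Z + 4 * P.B1 * P.B2)) / 4 := by
      simp only [hB, dW, iW]; ring
    have := mul_nonneg (sq_nonneg (p * q' - p' * q)) (mul_nonneg P.hZ P.hZ')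
    linarith
  have hr : P.rW p q * P.rW p' q' ≤ B := by
    rw [rW, rW, ← Real.sqrt_mul (P.dW_nonneg hp hq)]
    calc _ ≤ Real.sqrt (B ^ 2) := Real.sqrt_le_sqrt hd
      _ = B := Real.sqrt_sq hB0
  refine Real.le_sqrt_of_sq_le ?_
  have e : P.dW (p + p') (q + q') = P.dW p q + P.dW p' q' + 2 * B := by
    simp only [hB, dW, iW]; ring
  rw [e, add_sq, P.sq_rW hp hq, P.sq_rW hp' hq']
  linarith

lemma mixed_ge {p q : ℝ} (hp : 0 ≤ p) (hq : 0 ≤ q) :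
    2 * |P.F| * P.rW p q ≤ p * P.W1 + q * P.W2 - 2 * P.iW p q * P.F :=
  P.hM p q hp hq

end PlaneData

/-- The bracket estimate: the one computation behind negative curvature. -/
lemma bracket_sq_le {a i u σ τ η : ℝ} (hi : 0 ≤ i) (hia : i ≤ a) (hu : 0 ≤ u) (hσ : 0 ≤ σ)
    (hσ1 : σ ≤ 1) (hτ : 0 ≤ τ) (hτ1 : τ ≤ 1 / 2) (hη : 0 ≤ η) (hτσ : τ ^ 2 ≤ σ / 100 + η) :
    (u * ((8 - 2 * σ) * a - (6 - 4 * τ) * (a - i)) + ((4 - 2 * σ) * a + 2 * τ * (a - i))) ^ 2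
      ≤ 16 * (u * (1 + u)) * (1 - σ / 8) * (a ^ 2 + 3 * i ^ 2)
        + (3200 + 500 * η * u ^ 2) * a ^ 2 := by
  obtain ⟨d, rfl⟩ : ∃ d, i = a - d := ⟨a - i, by ring⟩
  have ha : 0 ≤ a := hi.trans hia
  have hd : 0 ≤ d := by linarith
  have hda : d ≤ a := by linarith
  have e : a - (a - d) = d := by ring
  rw [e]
  have k0 : ((4 - 2 * σ) * a + 2 * τ * d) ^ 2 ≤ 25 * a ^ 2 := by
    have : (4 - 2 * σ) * a + 2 * τ * d ≤ 5 * a := by
      nlinarith [mul_nonneg hσ ha, mul_le_mul hτ1 hda hd (by norm_num : (0:ℝ) ≤ 1 / 2)]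
    have h0 : 0 ≤ (4 - 2 * σ) * a + 2 * τ * d := by
      nlinarith [mul_nonneg hτ hd, mul_le_mul_of_nonneg_right hσ1 ha]
    nlinarith [pow_le_pow_left₀ h0 this 2]
  have k1 : 2 * ((8 - 2 * σ) * a - (6 - 4 * τ) * d) * ((4 - 2 * σ) * a + 2 * τ * d)
      ≤ 16 * (1 - σ / 8) * (a ^ 2 + 3 * (a - d) ^ 2) + 112 * (a * d) := by
    nlinarith [mul_nonneg hσ (mul_nonneg ha hd), mul_nonneg hτ (mul_nonneg ha hd),
      mul_nonneg (mul_nonneg hσ (sub_nonneg.2 hσ1)) (sq_nonneg a), mul_nonneg hσ (sq_nonneg a),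
      mul_nonneg hτ (sq_nonneg d), mul_nonneg (mul_nonneg hτ hτ) (sq_nonneg d),
      mul_nonneg (mul_nonneg hσ hτ) (mul_nonneg ha hd), sq_nonneg d,
      mul_nonneg hσ (sq_nonneg d), mul_le_mul_of_nonneg_right hσ1 (mul_nonneg ha hd),
      mul_le_mul_of_nonneg_right hτ1 (mul_nonneg ha hd),
      mul_le_mul_of_nonneg_right hτ1 (sq_nonneg d), mul_le_mul_of_nonneg_right hσ1 (sq_nonneg d)]
  have k2 : ((8 - 2 * σ) * a - (6 - 4 * τ) * d) ^ 2 + d ^ 2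
      ≤ 16 * (1 - σ / 8) * (a ^ 2 + 3 * (a - d) ^ 2) + 500 * η * a ^ 2 := by
    have h1 : ((8 - 2 * σ) * a - (6 - 4 * τ) * d) ^ 2 + d ^ 2
        ≤ 16 * (1 - σ / 8) * (a ^ 2 + 3 * (a - d) ^ 2) - 20 * σ * a ^ 2 - 5 * d ^ 2
          + (12 * σ + 64 * τ) * (a * d) := by
      nlinarith [mul_nonneg (mul_nonneg hσ (sub_nonneg.2 hσ1)) (sq_nonneg a),
        mul_nonneg (mul_nonneg hσ hτ) (mul_nonneg ha hd),
        mul_nonneg (mul_nonneg hτ (sub_nonneg.2 hτ1)) (sq_nonneg d),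
        mul_le_mul_of_nonneg_right hσ1 (sq_nonneg d), mul_nonneg hτ (sq_nonneg d)]
    have h2 : (12 * σ + 64 * τ) * (a * d)
        ≤ 5 * d ^ 2 + (12 * σ + 64 * τ) ^ 2 * a ^ 2 / 20 := by
      nlinarith [sq_nonneg (10 * d - (12 * σ + 64 * τ) * a)]
    have h3 : (12 * σ + 64 * τ) ^ 2 ≤ 400 * σ + 10000 * η := by
      nlinarith [sq_nonneg (12 * σ - 64 * τ), mul_le_mul_of_nonneg_left hσ1 hσ]
    nlinarith [mul_le_mul_of_nonneg_right h3 (sq_nonneg a)]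
  have k3 : 112 * (a * d) * u ≤ u ^ 2 * d ^ 2 + 3136 * a ^ 2 := by
    nlinarith [sq_nonneg (u * d - 56 * a)]
  nlinarith [mul_le_mul_of_nonneg_left k1 hu, mul_le_mul_of_nonneg_left k2 (sq_nonneg u),
    sq_nonneg a]

/-- The negative of the curvature numerator without the derivative terms of the twist. -/
noncomputable def qMain (P : PlaneData) (b u d1 d2 : ℝ) : ℝ :=
  b * (u * (1 + u)) * (P.dW d1 d2 + 3 * P.iW d1 d2 ^ 2)
    + ((1 + 2 * u - (1 + u) * (b * u * d1 / (1 + b * u * d1))) * d1 * (P.W1 + 4 * P.B1 * P.F)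
      + (1 + 2 * u - (1 + u) * (b * u * d2 / (1 + b * u * d2))) * d2 * (P.W2 + 4 * P.B2 * P.F))
    + 4 * P.F ^ 2 / b

section main

variable (P : PlaneData) {κ b u d1 d2 : ℝ}

/-- The weight `Eᵢ` of the mixed planes. -/
noncomputable def eW (b u d : ℝ) : ℝ := (1 + 2 * u - (1 + u) * (b * u * d / (1 + b * u * d))) * d

lemma share_bounds {x d : ℝ} (hx : 0 ≤ x) (hd : 1 ≤ d) (hdκ : d ≤ κ) :
    x / (1 + x) ≤ x * d / (1 + x * d) ∧ x * d / (1 + x * d) ≤ κ * (x / (1 + x)) ∧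
      x * d / (1 + x * d) ≤ 1 ∧ 1 / (κ * (1 + x)) ≤ 1 - x * d / (1 + x * d) := by
  have h1 : 0 < 1 + x := by linarith
  have h2 : 0 < 1 + x * d := by nlinarith
  have hκ0 : 0 < κ := by linarith
  refine ⟨?_, ?_, ?_, ?_⟩
  · rw [div_le_div_iff₀ h1 h2]; nlinarith
  · rw [← mul_div_assoc, div_le_div_iff₀ h2 h1]
    nlinarith [mul_le_mul_of_nonneg_left hd hx, mul_le_mul_of_nonneg_left hdκ hx,
      mul_nonneg (mul_nonneg hx hx) hκ0.le,
      mul_le_mul_of_nonneg_left hdκ (mul_nonneg hx hx),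
      mul_nonneg (mul_nonneg (mul_nonneg hx hx) hκ0.le) (sub_nonneg.2 hd)]
  · rw [div_le_one h2]; linarith
  · rw [one_sub_div h2.ne', div_le_div_iff₀ (by positivity) h2]
    nlinarith [mul_le_mul_of_nonneg_left hdκ hx]

lemma eW_bounds (hb : 0 < b) (hu : 0 ≤ u) {d : ℝ} (hd : 1 ≤ d) (hdκ : d ≤ κ) :
    u ≤ eW b u d ∧ (1 + u) / (κ * (1 + b * u)) ≤ eW b u d ∧ eW b u d ≤ (1 + 2 * u) * d := by
  obtain ⟨h1, h2, h3, h4⟩ := share_bounds (κ := κ) (mul_nonneg hb.le hu) hd hdκ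
  have h0 : 0 ≤ b * u / (1 + b * u) := by positivity
  set s := b * u * d / (1 + b * u * d)
  have e : eW b u d = (u + (1 + u) * (1 - s)) * d := by rw [eW]; ring
  have hp : 0 ≤ (1 + u) * (1 - s) := mul_nonneg (by linarith) (by linarith)
  refine ⟨?_, ?_, ?_⟩
  · rw [e]; nlinarith
  · rw [e]
    have : (1 + u) / (κ * (1 + b * u)) ≤ (1 + u) * (1 - s) := by
      rw [div_eq_mul_one_div]; exact mul_le_mul_of_nonneg_left h4 (by linarith)
    nlinarith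
  · rw [e]
    refine mul_le_mul_of_nonneg_right ?_ (by linarith)
    nlinarith [mul_nonneg (by linarith : (0:ℝ) ≤ 1 + u) (h0.trans h1)]

/-- The bracket is at most `u Y + O(a)`. -/
lemma bracket_le {a i u σ τ κ rp IE rE : ℝ} (hi : 0 ≤ i) (hia : i ≤ a) (hu : 0 ≤ u)
    (hσ : 0 ≤ σ) (hτ : 0 ≤ τ) (hτκ : τ * κ ≤ 1 / 10) (hrp : 0 ≤ rp) (hrp' : rp ≤ (1 - σ) * a)
    (u1 : |IE| ≤ u * i + (1 + u) * rp)
    (u2 : (1 + 2 * u) * i - (1 + u) * (κ * σ * a) ≤ |IE|)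
    (r1 : u * a + (1 + u) * rp ≤ rE) (r2 : rE ≤ (1 + 2 * u) * a) :
    6 * |IE| - 2 * rE + 2 * τ * (rE - |IE|)
      ≤ u * ((8 - 2 * σ) * a - (6 - 4 * τ) * (a - i)) + ((4 - 2 * σ) * a + 2 * τ * (a - i)) := by
  have v1 : 6 * |IE| - 2 * rE ≤ u * (6 * i - 2 * a) + 4 * (1 + u) * ((1 - σ) * a) := by
    nlinarith [mul_le_mul_of_nonneg_left hrp' (by linarith : (0:ℝ) ≤ 1 + u)]
  have v2 : rE - |IE| ≤ (1 + 2 * u) * (a - i) + (1 + u) * (κ * σ * a) := by linarith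
  have hz : 0 ≤ σ * ((1 + u) * a) := mul_nonneg hσ (mul_nonneg (by linarith) (hi.trans hia))
  have v3 : 2 * τ * ((1 + u) * (κ * σ * a)) ≤ 2 * σ * ((1 + u) * a) := by
    nlinarith [mul_le_mul_of_nonneg_right hτκ hz]
  have v4 := mul_le_mul_of_nonneg_left v2 (by linarith : (0:ℝ) ≤ 2 * τ)
  nlinarith

/-- Completing the square in `F`. -/
lemma combine_le {b u σ τ a i D IE rE F S L q : ℝ} (hb : 0 < b) (hσ : 0 ≤ σ) (hτ : 0 ≤ τ)
    (hτ1 : τ ≤ 1 / 2) (hu : 0 ≤ u) (hD : 0 ≤ D) (ha : a ^ 2 = D)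
    (hsq : L ^ 2 ≤ 16 * (u * (1 + u)) * (1 - σ / 8) * (a ^ 2 + 3 * |i| ^ 2)
      + (3200 + 500 * (b / 200) * u ^ 2) * a ^ 2)
    (hM : 2 * |F| * rE ≤ S - 2 * IE * F)
    (hL : 6 * |IE| - 2 * rE + 2 * τ * (rE - |IE|) ≤ L)
    (hq : q = b * (u * (1 + u)) * (D + 3 * i ^ 2) + (S + 4 * IE * F) + 4 * F ^ 2 / b) :
    τ * S + (σ / 8 * (b * (u * (1 + u))) - 200 * b - (b * u) ^ 2) * D ≤ q := by
  have hFI : -(|F| * |IE|) ≤ IE * F := by
    rw [← abs_mul, mul_comm F]; exact neg_abs_le _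
  have hmix : τ * S - |F| * L ≤ S + 4 * IE * F := by
    have m1 := mul_le_mul_of_nonneg_left hM (by linarith : (0:ℝ) ≤ 1 - τ)
    have m2 := mul_le_mul_of_nonneg_left hL (abs_nonneg F)
    have m3 := mul_le_mul_of_nonneg_left hFI (by linarith : (0:ℝ) ≤ 6 - 2 * τ)
    linarith
  have hquad : -(b * L ^ 2 / 16) ≤ 4 * F ^ 2 / b - |F| * L := by
    have e : 4 * F ^ 2 / b - |F| * L + b * L ^ 2 / 16 = (8 * |F| - b * L) ^ 2 / (16 * b) := by
      rw [← sq_abs F]; field_simp; ring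
    have h0 : 0 ≤ (8 * |F| - b * L) ^ 2 / (16 * b) := by positivity
    linarith
  rw [ha, sq_abs] at hsq
  have k := mul_le_mul_of_nonneg_left hsq (by linarith : (0:ℝ) ≤ b / 16)
  have extra : b / 16 * ((3200 + 500 * (b / 200) * u ^ 2) * D) ≤ (200 * b + (b * u) ^ 2) * D := by
    rw [← mul_assoc]
    refine mul_le_mul_of_nonneg_right ?_ hD
    nlinarith [sq_nonneg (b * u)]
  rw [hq]
  nlinarith [mul_nonneg (mul_nonneg (mul_nonneg hb.le hu) (by linarith : (0:ℝ) ≤ 1 + u))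
    (mul_nonneg hσ (sq_nonneg i))]

/-- The core: the main part controls the mixed terms with a loss of order `b`. -/
lemma qMain_ge (hb : 0 < b) (hb1 : b ≤ 1) (hu : 0 ≤ u) (hd1 : 1 ≤ d1) (hd1κ : d1 ≤ κ)
    (hd2 : 1 ≤ d2) (hd2κ : d2 ≤ κ) :
    (Real.sqrt (b * u / (1 + b * u)) + Real.sqrt b) / (20 * κ)
        * (eW b u d1 * P.W1 + eW b u d2 * P.W2)
      + (b * u / (1 + b * u) / 8 * (b * (u * (1 + u))) - 200 * b - (b * u) ^ 2) * P.dW d1 d2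
      ≤ qMain P b u d1 d2 := by
  have hκ : 1 ≤ κ := hd1.trans hd1κ
  set x := b * u with hx
  have hx0 : 0 ≤ x := mul_nonneg hb.le hu
  obtain ⟨s1l, s1u, s11, -⟩ := share_bounds (κ := κ) hx0 hd1 hd1κ
  obtain ⟨s2l, s2u, s21, -⟩ := share_bounds (κ := κ) hx0 hd2 hd2κ
  set σ := x / (1 + x) with hσ
  set s1 := x * d1 / (1 + x * d1) with hs1
  set s2 := x * d2 / (1 + x * d2) with hs2
  have hσ0 : 0 ≤ σ := by positivity
  have hσ1 : σ ≤ 1 := by linarith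
  set τ := (Real.sqrt σ + Real.sqrt b) / (20 * κ) with hτ
  have hτ0 : 0 ≤ τ := by positivity
  have hsum : Real.sqrt σ + Real.sqrt b ≤ 2 := by
    linarith [Real.sqrt_le_one.2 hσ1, Real.sqrt_le_one.2 hb1]
  have hτκ : τ * κ ≤ 1 / 10 := by
    rw [hτ, div_mul_eq_mul_div, div_le_iff₀ (by positivity)]; nlinarith
  have hτ1 : τ ≤ 1 / 2 := by nlinarith
  have hτσ : τ ^ 2 ≤ σ / 100 + b / 200 := by
    rw [hτ, div_pow, div_le_iff₀ (by positivity)]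
    nlinarith [Real.sq_sqrt hσ0, Real.sq_sqrt hb.le, sq_nonneg (Real.sqrt σ - Real.sqrt b),
      mul_le_mul_of_nonneg_left (mul_le_mul hκ hκ zero_le_one (by linarith)) hσ0,
      mul_le_mul_of_nonneg_left (mul_le_mul hκ hκ zero_le_one (by linarith)) hb.le]
  set a := P.rW d1 d2 with ha
  set i := P.iW d1 d2 with hi
  have d10 : (0:ℝ) ≤ d1 := by linarith
  have d20 : (0:ℝ) ≤ d2 := by linarith
  have hia : |i| ≤ a := P.abs_iW_le d10 d20
  have p1 : 0 ≤ (1 - s1) * d1 := mul_nonneg (by linarith) d10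
  have p2 : 0 ≤ (1 - s2) * d2 := mul_nonneg (by linarith) d20
  have q1 : 0 ≤ s1 * d1 := mul_nonneg (hσ0.trans s1l) d10
  have q2 : 0 ≤ s2 * d2 := mul_nonneg (hσ0.trans s2l) d20
  set E1 := eW b u d1 with hE1
  set E2 := eW b u d2 with hE2
  have e1 : E1 = (1 + 2 * u - (1 + u) * s1) * d1 := by rw [hE1, eW]
  have e2 : E2 = (1 + 2 * u - (1 + u) * s2) * d2 := by rw [hE2, eW]
  set jp := P.iW ((1 - s1) * d1) ((1 - s2) * d2) with hjp
  set rp := P.rW ((1 - s1) * d1) ((1 - s2) * d2) with hrp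
  set js := P.iW (s1 * d1) (s2 * d2) with hjs
  have hjp' : |jp| ≤ rp := P.abs_iW_le p1 p2
  have hrp' : rp ≤ (1 - σ) * a := by
    rw [ha, ← P.rW_smul (by linarith : (0:ℝ) ≤ 1 - σ)]
    exact P.rW_mono p1 p2 (mul_le_mul_of_nonneg_right (by linarith) d10)
      (mul_le_mul_of_nonneg_right (by linarith) d20)
  have hjs' : |js| ≤ κ * σ * a := by
    refine (P.abs_iW_le q1 q2).trans ?_
    rw [ha, ← P.rW_smul (by positivity : (0:ℝ) ≤ κ * σ)]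
    exact P.rW_mono q1 q2 (mul_le_mul_of_nonneg_right s1u d10)
      (mul_le_mul_of_nonneg_right s2u d20)
  have iE : P.iW E1 E2 = u * i + (1 + u) * jp := by
    simp only [hi, hjp, PlaneData.iW, e1, e2]; ring
  have iE' : P.iW E1 E2 = (1 + 2 * u) * i - (1 + u) * js := by
    simp only [hi, hjs, PlaneData.iW, e1, e2]; ring
  have rE : u * a + (1 + u) * rp ≤ P.rW E1 E2 := by
    have h := P.rW_add_le (mul_nonneg hu d10) (mul_nonneg hu d20)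
      (mul_nonneg (by linarith : (0:ℝ) ≤ 1 + u) p1) (mul_nonneg (by linarith : (0:ℝ) ≤ 1 + u) p2)
    rw [P.rW_smul hu, P.rW_smul (by linarith : (0:ℝ) ≤ 1 + u)] at h
    convert h using 2 <;> [rw [e1]; rw [e2]] <;> ring
  have hE10 : 0 ≤ E1 := le_trans hu (eW_bounds hb hu hd1 hd1κ).1
  have hE20 : 0 ≤ E2 := le_trans hu (eW_bounds hb hu hd2 hd2κ).1
  have rE' : P.rW E1 E2 ≤ (1 + 2 * u) * a := by
    rw [ha, ← P.rW_smul (by linarith : (0:ℝ) ≤ 1 + 2 * u)]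
    exact P.rW_mono hE10 hE20 (eW_bounds hb hu hd1 hd1κ).2.2 (eW_bounds hb hu hd2 hd2κ).2.2
  have u1 : |P.iW E1 E2| ≤ u * |i| + (1 + u) * rp := by
    rw [iE]
    calc _ ≤ |u * i| + |(1 + u) * jp| := abs_add_le _ _
      _ = u * |i| + (1 + u) * |jp| := by
        rw [abs_mul, abs_mul, abs_of_nonneg hu, abs_of_nonneg (by linarith : (0:ℝ) ≤ 1 + u)]
      _ ≤ _ := by gcongr
  have u2 : (1 + 2 * u) * |i| - (1 + u) * (κ * σ * a) ≤ |P.iW E1 E2| := by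
    rw [iE']
    have := abs_sub_abs_le_abs_sub ((1 + 2 * u) * i) ((1 + u) * js)
    rw [abs_mul, abs_mul, abs_of_nonneg (by linarith : (0:ℝ) ≤ 1 + 2 * u),
      abs_of_nonneg (by linarith : (0:ℝ) ≤ 1 + u)] at this
    have := mul_le_mul_of_nonneg_left hjs' (by linarith : (0:ℝ) ≤ 1 + u)
    linarith
  have hbr := bracket_le (abs_nonneg i) hia hu hσ0 hτ0 hτκ (P.rW_nonneg _ _) hrp' u1 u2 rE rE'
  exact combine_le hb hσ0 hτ0 hτ1 hu (P.dW_nonneg d10 d20) (P.sq_rW d10 d20)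
      (bracket_sq_le (abs_nonneg i) hia hu hσ0 hσ1 hτ0 hτ1 (by linarith : (0:ℝ) ≤ b / 200) hτσ)
      (P.mixed_ge hE10 hE20) hbr
      (show qMain P b u d1 d2 = b * (u * (1 + u)) * (P.dW d1 d2 + 3 * i ^ 2)
        + (E1 * P.W1 + E2 * P.W2 + 4 * P.iW E1 E2 * P.F) + 4 * P.F ^ 2 / b by
        simp only [qMain, hE1, hE2, eW, PlaneData.iW, hi, hx]; ring)

/-- The scalar inequality in `x`. -/
lemma exists_small (C : ℝ) :
    ∃ b : ℝ, 0 < b ∧ b ≤ 1 ∧ ∀ u : ℝ, 0 ≤ u →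
      C * (Real.sqrt (b * u / (1 + b * u)) + b + b * u + (b * u) ^ 2) + (1 / 16) * (1 + b * u) ^ 2
        ≤ 1 + b * u / (1 + b * u) / 8 * (b * (u * (1 + u))) := by
  rcases le_or_gt C 0 with hC | hC
  · refine ⟨1 / 128, by norm_num, by norm_num, fun u hu => ?_⟩
    set x := (1 / 128 : ℝ) * u with hx
    have hx0 : 0 ≤ x := by positivity
    have hPhi : 128 * x ^ 2 ≤ (1 / 128 : ℝ) * (u * (1 + u)) := by rw [hx]; nlinarith
    have h1 : C * (Real.sqrt (x / (1 + x)) + 1 / 128 + x + x ^ 2) ≤ 0 :=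
      mul_nonpos_of_nonpos_of_nonneg hC (by positivity)
    have h2 : 16 * (x ^ 3 / (1 + x)) ≤ x / (1 + x) / 8 * ((1 / 128 : ℝ) * (u * (1 + u))) := by
      have := mul_le_mul_of_nonneg_left hPhi (by positivity : (0:ℝ) ≤ x / (1 + x) / 8)
      calc 16 * (x ^ 3 / (1 + x)) = x / (1 + x) / 8 * (128 * x ^ 2) := by ring
        _ ≤ _ := this
    have h3 : (1 / 16) * (1 + x) ^ 2 ≤ 1 + 16 * (x ^ 3 / (1 + x)) := by
      rw [← sub_nonneg]
      have : 0 < 1 + x := by linarith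
      field_simp
      nlinarith [sq_nonneg (x - 1), mul_nonneg hx0 (sq_nonneg (x - 1)), mul_nonneg hx0 hx0]
    linarith
  set δ := min 1 ((1 / (16 * C)) ^ 2) with hδ
  have hδ0 : 0 < δ := lt_min one_pos (by positivity)
  have hδ1 : δ ≤ 1 := min_le_left _ _
  have hsδ : C * Real.sqrt δ ≤ 1 / 16 := by
    have : Real.sqrt δ ≤ 1 / (16 * C) := by
      calc Real.sqrt δ ≤ Real.sqrt ((1 / (16 * C)) ^ 2) := Real.sqrt_le_sqrt (min_le_right _ _)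
        _ = _ := Real.sqrt_sq (by positivity)
    calc C * Real.sqrt δ ≤ C * (1 / (16 * C)) := mul_le_mul_of_nonneg_left this hC.le
      _ = 1 / 16 := by field_simp
  set K := (16 * (C + 1) * 4 / δ ^ 2) * (2 / δ) with hK
  have hK0 : 0 < K := by positivity
  refine ⟨min (min 1 (1 / (16 * C))) (1 / K), by positivity, (min_le_left _ _).trans (min_le_left _ _),
    fun u hu => ?_⟩
  set b := min (min 1 (1 / (16 * C))) (1 / K) with hb
  have hb0 : 0 < b := by positivity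
  have hb1 : b ≤ 1 := (min_le_left _ _).trans (min_le_left _ _)
  have hbC : C * b ≤ 1 / 16 := by
    calc C * b ≤ C * (1 / (16 * C)) :=
          mul_le_mul_of_nonneg_left ((min_le_left _ _).trans (min_le_right _ _)) hC.le
      _ = 1 / 16 := by field_simp
  have hbK : K * b ≤ 1 := by
    calc K * b ≤ K * (1 / K) := mul_le_mul_of_nonneg_left (min_le_right _ _) hK0.le
      _ = 1 := by field_simp
  set x := b * u with hx
  have hx0 : 0 ≤ x := by positivity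
  have hσ0 : 0 ≤ x / (1 + x) := by positivity
  have hσx : x / (1 + x) ≤ x := by rw [div_le_iff₀ (by linarith)]; nlinarith
  have hpos : 0 ≤ x / (1 + x) / 8 * (b * (u * (1 + u))) := by positivity
  rcases le_or_gt x δ with hxδ | hxδ
  · have h1 : Real.sqrt (x / (1 + x)) ≤ Real.sqrt δ := Real.sqrt_le_sqrt (hσx.trans hxδ)
    have hδs : δ ≤ Real.sqrt δ := by
      nlinarith [Real.sq_sqrt hδ0.le, Real.sqrt_nonneg δ, Real.sqrt_le_one.2 hδ1]
    nlinarith [mul_le_mul_of_nonneg_left h1 hC.le, mul_le_mul_of_nonneg_left (hxδ.trans hδs) hC.le,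
      mul_le_mul_of_nonneg_left (mul_le_mul hxδ (hxδ.trans hδ1) hx0 hδ0.le) hC.le]
  · have hσδ : δ / 2 ≤ x / (1 + x) := by
      rw [div_le_div_iff₀ two_pos (by linarith)]; nlinarith
    have hPhi : x ^ 2 / b ≤ b * (u * (1 + u)) := by
      rw [div_le_iff₀ hb0, hx]; nlinarith
    have hbig : 16 * (C + 1) * 4 * x ^ 2 / δ ^ 2 ≤ x / (1 + x) * (b * (u * (1 + u))) := by
      have h1 : δ / 2 * (x ^ 2 / b) ≤ x / (1 + x) * (b * (u * (1 + u))) :=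
        mul_le_mul hσδ hPhi (by positivity) hσ0
      refine le_trans ?_ h1
      have hb' : 16 * (C + 1) * 4 / δ ^ 2 * (2 / δ) ≤ 1 / b := by
        rw [le_div_iff₀ hb0]; rw [hK] at hbK; linarith
      calc 16 * (C + 1) * 4 * x ^ 2 / δ ^ 2
          = δ / 2 * x ^ 2 * (16 * (C + 1) * 4 / δ ^ 2 * (2 / δ)) := by field_simp
        _ ≤ δ / 2 * x ^ 2 * (1 / b) := mul_le_mul_of_nonneg_left hb' (by positivity)
        _ = δ / 2 * (x ^ 2 / b) := by ring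
    have hsmall : Real.sqrt (x / (1 + x)) + b + x + x ^ 2 + (1 + x) ^ 2 ≤ 8 * (x ^ 2 / δ ^ 2) := by
      have hr : 1 ≤ x / δ := by rw [le_div_iff₀ hδ0]; linarith
      have hxr : x ≤ x / δ := by rw [le_div_iff₀ hδ0]; nlinarith
      have hs : Real.sqrt (x / (1 + x)) ≤ 1 :=
        Real.sqrt_le_one.2 (by rw [div_le_one (by linarith)]; linarith)
      have : x ^ 2 / δ ^ 2 = (x / δ) ^ 2 := by ring
      rw [this]
      nlinarith [pow_le_pow_left₀ hx0 hxr 2, pow_le_pow_left₀ zero_le_one hr 2]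
    have hrpos : 0 ≤ x ^ 2 / δ ^ 2 := by positivity
    have h4 : 16 * (C + 1) * 4 * x ^ 2 / δ ^ 2 = 64 * (C + 1) * (x ^ 2 / δ ^ 2) := by ring
    rw [h4] at hbig
    nlinarith [mul_le_mul_of_nonneg_left hsmall (by linarith : (0:ℝ) ≤ C + 1),
      Real.sqrt_nonneg (x / (1 + x)), sq_nonneg (1 + x)]

/-- The negative of the curvature numerator, up to the error `R`. -/
noncomputable def qTotal (P : PlaneData) (b u d1 d2 R : ℝ) : ℝ :=
  P.dW 1 1 + 3 * P.iW 1 1 ^ 2 + qMain P b u d1 d2 + R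

/-- The cross term is absorbed. -/
lemma cross_le {b u κ C D W r : ℝ} (hb : 0 < b) (hu : 0 ≤ u) (hκ : 1 ≤ κ)
    (hr : r ^ 2 = D) (hD : 0 ≤ D) (hW : 0 ≤ W) :
    C * (Real.sqrt (b * (u * (1 + u))) / (1 + b * u)) * r * Real.sqrt W
      ≤ (Real.sqrt (b * u / (1 + b * u)) + Real.sqrt b) / (20 * κ) / 2
          * ((1 + u) / (κ * (1 + b * u)) * W)
        + 10 * C ^ 2 * κ ^ 2 * Real.sqrt (b * u / (1 + b * u)) * D := by
  have hsb : 0 < Real.sqrt b := Real.sqrt_pos.2 hb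
  set σ := b * u / (1 + b * u) with hσ
  have hσ0 : 0 ≤ σ := by positivity
  set τ := (Real.sqrt σ + Real.sqrt b) / (20 * κ) with hτ
  set Em := (1 + u) / (κ * (1 + b * u)) with hEm
  set G := C * (Real.sqrt (b * (u * (1 + u))) / (1 + b * u)) with hG
  have hτ0 : 0 < τ := by positivity
  have hEm0 : 0 < Em := by positivity
  have hs : Real.sqrt W ^ 2 = W := Real.sq_sqrt hW
  have h1 : G * r * Real.sqrt W ≤ τ * Em / 2 * W + G ^ 2 / (2 * (τ * Em)) * D := by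
    have e : τ * Em / 2 * Real.sqrt W ^ 2 + G ^ 2 / (2 * (τ * Em)) * r ^ 2 - G * r * Real.sqrt W
        = (τ * Em * Real.sqrt W - G * r) ^ 2 / (2 * (τ * Em)) := by
      field_simp; ring
    have : 0 ≤ (τ * Em * Real.sqrt W - G * r) ^ 2 / (2 * (τ * Em)) := by positivity
    rw [hs, hr] at e
    linarith
  have h2 : G ^ 2 / (2 * (τ * Em)) ≤ 10 * C ^ 2 * κ ^ 2 * Real.sqrt σ := by
    have hG2 : G ^ 2 = C ^ 2 * κ * σ * Em := by
      rw [hG, mul_pow, div_pow, Real.sq_sqrt (by positivity), hσ, hEm]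
      field_simp
    rw [hG2, div_le_iff₀ (by positivity)]
    have hst : Real.sqrt σ ≤ 20 * κ * τ := by
      rw [hτ, mul_div_cancel₀ _ (by positivity : (20 * κ : ℝ) ≠ 0)]; linarith
    calc C ^ 2 * κ * σ * Em = C ^ 2 * κ * Em * (Real.sqrt σ * Real.sqrt σ) := by
          rw [Real.mul_self_sqrt hσ0]; ring
      _ ≤ C ^ 2 * κ * Em * (Real.sqrt σ * (20 * κ * τ)) := by
          refine mul_le_mul_of_nonneg_left ?_ (by positivity)
          exact mul_le_mul_of_nonneg_left hst (Real.sqrt_nonneg _)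
      _ = _ := by ring
  have := mul_le_mul_of_nonneg_right h2 hD
  linarith

/-- The error term, crudely. -/
lemma error_le {b u C D W r : ℝ} (hb : 0 < b) (hb1 : b ≤ 1) (hu : 0 ≤ u) (hC : 0 ≤ C)
    (hr0 : 0 ≤ r) (hr : r ^ 2 = D) (hD : 0 ≤ D) (hW : 0 ≤ W) :
    C * (b * u) * D + C * (Real.sqrt (b * (u * (1 + u))) / (1 + b * u)) * r * Real.sqrt W
      ≤ (C + C * C) / b * ((1 + b * u) ^ 2 * D) + (1 + b * u) * W := by
  have hsb : 0 < Real.sqrt b := Real.sqrt_pos.2 hb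
  set x := b * u with hx
  have hx0 : 0 ≤ x := by positivity
  have hG : Real.sqrt (b * (u * (1 + u))) / (1 + x) ≤ 1 / Real.sqrt b := by
    rw [div_le_div_iff₀ (by positivity) hsb, ← Real.sqrt_mul (by positivity), one_mul,
      Real.sqrt_le_left (by positivity), hx]
    nlinarith
  have k1 : C * (Real.sqrt (b * (u * (1 + u))) / (1 + x)) * r * Real.sqrt W ≤ C ^ 2 / b * D + W := by
    calc _ ≤ C * (1 / Real.sqrt b) * r * Real.sqrt W := by gcongr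
      _ ≤ (C * (1 / Real.sqrt b) * r) ^ 2 + Real.sqrt W ^ 2 := by
          nlinarith [sq_nonneg (C * (1 / Real.sqrt b) * r - Real.sqrt W),
            sq_nonneg (C * (1 / Real.sqrt b) * r), sq_nonneg (Real.sqrt W)]
      _ = _ := by
          rw [Real.sq_sqrt hW, mul_pow, mul_pow, div_pow, Real.sq_sqrt hb.le, hr]
          ring
  have k2 : x ≤ (1 + x) ^ 2 / b := by rw [le_div_iff₀ hb]; nlinarith
  have k3 : 1 / b ≤ (1 + x) ^ 2 / b := by gcongr; nlinarith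
  have e : C ^ 2 / b = C ^ 2 * (1 / b) := by ring
  have e' : (C + C * C) / b * ((1 + x) ^ 2 * D) = (C + C * C) * ((1 + x) ^ 2 / b) * D := by ring
  rw [e] at k1
  rw [e']
  nlinarith [mul_le_mul_of_nonneg_right (mul_le_mul_of_nonneg_left k2 hC) hD,
    mul_le_mul_of_nonneg_right (mul_le_mul_of_nonneg_left k3 (sq_nonneg C)) hD, mul_nonneg hx0 hW]

/-- The error terms fit in the small budget. -/
lemma small_terms_le {b x s C κ : ℝ} (hb : 0 < b) (hC : 0 ≤ C) (hx : 0 ≤ x) (hs : 0 ≤ s) :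
    200 * κ ^ 2 * b + κ ^ 2 * x ^ 2 + C * x + 10 * C ^ 2 * κ ^ 2 * s
      ≤ (200 * κ ^ 2 + C + 10 * C ^ 2 * κ ^ 2) * (s + b + x + x ^ 2) := by
  have h : 0 ≤ 200 * κ ^ 2 * (s + x) + 199 * κ ^ 2 * x ^ 2 + C * (s + b + x ^ 2)
      + 10 * C ^ 2 * κ ^ 2 * (b + x + x ^ 2) := by positivity
  linarith

/-- The mixed weights grow linearly. -/
lemma weight_lower {b u κ E1 E2 W1 W2 : ℝ} (hb : 0 < b) (hb1 : b ≤ 1) (hu : 0 ≤ u) (hκ : 1 ≤ κ)
    (hW1 : 0 ≤ W1) (hW2 : 0 ≤ W2) (l1 : u ≤ E1) (l2 : u ≤ E2)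
    (l1' : (1 + u) / (κ * (1 + b * u)) ≤ E1) (l2' : (1 + u) / (κ * (1 + b * u)) ≤ E2) :
    Real.sqrt b / (160 * κ ^ 2) * (1 + b * u) * (W1 + W2)
      ≤ (Real.sqrt (b * u / (1 + b * u)) + Real.sqrt b) / (20 * κ) / 2 * (E1 * W1 + E2 * W2) := by
  have hsb : 0 < Real.sqrt b := Real.sqrt_pos.2 hb
  have hxu : b * u ≤ u := mul_le_of_le_one_left hu hb1
  have hx0 : 0 ≤ b * u := mul_nonneg hb.le hu
  have hE : (1 + b * u) / (4 * κ) ≤ E1 ∧ (1 + b * u) / (4 * κ) ≤ E2 := by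
    rcases le_or_gt (b * u) 1 with hx1 | hx1
    · have : (1 + b * u) / (4 * κ) ≤ (1 + u) / (κ * (1 + b * u)) := by
        rw [div_le_div_iff₀ (by positivity) (by positivity)]
        have h4 : (1 + b * u) * (1 + b * u) ≤ 4 * (1 + u) := by
          linarith [mul_le_mul_of_nonneg_left hx1 hx0]
        linarith [mul_le_mul_of_nonneg_left h4 (by linarith : (0:ℝ) ≤ κ)]
      exact ⟨this.trans l1', this.trans l2'⟩
    · have : (1 + b * u) / (4 * κ) ≤ u := by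
        rw [div_le_iff₀ (by positivity)]
        linarith [mul_le_mul_of_nonneg_left hκ hu]
      exact ⟨this.trans l1, this.trans l2⟩
  have hτl : Real.sqrt b / (20 * κ) ≤ (Real.sqrt (b * u / (1 + b * u)) + Real.sqrt b) / (20 * κ) := by
    gcongr; linarith [Real.sqrt_nonneg (b * u / (1 + b * u))]
  have e : Real.sqrt b / (160 * κ ^ 2) * (1 + b * u)
      = Real.sqrt b / (20 * κ) / 2 * ((1 + b * u) / (4 * κ)) := by
    field_simp; ring
  rw [e, mul_assoc]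
  refine mul_le_mul (by linarith) ?_ (by positivity) (by positivity)
  linarith [mul_le_mul_of_nonneg_right hE.1 hW1, mul_le_mul_of_nonneg_right hE.2 hW2]

/-- Assembling the lower bound. -/
lemma low_final {τ S G b x κ K C D Dd q R I Em W cr low : ℝ}
    (hmain : τ * S + (G - 200 * b - x ^ 2) * Dd ≤ q)
    (z1 : (G - 200 * κ ^ 2 * b - κ ^ 2 * x ^ 2) * D ≤ (G - 200 * b - x ^ 2) * Dd)
    (z4 : (1 + x) ^ 2 / 16 * D ≤ (1 + G - (200 * κ ^ 2 * b + κ ^ 2 * x ^ 2 + C * x + K)) * D)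
    (hR : |R| ≤ C * x * D + cr) (hcross : cr ≤ τ / 2 * (Em * W) + K * D) (hEW : Em * W ≤ S)
    (hτ : 0 ≤ τ) (hI : 0 ≤ I) (hlow : low ≤ τ / 2 * S) :
    (1 + x) ^ 2 / 16 * D + low ≤ D + 3 * I + q + R := by
  have := mul_le_mul_of_nonneg_left hEW (by linarith : (0:ℝ) ≤ τ / 2)
  linarith [neg_abs_le R]

/-- The main lower bound. -/
lemma qTotal_ge (P : PlaneData) {κ C b u d1 d2 R : ℝ} (hκ : 1 ≤ κ) (hC : 0 ≤ C) (hb : 0 < b)
    (hb1 : b ≤ 1) (hu : 0 ≤ u) (hd1 : 1 ≤ d1) (hd1κ : d1 ≤ κ) (hd2 : 1 ≤ d2) (hd2κ : d2 ≤ κ)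
    (hsm : (200 * κ ^ 2 + C + 10 * C ^ 2 * κ ^ 2)
        * (Real.sqrt (b * u / (1 + b * u)) + b + b * u + (b * u) ^ 2)
        + (1 / 16) * (1 + b * u) ^ 2 ≤ 1 + b * u / (1 + b * u) / 8 * (b * (u * (1 + u))))
    (hR : |R| ≤ C * (b * u) * P.dW 1 1
          + C * (Real.sqrt (b * (u * (1 + u))) / (1 + b * u)) * P.rW 1 1
            * Real.sqrt (P.W1 + P.W2)) :
    (1 + b * u) ^ 2 / 16 * P.dW 1 1
      + Real.sqrt b / (160 * κ ^ 2) * (1 + b * u) * (P.W1 + P.W2) ≤ qTotal P b u d1 d2 R := by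
  obtain ⟨l1, l1', -⟩ := eW_bounds (κ := κ) hb hu hd1 hd1κ
  obtain ⟨l2, l2', -⟩ := eW_bounds (κ := κ) hb hu hd2 hd2κ
  set x := b * u with hx
  have hx0 : 0 ≤ x := mul_nonneg hb.le hu
  have hsb : 0 < Real.sqrt b := Real.sqrt_pos.2 hb
  have d10 : (0:ℝ) ≤ d1 := by linarith
  have d20 : (0:ℝ) ≤ d2 := by linarith
  have hD1 : 0 ≤ P.dW 1 1 := P.dW_nonneg zero_le_one zero_le_one
  have hDd : P.dW d1 d2 ≤ κ ^ 2 * P.dW 1 1 := by
    calc P.dW d1 d2 ≤ P.dW (κ * 1) (κ * 1) := P.dW_mono d10 d20 (by linarith) (by linarith)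
      _ = _ := by simp only [PlaneData.dW, PlaneData.iW]; ring
  have hDd' : P.dW 1 1 ≤ P.dW d1 d2 := P.dW_mono zero_le_one zero_le_one hd1 hd2
  have hW : 0 ≤ P.W1 + P.W2 := add_nonneg P.hW1 P.hW2
  have hmain := qMain_ge P hb hb1 hu hd1 hd1κ hd2 hd2κ
  have hcross := cross_le (C := C) (κ := κ) hb hu hκ (P.sq_rW zero_le_one zero_le_one) hD1 hW
  rw [← hx] at hmain hcross
  set E1 := eW b u d1
  set E2 := eW b u d2
  set σ := x / (1 + x) with hσ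
  have hσ0 : 0 ≤ σ := by positivity
  set τ := (Real.sqrt σ + Real.sqrt b) / (20 * κ) with hτ
  have hτ0 : 0 < τ := by positivity
  set Φ := b * (u * (1 + u)) with hΦ
  have hΦ0 : 0 ≤ Φ := by positivity
  have hEW : (1 + u) / (κ * (1 + x)) * (P.W1 + P.W2) ≤ E1 * P.W1 + E2 * P.W2 := by
    linarith [mul_le_mul_of_nonneg_right l1' P.hW1, mul_le_mul_of_nonneg_right l2' P.hW2]
  have hlowW := weight_lower hb hb1 hu hκ P.hW1 P.hW2 l1 l2 l1' l2'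
  rw [← hx, ← hσ, ← hτ] at hlowW
  have hσΦ : 0 ≤ σ / 8 * Φ := by positivity
  have z1 : (σ / 8 * Φ - 200 * κ ^ 2 * b - κ ^ 2 * x ^ 2) * P.dW 1 1
      ≤ (σ / 8 * Φ - 200 * b - x ^ 2) * P.dW d1 d2 := by
    linarith [mul_le_mul_of_nonneg_left hDd' hσΦ,
      mul_le_mul_of_nonneg_left hDd (by positivity : (0:ℝ) ≤ 200 * b + x ^ 2)]
  have z3 := small_terms_le (κ := κ) hb hC hx0 (Real.sqrt_nonneg σ)
  have z4 := mul_le_mul_of_nonneg_right (show (1 + x) ^ 2 / 16 ≤ 1 + σ / 8 * Φ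
      - (200 * κ ^ 2 * b + κ ^ 2 * x ^ 2 + C * x + 10 * C ^ 2 * κ ^ 2 * Real.sqrt σ) by linarith) hD1
  exact low_final hmain z1 z4 hR hcross hEW hτ0.le (sq_nonneg _) hlowW

/-- The area is controlled by the curvature numerator. -/
lemma lower_final {b C κ cW cD Kl X Y A q0 q1 S m f R D3 : ℝ} (hb : 0 < b) (hb1 : b ≤ 1)
    (hC : 0 ≤ C) (hcW : 0 < cW) (hKl : Kl = 32 * κ ^ 2 + (1 + 16 * cD + 1 / cW) + κ / cW)
    (hcD : cD = (C + C * C + 8 * κ ^ 2) / b) (hX : 0 ≤ X) (hY : 0 ≤ Y)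
    (hT : X / 16 + cW * Y ≤ q0 + 3 * D3 + (q1 + (S + m) + 4 * f / b) + R)
    (hD3 : 0 ≤ D3) (hq1 : 0 ≤ q1) (hS : 0 ≤ S) (hR : |R| ≤ (C + C * C) / b * X + Y)
    (hm : |m| ≤ 2 * f / b + 8 * κ ^ 2 / b * X) (hA : A ≤ 2 * (κ ^ 2 * X) + 2 * f + κ * Y)
    (hq0 : 0 ≤ q0) (hκ : 0 ≤ κ) (hf : 0 ≤ f) :
    1 / Kl * A ≤ q0 + 3 * D3 + (q1 + (S + m) + 4 * f / b) + R := by
  set T := q0 + 3 * D3 + (q1 + (S + m) + 4 * f / b) + R with hTdef
  have hcD0 : 0 ≤ cD := by rw [hcD]; positivity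
  have hKl0 : 0 < Kl := by rw [hKl]; positivity
  have e1 : 4 * f / b = 2 * (2 * f / b) := by ring
  have e2 : cD * X = (C + C * C) / b * X + 8 * κ ^ 2 / b * X := by rw [hcD]; ring
  have hF : 2 * f / b ≤ T + cD * X + Y := by
    rw [e2, hTdef]; linarith [neg_abs_le m, neg_abs_le R]
  have hF' : 2 * f ≤ 2 * f / b := by
    rw [le_div_iff₀ hb]; exact mul_le_of_le_one_right (by linarith) hb1
  have hXT : X ≤ 16 * T := by linarith [mul_nonneg hcW.le hY]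
  have hYT : Y ≤ 1 / cW * T := by
    rw [div_mul_eq_mul_div, one_mul, le_div_iff₀ hcW]; linarith
  have e : κ * (1 / cW * T) = κ / cW * T := by ring
  have h3 := mul_le_mul_of_nonneg_left hYT hκ
  rw [e] at h3
  rw [div_mul_eq_mul_div, one_mul, div_le_iff₀ hKl0, hKl]
  linarith [mul_le_mul_of_nonneg_left hXT hcD0, mul_le_mul_of_nonneg_left hXT (sq_nonneg κ)]

/-- The curvature numerator is controlled by the area. -/
lemma upper_final {b C κ X Y A q0 q1 S m f R D3 : ℝ} (hb : 0 < b) (hC : 0 ≤ C)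
    (aX : X ≤ A) (af : f ≤ A) (aY : Y ≤ A) (b1 : q0 + 3 * D3 ≤ 4 * X)
    (b2 : q1 ≤ 4 * κ ^ 2 / b * X) (b3 : S ≤ 2 * κ / b * Y)
    (hm : |m| ≤ 2 * f / b + 8 * κ ^ 2 / b * X) (hR : |R| ≤ (C + C * C) / b * X + Y)
    (hκ : 0 ≤ κ) :
    q0 + 3 * D3 + (q1 + (S + m) + 4 * f / b) + R
      ≤ (5 + (4 * κ ^ 2 + 2 * κ + (2 + 8 * κ ^ 2) + 4 + (C + C * C)) / b) * A := by
  have e : 2 * f / b = 2 / b * f := by ring
  have e' : 4 * f / b = 4 / b * f := by ring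
  simp only [add_div, add_mul]
  rw [e']
  rw [e] at hm
  linarith [le_abs_self m, le_abs_self R,
    mul_le_mul_of_nonneg_left af (by positivity : (0:ℝ) ≤ 2 / b),
    mul_le_mul_of_nonneg_left af (by positivity : (0:ℝ) ≤ 4 / b),
    mul_le_mul_of_nonneg_left aX (by positivity : (0:ℝ) ≤ 4 * κ ^ 2 / b),
    mul_le_mul_of_nonneg_left aX (by positivity : (0:ℝ) ≤ 8 * κ ^ 2 / b),
    mul_le_mul_of_nonneg_left aY (by positivity : (0:ℝ) ≤ 2 * κ / b),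
    mul_le_mul_of_nonneg_left aX (by positivity : (0:ℝ) ≤ (C + C * C) / b),
    show (C + C * C) / b * A = C / b * A + C * C / b * A by ring]

/-- Negative pinching, as an inequality. -/
theorem pinching (κ C : ℝ) (hκ : 1 ≤ κ) (hC : 0 ≤ C) :
    ∃ b a0 B0 : ℝ, 0 < b ∧ b ≤ 1 ∧ 0 < a0 ∧
      ∀ (P : PlaneData) (u d1 d2 R : ℝ), 0 ≤ u → 1 ≤ d1 → d1 ≤ κ → 1 ≤ d2 → d2 ≤ κ →
        |R| ≤ C * (b * u) * P.dW 1 1
          + C * (Real.sqrt (b * (u * (1 + u))) / (1 + b * u)) * P.rW 1 1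
            * Real.sqrt (P.W1 + P.W2) →
        a0 * P.area (b * u) d1 d2 ≤ qTotal P b u d1 d2 R ∧
          qTotal P b u d1 d2 R ≤ B0 * P.area (b * u) d1 d2 := by
  obtain ⟨b, hb, hb1, hsmall⟩ := exists_small (200 * κ ^ 2 + C + 10 * C ^ 2 * κ ^ 2)
  set cW := Real.sqrt b / (160 * κ ^ 2) with hcW
  have hsb : 0 < Real.sqrt b := Real.sqrt_pos.2 hb
  have hcW0 : 0 < cW := by positivity
  set cD := (C + C * C + 8 * κ ^ 2) / b with hcD
  set Kl := 32 * κ ^ 2 + (1 + 16 * cD + 1 / cW) + κ / cW with hKl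
  have hKl0 : 0 < Kl := by positivity
  refine ⟨b, 1 / Kl, 5 + (4 * κ ^ 2 + 2 * κ + (2 + 8 * κ ^ 2) + 4 + (C + C * C)) / b, hb, hb1,
    by positivity, fun P u d1 d2 R hu hd1 hd1κ hd2 hd2κ hR => ?_⟩
  have hT := qTotal_ge P hκ hC hb hb1 hu hd1 hd1κ hd2 hd2κ (hsmall u hu) hR
  rw [← hcW] at hT
  set x := b * u with hx
  have hx0 : 0 ≤ x := mul_nonneg hb.le hu
  have d10 : (0:ℝ) ≤ d1 := by linarith
  have d20 : (0:ℝ) ≤ d2 := by linarith
  have hD1 : 0 ≤ P.dW 1 1 := P.dW_nonneg zero_le_one zero_le_one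
  have hW : 0 ≤ P.W1 + P.W2 := add_nonneg P.hW1 P.hW2
  have hr := error_le hb hb1 hu hC (P.rW_nonneg 1 1) (P.sq_rW zero_le_one zero_le_one) hD1 hW
  rw [← hx] at hr
  obtain ⟨l1, -, m1⟩ := eW_bounds (κ := κ) hb hu hd1 hd1κ
  obtain ⟨l2, -, m2⟩ := eW_bounds (κ := κ) hb hu hd2 hd2κ
  have hq : qMain P b u d1 d2 = b * (u * (1 + u)) * (P.dW d1 d2 + 3 * P.iW d1 d2 ^ 2)
      + (eW b u d1 * P.W1 + eW b u d2 * P.W2 + 4 * P.iW (eW b u d1) (eW b u d2) * P.F)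
      + 4 * P.F ^ 2 / b := by
    simp only [qMain, eW, PlaneData.iW]; ring
  set E1 := eW b u d1
  set E2 := eW b u d2
  have hex : (1 + 2 * u) ≤ 2 * ((1 + x) / b) := by
    rw [mul_div_assoc', le_div_iff₀ hb, hx]
    linarith [mul_nonneg hb.le hu]
  have h0 : 0 ≤ 2 * ((1 + x) / b) * κ := by positivity
  have hEb : E1 ≤ 2 * ((1 + x) / b) * κ ∧ E2 ≤ 2 * ((1 + x) / b) * κ :=
    ⟨m1.trans (mul_le_mul hex hd1κ d10 (by positivity)),
      m2.trans (mul_le_mul hex hd2κ d20 (by positivity))⟩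
  have hiE : |P.iW E1 E2| ≤ 2 * κ * ((1 + x) / b) * P.rW 1 1 := by
    refine (P.abs_iW_le (hu.trans l1) (hu.trans l2)).trans ?_
    calc P.rW E1 E2 ≤ P.rW (2 * ((1 + x) / b) * κ * 1) (2 * ((1 + x) / b) * κ * 1) :=
          P.rW_mono (hu.trans l1) (hu.trans l2) (by rw [mul_one]; exact hEb.1)
            (by rw [mul_one]; exact hEb.2)
      _ = _ := by rw [P.rW_smul h0]; ring
  have hFI : |4 * P.iW E1 E2 * P.F|
      ≤ 2 * P.F ^ 2 / b + 8 * κ ^ 2 / b * ((1 + x) ^ 2 * P.dW 1 1) := by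
    calc |4 * P.iW E1 E2 * P.F| = 4 * |P.F| * |P.iW E1 E2| := by
          rw [abs_mul, abs_mul]; norm_num; ring
      _ ≤ 2 * P.F ^ 2 / b + 2 * b * |P.iW E1 E2| ^ 2 := by
          have e : 2 * P.F ^ 2 / b + 2 * b * |P.iW E1 E2| ^ 2 - 4 * |P.F| * |P.iW E1 E2|
              = 2 / b * (|P.F| - b * |P.iW E1 E2|) ^ 2 := by
            rw [← sq_abs P.F]; field_simp; ring
          have : 0 ≤ 2 / b * (|P.F| - b * |P.iW E1 E2|) ^ 2 := by positivity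
          linarith
      _ ≤ 2 * P.F ^ 2 / b + 2 * b * (2 * κ * ((1 + x) / b) * P.rW 1 1) ^ 2 := by
          have := mul_le_mul_of_nonneg_left (pow_le_pow_left₀ (abs_nonneg _) hiE 2)
            (by linarith : (0:ℝ) ≤ 2 * b)
          linarith
      _ = _ := by rw [mul_pow, P.sq_rW zero_le_one zero_le_one]; field_simp; ring
  have hDd : P.dW d1 d2 ≤ κ ^ 2 * P.dW 1 1 := by
    calc P.dW d1 d2 ≤ P.dW (κ * 1) (κ * 1) := P.dW_mono d10 d20 (by linarith) (by linarith)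
      _ = _ := by simp only [PlaneData.dW, PlaneData.iW]; ring
  have hDd0 := P.dW_nonneg d10 d20
  have hp1 : 0 ≤ 1 + x * d1 := by positivity
  have hp2 : 0 ≤ 1 + x * d2 := by positivity
  have h1x : ∀ d : ℝ, 1 ≤ d → 1 + x ≤ 1 + x * d := fun d hd => by
    linarith [mul_le_mul_of_nonneg_left hd hx0]
  have hxk : ∀ d : ℝ, d ≤ κ → 1 + x * d ≤ κ * (1 + x) := fun d hd => by
    linarith [mul_le_mul_of_nonneg_left hd hx0]
  have hia : P.iW (1 + x * d1) (1 + x * d2) ^ 2 ≤ P.dW (1 + x * d1) (1 + x * d2) :=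
    le_add_of_nonneg_right (mul_nonneg (mul_nonneg hp1 hp2) P.hZ)
  have hDge : (1 + x) ^ 2 * P.dW 1 1 ≤ P.dW (1 + x * d1) (1 + x * d2) := by
    calc _ = P.dW ((1 + x) * 1) ((1 + x) * 1) := by
          simp only [PlaneData.dW, PlaneData.iW]; ring
      _ ≤ _ := P.dW_mono (by positivity) (by positivity) (by rw [mul_one]; exact h1x d1 hd1)
          (by rw [mul_one]; exact h1x d2 hd2)
  have hDle : P.dW (1 + x * d1) (1 + x * d2) ≤ κ ^ 2 * ((1 + x) ^ 2 * P.dW 1 1) := by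
    calc _ ≤ P.dW (κ * (1 + x) * 1) (κ * (1 + x) * 1) :=
          P.dW_mono hp1 hp2 (by rw [mul_one]; exact hxk d1 hd1κ) (by rw [mul_one]; exact hxk d2 hd2κ)
      _ = _ := by simp only [PlaneData.dW, PlaneData.iW]; ring
  have hX0 : 0 ≤ (1 + x) ^ 2 * P.dW 1 1 := by positivity
  have hY0 : 0 ≤ (1 + x) * (P.W1 + P.W2) := by positivity
  have hQ0 : 0 ≤ b * (u * (1 + u)) * (P.dW d1 d2 + 3 * P.iW d1 d2 ^ 2) := by positivity
  have hEW0 : 0 ≤ E1 * P.W1 + E2 * P.W2 :=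
    add_nonneg (mul_nonneg (hu.trans l1) P.hW1) (mul_nonneg (hu.trans l2) P.hW2)
  have hWh : (1 + x) * (P.W1 + P.W2) ≤ (1 + x * d1) * P.W1 + (1 + x * d2) * P.W2 := by
    linarith [mul_le_mul_of_nonneg_right (h1x d1 hd1) P.hW1,
      mul_le_mul_of_nonneg_right (h1x d2 hd2) P.hW2]
  have hWh' : (1 + x * d1) * P.W1 + (1 + x * d2) * P.W2 ≤ κ * ((1 + x) * (P.W1 + P.W2)) := by
    linarith [mul_le_mul_of_nonneg_right (hxk d1 hd1κ) P.hW1,
      mul_le_mul_of_nonneg_right (hxk d2 hd2κ) P.hW2]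
  have hMh := P.mixed_ge hp1 hp2
  have hMh0 : 0 ≤ 2 * |P.F| * P.rW (1 + x * d1) (1 + x * d2) :=
    mul_nonneg (by positivity) (P.rW_nonneg _ _)
  have hDd1h := P.dW_nonneg hp1 hp2
  have hR' := hR.trans hr
  set T := qTotal P b u d1 d2 R with hTdef
  set X := (1 + x) ^ 2 * P.dW 1 1 with hX
  set Y := (1 + x) * (P.W1 + P.W2) with hY
  have hT' : X / 16 + cW * Y ≤ T := by rw [hX, hY]; linarith
  have hT0 : 0 ≤ T := le_trans (by positivity) hT'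
  have hTeq : T = P.dW 1 1 + 3 * P.iW 1 1 ^ 2
      + (b * (u * (1 + u)) * (P.dW d1 d2 + 3 * P.iW d1 d2 ^ 2)
        + (E1 * P.W1 + E2 * P.W2 + 4 * P.iW E1 E2 * P.F) + 4 * P.F ^ 2 / b) + R := by
    rw [hTdef, qTotal, hq]
  rw [hTeq] at hT0 hT' ⊢
  refine ⟨lower_final hb hb1 hC hcW0 hKl hcD hX0 hY0 hT'
    (sq_nonneg _) hQ0 hEW0 hR' hFI ?_ hD1 (zero_le_one.trans hκ) (sq_nonneg _),
    upper_final hb hC ?_ ?_ ?_ ?_ ?_ ?_ hFI hR' (zero_le_one.trans hκ)⟩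
  · rw [PlaneData.area]
    linarith only [sq_nonneg (P.iW (1 + x * d1) (1 + x * d2) + P.F), hia, hDle, hWh']
  · rw [PlaneData.area]
    linarith only [sq_nonneg P.F, hMh, hMh0, hDge]
  · rw [PlaneData.area]
    linarith only [hMh, hMh0, hDd1h]
  · rw [PlaneData.area]
    linarith only [sq_nonneg (P.iW (1 + x * d1) (1 + x * d2) - P.F), hia, hWh, hMh, hMh0]
  · have : P.iW 1 1 ^ 2 ≤ P.dW 1 1 :=
      le_add_of_nonneg_right (mul_nonneg (mul_nonneg zero_le_one zero_le_one) P.hZ)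
    have : P.dW 1 1 ≤ X := le_mul_of_one_le_left hD1 (one_le_pow₀ (by linarith))
    linarith
  · have h1 : P.iW d1 d2 ^ 2 ≤ P.dW d1 d2 :=
      le_add_of_nonneg_right (mul_nonneg (mul_nonneg d10 d20) P.hZ)
    have h2 : b * (u * (1 + u)) ≤ (1 + x) ^ 2 / b := by
      rw [le_div_iff₀ hb, hx]
      linarith only [mul_le_mul_of_nonneg_left hb1 (mul_nonneg hb.le hu), mul_nonneg hb.le hu]
    calc _ ≤ (1 + x) ^ 2 / b * (4 * (κ ^ 2 * P.dW 1 1)) :=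
          mul_le_mul h2 (by linarith only [h1, hDd]) (by positivity) (by positivity)
      _ = 4 * κ ^ 2 / b * X := by rw [hX]; ring
  · calc _ ≤ 2 * ((1 + x) / b) * κ * (P.W1 + P.W2) := by
          linarith only [mul_le_mul_of_nonneg_right hEb.1 P.hW1,
            mul_le_mul_of_nonneg_right hEb.2 P.hW2]
      _ = 2 * κ / b * Y := by rw [hY]; ring

end main

end Vale.BDU
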