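import Vale.Agent.BDU.Defs

/-!
# P250: the objects of the construction
-/

open scoped ContDiff

namespace Vale.BDU

/-- Complex two-space with its inner product (antilinear in the first slot). -/
abbrev V2 := EuclideanSpace ℂ (Fin 2)

/-- The open unit ball of complex two-space. -/
abbrev ball2 : Set V2 := Metric.ball 0 1

/-- `q = (3/2)/(1 + N(1 - ⟨z,ξ⟩))`; it equals one exactly on the slice `⟨z,ξ⟩ = 1 - 1/(2N)`. -/
noncomputable def qfun (N : ℝ) (ξ z : V2) : ℂ :=
  (3 / 2 : ℂ) / (1 + (N : ℂ) * (1 - inner ℂ ξ z))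

/-- The well: a plurisubharmonic function of `q`, of third order at zero, about `log ε` at one. -/
noncomputable def well (ε : ℝ) (q : ℂ) : ℝ :=
  Real.log (Complex.normSq (1 - q) + ε * Complex.normSq q ^ 3) + 2 * (q + q ^ 2 / 2).re

/-- `s` is separated at scale `1/N` on the unit sphere. -/
def IsSeparated (N : ℝ) (s : Finset V2) : Prop :=
  (∀ ξ ∈ s, ‖ξ‖ = 1) ∧ ∀ ξ ∈ s, ∀ η ∈ s, ξ ≠ η → 1 / N ≤ ‖1 - inner ℂ ξ η‖

/-- A separated set which covers the sphere at scale `1/N`. -/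
def IsNet (N : ℝ) (s : Finset V2) : Prop :=
  IsSeparated N s ∧ ∀ e : V2, ‖e‖ = 1 → ∃ ξ ∈ s, ‖1 - inner ℂ ξ e‖ < 1 / N

open Classical in
/-- A chosen net. -/
noncomputable def net (N : ℝ) : Finset V2 :=
  if h : ∃ s, IsNet N s then h.choose else ∅

/-- The scale of level `k`. -/
def scale (Q : ℝ) (k : ℕ) : ℝ := Q ^ (k + 1)

/-- One level of the construction. -/
noncomputable def levelSum (ε Q : ℝ) (k : ℕ) (z : V2) : ℝ :=
  ∑ ξ ∈ net (scale Q k), well ε (qfun (scale Q k) ξ z)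

/-- The sum over all levels. -/
noncomputable def Psi (ε Q : ℝ) (z : V2) : ℝ := ∑' k, levelSum ε Q k z

/-- `√(1-|a|²)`. -/
noncomputable def defect (a : V2) : ℝ := Real.sqrt (1 - ‖a‖ ^ 2)

/-- The involutive automorphism of the ball exchanging zero and `a`. -/
noncomputable def ballMap (a z : V2) : V2 :=
  (1 - inner ℂ a z)⁻¹ •
    (a - (defect a : ℂ) • z - (inner ℂ a z / (1 + (defect a : ℂ))) • a)

/-- Four times the Levi form on the diagonal. -/
noncomputable def leviQ (f : V2 → ℝ) (z v : V2) : ℝ :=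
  fderiv ℝ (fderiv ℝ f) z v v
    + fderiv ℝ (fderiv ℝ f) z (Complex.I • v) (Complex.I • v)

/-- The hypotheses on the twist: smooth, strictly plurisubharmonic relative to the ball metric,
with derivatives of orders one to four bounded after recentring by automorphisms. -/
def GoodTwist (ψ : V2 → ℝ) : Prop :=
  ContDiffOn ℝ ∞ ψ ball2 ∧
  (∀ a ∈ ball2, ∀ v : V2, 4 * ‖v‖ ^ 2 ≤ leviQ (fun z => ψ (ballMap a z)) 0 v) ∧
  ∃ B : ℝ, ∀ a ∈ ball2, ∀ m : ℕ, 1 ≤ m → m ≤ 4 →
    ‖iteratedFDeriv ℝ m (fun z => ψ (ballMap a z)) 0‖ ≤ B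

/-- The projection to the first two coordinates. -/
noncomputable def zc (p : C3) : V2 := WithLp.toLp 2 ![p 0, p 1]

/-- The Hartogs domain over the ball with twist `ψ`. -/
def hartogs (ψ : V2 → ℝ) : Set C3 :=
  {p | ‖zc p‖ < 1 ∧ Complex.normSq (p 2) * Real.exp (ψ (zc p)) < 1}

/-- The potential of the metric. -/
noncomputable def potential (b : ℝ) (ψ : V2 → ℝ) (p : C3) : ℝ :=
  -Real.log (1 - ‖zc p‖ ^ 2) - b * Real.log (1 - Complex.normSq (p 2) * Real.exp (ψ (zc p)))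

end Vale.BDU
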