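import Vale.Agent.BDU.Setup

/-!
# P250: the well

Smoothness, third order vanishing at zero, and plurisubharmonicity after composition with a
holomorphic function.
-/

open scoped ContDiff ComplexConjugate Topology
open Filter

namespace Vale.BDU

lemma well_arg_pos {ε : ℝ} (hε : 0 < ε) (q : ℂ) :
    0 < Complex.normSq (1 - q) + ε * Complex.normSq q ^ 3 := by
  rcases eq_or_ne q 0 with rfl | hq
  · simp
  · have := Complex.normSq_pos.2 hq
    exact add_pos_of_nonneg_of_pos (Complex.normSq_nonneg _) (by positivity)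

lemma contDiff_normSq' : ContDiff ℝ ∞ (Complex.normSq : ℂ → ℝ) := by
  have : (Complex.normSq : ℂ → ℝ) =
      fun z => Complex.reCLM z * Complex.reCLM z + Complex.imCLM z * Complex.imCLM z := by
    ext z; simp [Complex.normSq_apply]
  rw [this]
  fun_prop

lemma contDiff_well {ε : ℝ} (hε : 0 < ε) : ContDiff ℝ ∞ (well ε) := by
  have h1 : ContDiff ℝ ∞ (fun q : ℂ => Complex.normSq (1 - q) + ε * Complex.normSq q ^ 3) :=
    (contDiff_normSq'.comp (contDiff_const.sub contDiff_id)).add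
      (contDiff_const.mul (contDiff_normSq'.pow 3))
  have h2 : ContDiff ℝ ∞ (fun q : ℂ => (q + q ^ 2 / 2).re) :=
    Complex.reCLM.contDiff.comp (f := fun q : ℂ => q + q ^ 2 / 2)
      (contDiff_id.add ((contDiff_id.pow 2).div_const 2))
  exact (h1.log fun q => (well_arg_pos hε q).ne').add (contDiff_const.mul h2)

lemma hasDerivAt_normSq {γ : ℝ → ℂ} {γ' : ℂ} {t : ℝ} (h : HasDerivAt γ γ' t) :
    HasDerivAt (fun t => Complex.normSq (γ t)) (2 * (conj (γ t) * γ').re) t := by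
  have hr := Complex.reCLM.hasFDerivAt.comp_hasDerivAt t h
  have hi := Complex.imCLM.hasFDerivAt.comp_hasDerivAt t h
  refine ((hr.mul hr).add (hi.mul hi)).congr_deriv ?_ |>.congr_of_eventuallyEq
    (.of_forall fun s => ?_)
  · simp [Complex.mul_re]; ring
  · simp [Complex.normSq_apply]

lemma hasDerivAt_re {γ : ℝ → ℂ} {γ' : ℂ} {t : ℝ} (h : HasDerivAt γ γ' t) :
    HasDerivAt (fun t => (γ t).re) γ'.re t :=
  Complex.reCLM.hasFDerivAt.comp_hasDerivAt t h

lemma hasDerivAt_conj {γ : ℝ → ℂ} {γ' : ℂ} {t : ℝ} (h : HasDerivAt γ γ' t) :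
    HasDerivAt (fun t => conj (γ t)) (conj γ') t :=
  Complex.conjCLE.toContinuousLinearMap.hasFDerivAt.comp_hasDerivAt t h

lemma hasDerivAt_along {g : ℂ → ℂ} {c : ℂ} {t : ℝ} (h : DifferentiableAt ℂ g ((t : ℂ) * c)) :
    HasDerivAt (fun t : ℝ => g ((t : ℂ) * c)) (c * deriv g ((t : ℂ) * c)) t := by
  have h1 : HasDerivAt (fun s : ℂ => g (s * c)) (c * deriv g ((t : ℂ) * c)) (t : ℂ) := by
    have := h.hasDerivAt.comp (t : ℂ) ((hasDerivAt_id (t : ℂ)).mul_const c)
    simpa [mul_comm, Function.comp_def] using this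
  exact h1.comp_ofReal

/-- `|1 - q|² + ε |q|⁶`, written for a pair. -/
noncomputable def pairSq (ε : ℝ) (a b : ℂ) : ℝ := Complex.normSq a + ε * Complex.normSq b

/-- The first derivative of `log (|a|² + ε|b|²) + 2 re h` along `t ↦ t c`. -/
noncomputable def lineD (ε : ℝ) (a b a' b' h' : ℂ) : ℝ :=
  (2 * (conj a * a').re + ε * (2 * (conj b * b').re)) / pairSq ε a b + 2 * h'.re

lemma hasDerivAt_line {ε : ℝ} {A B H : ℝ → ℂ} {a' b' h' : ℂ} {t : ℝ} (ha : HasDerivAt A a' t)
    (hb : HasDerivAt B b' t) (hh : HasDerivAt H h' t) (hpos : pairSq ε (A t) (B t) ≠ 0) :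
    HasDerivAt (fun t => Real.log (pairSq ε (A t) (B t)) + 2 * (H t).re)
      (lineD ε (A t) (B t) a' b' h') t :=
  (((hasDerivAt_normSq ha).add ((hasDerivAt_normSq hb).const_mul ε)).log hpos).add
    ((hasDerivAt_re hh).const_mul 2)

lemma hasDerivAt_lineD {ε : ℝ} {A B A' B' H' : ℝ → ℂ} {a'' b'' h'' : ℂ} {t : ℝ}
    (ha : HasDerivAt A (A' t) t) (hb : HasDerivAt B (B' t) t) (ha' : HasDerivAt A' a'' t)
    (hb' : HasDerivAt B' b'' t) (hh' : HasDerivAt H' h'' t)
    (hpos : pairSq ε (A t) (B t) ≠ 0) :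
    HasDerivAt (fun t => lineD ε (A t) (B t) (A' t) (B' t) (H' t))
      (((2 * (Complex.normSq (A' t) + (conj (A t) * a'').re)
            + ε * (2 * (Complex.normSq (B' t) + (conj (B t) * b'').re))) * pairSq ε (A t) (B t)
          - (2 * (conj (A t) * A' t).re + ε * (2 * (conj (B t) * B' t).re)) ^ 2)
          / pairSq ε (A t) (B t) ^ 2 + 2 * h''.re) t := by
  have hA := ((hasDerivAt_re ((hasDerivAt_conj ha).mul ha')).const_mul 2)
  have hB := (((hasDerivAt_re ((hasDerivAt_conj hb).mul hb')).const_mul 2).const_mul ε)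
  refine (((hA.add hB).div ((hasDerivAt_normSq ha).add ((hasDerivAt_normSq hb).const_mul ε))
    hpos).add ((hasDerivAt_re hh').const_mul 2)).congr_deriv ?_
  simp [pairSq, Complex.normSq_apply, Complex.mul_re]
  ring

/-- The second derivative along a real line. -/
lemma fderiv2_line {V : Type*} [NormedAddCommGroup V] [NormedSpace ℝ V] {f : V → ℝ} {U : Set V}
    (hU : IsOpen U) (h0 : 0 ∈ U) (hf : ContDiffOn ℝ 2 f U) (w : V) {φ' : ℝ → ℝ} {φ'' : ℝ}
    (h1 : ∀ᶠ t in 𝓝 (0 : ℝ), HasDerivAt (fun t : ℝ => f (t • w)) (φ' t) t)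
    (h2 : HasDerivAt φ' φ'' 0) :
    fderiv ℝ (fderiv ℝ f) 0 w w = φ'' := by
  have hlin : ∀ t : ℝ, HasDerivAt (fun t : ℝ => t • w) w t := fun t => by
    simpa using (hasDerivAt_id t).smul_const w
  have hf1 : ContDiffOn ℝ 1 (fderiv ℝ f) U := hf.fderiv_of_isOpen hU (by norm_num)
  have hd : HasFDerivAt (fderiv ℝ f) (fderiv ℝ (fderiv ℝ f) 0) ((0 : ℝ) • w) := by
    rw [zero_smul]
    exact ((hf1.differentiableOn one_ne_zero).differentiableAt (hU.mem_nhds h0)).hasFDerivAt
  have hc : HasDerivAt (fun t : ℝ => fderiv ℝ f (t • w) w) (fderiv ℝ (fderiv ℝ f) 0 w w) 0 := by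
    have h' : HasDerivAt (fun t : ℝ => fderiv ℝ f (t • w)) (fderiv ℝ (fderiv ℝ f) 0 w) 0 :=
      HasFDerivAt.comp_hasDerivAt (l := fderiv ℝ f) (l' := fderiv ℝ (fderiv ℝ f) 0)
        (f := fun t : ℝ => t • w) (f' := w) (0 : ℝ) hd (hlin 0)
    exact (ContinuousLinearMap.apply ℝ ℝ w).hasFDerivAt.comp_hasDerivAt (0 : ℝ) h' 
  have hev : (fun t : ℝ => fderiv ℝ f (t • w) w) =ᶠ[𝓝 0] φ' := by
    have hcont : ∀ᶠ t in 𝓝 (0 : ℝ), t • w ∈ U :=
      (hlin 0).continuousAt.preimage_mem_nhds (by rw [zero_smul]; exact hU.mem_nhds h0)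
    filter_upwards [h1, hcont] with t ht htU
    exact ((((hf.differentiableOn two_ne_zero).differentiableAt (hU.mem_nhds htU)).hasFDerivAt).comp_hasDerivAt
      t (hlin t)).unique ht
  exact hc.unique (h2.congr_of_eventuallyEq hev)

lemma cauchy_pair (ε : ℝ) (hε : 0 ≤ ε) (a b a' b' : ℂ) :
    ((conj a * a').re + ε * (conj b * b').re) ^ 2 + ((conj a * a').im + ε * (conj b * b').im) ^ 2
      ≤ pairSq ε a b * (Complex.normSq a' + ε * Complex.normSq b') := by
  simp only [pairSq, Complex.normSq_apply, Complex.mul_re, Complex.mul_im, Complex.conj_re,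
    Complex.conj_im]
  nlinarith [mul_nonneg hε (sq_nonneg (a.re * b'.re - a.im * b'.im - b.re * a'.re + b.im * a'.im)),
    mul_nonneg hε (sq_nonneg (a.re * b'.im + a.im * b'.re - b.re * a'.im - b.im * a'.re))]

/-- The well of a holomorphic function along a complex line is subharmonic. -/
lemma leviQ_well_comp_nonneg {ε : ℝ} (hε : 0 < ε) {f : V2 → ℝ} {U : Set V2} (hU : IsOpen U)
    (h0 : 0 ∈ U) (hf : ContDiffOn ℝ 2 f U) (v : V2) {g : ℂ → ℂ} {S : Set ℂ} (hS : IsOpen S)
    (hS0 : 0 ∈ S) (hg : DifferentiableOn ℂ g S)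
    (heq : ∀ s ∈ S, f (s • v) = well ε (g s)) : 0 ≤ leviQ f 0 v := by
  set a : ℂ → ℂ := fun s => 1 - g s
  set b : ℂ → ℂ := fun s => g s ^ 3
  set h : ℂ → ℂ := fun s => g s + g s ^ 2 / 2
  have ha : DifferentiableOn ℂ a S := (differentiableOn_const 1).sub hg
  have hb : DifferentiableOn ℂ b S := hg.pow 3
  have hh : DifferentiableOn ℂ h S := hg.add ((hg.pow 2).div_const 2)
  have hwell : ∀ s, well ε (g s) = Real.log (pairSq ε (a s) (b s)) + 2 * (h s).re := fun s => by
    simp only [well, pairSq, a, b, h, map_pow]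
  have hpos : ∀ s, pairSq ε (a s) (b s) ≠ 0 := fun s => by
    simp only [pairSq, a, b, map_pow]; exact (well_arg_pos hε _).ne'
  let val : ℂ → ℝ := fun c =>
    ((2 * (Complex.normSq (c * deriv a 0) + (conj (a 0) * (c * (c * deriv (deriv a) 0))).re)
      + ε * (2 * (Complex.normSq (c * deriv b 0) + (conj (b 0) * (c * (c * deriv (deriv b) 0))).re)))
        * pairSq ε (a 0) (b 0)
      - (2 * (conj (a 0) * (c * deriv a 0)).re + ε * (2 * (conj (b 0) * (c * deriv b 0)).re)) ^ 2)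
      / pairSq ε (a 0) (b 0) ^ 2 + 2 * (c * (c * deriv (deriv h) 0)).re
  have key : ∀ c : ℂ, fderiv ℝ (fderiv ℝ f) 0 (c • v) (c • v) = val c := by
    intro c
    have hsmul : ∀ t : ℝ, t • c • v = ((t : ℂ) * c) • v := fun t => by
      rw [mul_smul, Complex.coe_smul]
    have hnear : ∀ᶠ t : ℝ in 𝓝 0, (t : ℂ) * c ∈ S := by
      have hct : Continuous fun t : ℝ => (t : ℂ) * c :=
        Complex.continuous_ofReal.mul continuous_const
      exact (hct.continuousAt (x := 0)).preimage_mem_nhds (by simpa using hS.mem_nhds hS0)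
    have hD : ∀ {k : ℂ → ℂ}, DifferentiableOn ℂ k S → ∀ t : ℝ, (t : ℂ) * c ∈ S →
        HasDerivAt (fun t : ℝ => k ((t : ℂ) * c)) (c * deriv k ((t : ℂ) * c)) t := fun hk t ht =>
      hasDerivAt_along (hk.differentiableAt (hS.mem_nhds ht))
    refine fderiv2_line hU h0 hf (c • v) (φ' := fun t => lineD ε (a (t * c)) (b (t * c))
      (c * deriv a (t * c)) (c * deriv b (t * c)) (c * deriv h (t * c))) ?_ ?_
    · filter_upwards [hnear, hnear.eventually_nhds] with t ht hev
      refine (hasDerivAt_line (hD ha t ht) (hD hb t ht) (hD hh t ht) (hpos _)).congr_of_eventuallyEq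
        ?_
      filter_upwards [hev] with u hu
      rw [hsmul, heq _ hu, hwell]
    · have h00 : ((0 : ℝ) : ℂ) * c ∈ S := by simpa using hS0
      have := hasDerivAt_lineD (ε := ε) (A := fun t => a (t * c)) (B := fun t => b (t * c))
        (A' := fun t => c * deriv a (t * c)) (B' := fun t => c * deriv b (t * c))
        (H' := fun t => c * deriv h (t * c)) (t := 0) (hD ha 0 h00) (hD hb 0 h00)
        ((hD (ha.deriv hS) 0 h00).const_mul c) ((hD (hb.deriv hS) 0 h00).const_mul c)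
        ((hD (hh.deriv hS) 0 h00).const_mul c) (hpos _)
      refine this.congr_deriv ?_
      simp [val]
  have h1 := key 1
  rw [one_smul] at h1
  rw [leviQ, h1, key Complex.I]
  have hP : 0 < pairSq ε (a 0) (b 0) :=
    lt_of_le_of_ne (add_nonneg (Complex.normSq_nonneg _)
      (mul_nonneg hε.le (Complex.normSq_nonneg _))) (hpos 0).symm
  have hcs := cauchy_pair ε hε.le (a 0) (b 0) (deriv a 0) (deriv b 0)
  have : val 1 + val Complex.I =
      4 * (pairSq ε (a 0) (b 0) * (Complex.normSq (deriv a 0) + ε * Complex.normSq (deriv b 0))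
        - (((conj (a 0) * deriv a 0).re + ε * (conj (b 0) * deriv b 0).re) ^ 2
          + ((conj (a 0) * deriv a 0).im + ε * (conj (b 0) * deriv b 0).im) ^ 2))
        / pairSq ε (a 0) (b 0) ^ 2 := by
    simp [val, Complex.normSq_apply, Complex.mul_re, Complex.mul_im]
    field_simp
    ring
  rw [this]
  exact div_nonneg (by linarith) (sq_nonneg _)

lemma fderiv_well_apply {ε : ℝ} (hε : 0 < ε) (q h : ℂ) :
    fderiv ℝ (well ε) q h = 2 * (h * (-(q ^ 2 * conj (1 - q))
      + (ε : ℂ) * (3 * (conj q ^ 3 * q ^ 2) + (1 + q) * (q * conj q) ^ 3))).re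
      / pairSq ε (1 - q) (q ^ 3) := by
  have hγ : HasDerivAt (fun t : ℝ => q + t • h) h 0 := by
    simpa using ((hasDerivAt_id (0 : ℝ)).smul_const h).const_add q
  have hpos : pairSq ε (1 - q) (q ^ 3) ≠ 0 := by
    simp only [pairSq, map_pow]; exact (well_arg_pos hε q).ne'
  have hsq : HasDerivAt (fun t : ℝ => (q + t • h) + (q + t • h) ^ 2 / 2) (h + q * h) 0 := by
    refine (hγ.add ((hγ.pow 2).div_const 2)).congr_deriv ?_
    simp; ring
  have h2 := hasDerivAt_line (ε := ε) (hγ.const_sub 1) (hγ.pow 3) hsq (by simpa using hpos)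
  have h1 := ((contDiff_well hε).differentiable (by simp) q).hasFDerivAt
  have h3 : HasDerivAt (fun t : ℝ => well ε (q + t • h)) (fderiv ℝ (well ε) q h) 0 :=
    HasFDerivAt.comp_hasDerivAt (l := well ε) (0 : ℝ) (by simpa using h1) hγ
  have h4 := h3.unique (h2.congr_of_eventuallyEq (.of_forall fun t => by
    simp [well, pairSq, map_pow]))
  rw [h4, lineD]
  simp only [zero_smul, add_zero, Pi.pow_apply]
  rw [eq_div_iff hpos, add_mul, div_mul_cancel₀ _ hpos]
  simp [pairSq, Complex.normSq_apply, Complex.mul_re, Complex.mul_im, pow_succ]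
  ring

/-- The derivative of the well vanishes to second order at zero. -/
lemma norm_fderiv_well_le {ε : ℝ} (hε : 0 < ε) (R : ℝ) :
    ∃ C, 0 ≤ C ∧ ∀ q : ℂ, ‖q‖ ≤ R → ‖fderiv ℝ (well ε) q‖ ≤ C * ‖q‖ ^ 2 := by
  have hcont : Continuous fun q : ℂ => ‖-conj (1 - q)
      + (ε : ℂ) * (3 * conj q ^ 3 + (1 + q) * q * conj q ^ 3)‖ / pairSq ε (1 - q) (q ^ 3) := by
    refine Continuous.div (by fun_prop) ?_ fun q => ?_
    · simp only [pairSq]; fun_prop
    · simp only [pairSq, map_pow]; exact (well_arg_pos hε q).ne'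
  obtain ⟨C, hC⟩ := (isCompact_closedBall (0 : ℂ) R).exists_bound_of_continuousOn hcont.continuousOn
  refine ⟨2 * max C 0, by positivity, fun q hq => ?_⟩
  refine ContinuousLinearMap.opNorm_le_bound _ (by positivity) fun h => ?_
  have hP : 0 < pairSq ε (1 - q) (q ^ 3) := by
    simp only [pairSq, map_pow]; exact well_arg_pos hε q
  have hb := (hC q (mem_closedBall_zero_iff.2 hq)).trans (le_max_left C 0)
  rw [Real.norm_eq_abs, abs_div, abs_norm, abs_of_pos hP, div_le_iff₀ hP] at hb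
  rw [fderiv_well_apply hε, Real.norm_eq_abs, abs_div, abs_of_pos hP, div_le_iff₀ hP, abs_mul,
    abs_two]
  refine (mul_le_mul_of_nonneg_left (Complex.abs_re_le_norm _) two_pos.le).trans ?_
  rw [show h * (-(q ^ 2 * conj (1 - q))
      + (ε : ℂ) * (3 * (conj q ^ 3 * q ^ 2) + (1 + q) * (q * conj q) ^ 3)) = h * q ^ 2 *
      (-conj (1 - q) + (ε : ℂ) * (3 * conj q ^ 3 + (1 + q) * q * conj q ^ 3)) by ring,
    norm_mul, norm_mul, norm_pow]
  calc 2 * (‖h‖ * ‖q‖ ^ 2 * _) ≤ 2 * (‖h‖ * ‖q‖ ^ 2 * (max C 0 * pairSq ε (1 - q) (q ^ 3))) := by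
        gcongr
    _ = _ := by ring

lemma well_zero {ε : ℝ} : well ε 0 = 0 := by simp [well]

/-- The well vanishes to third order at zero, with all its derivatives. -/
theorem well_jet_bound {ε : ℝ} (hε : 0 < ε) (R : ℝ) (k : ℕ) :
    ∃ C, 0 ≤ C ∧ ∀ q : ℂ, ‖q‖ ≤ R → ∀ i ≤ k,
      ‖iteratedFDeriv ℝ i (well ε) q‖ ≤ C * ‖q‖ ^ (3 - i) := by
  have hs := contDiff_well hε
  set R' := max R 1
  have hR' : 1 ≤ R' := le_max_right _ _
  obtain ⟨C₁, hC₁, h1⟩ := norm_fderiv_well_le hε R'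
  have hcont : ∀ i, ∃ B, 0 ≤ B ∧ ∀ q : ℂ, ‖q‖ ≤ R' →
      ‖iteratedFDeriv ℝ i (well ε) q‖ ≤ B := fun i => by
    obtain ⟨B, hB⟩ := (isCompact_closedBall (0 : ℂ) R').exists_bound_of_continuousOn
      (hs.continuous_iteratedFDeriv (m := i) (by exact_mod_cast le_top)).continuousOn
    exact ⟨max B 0, le_max_right _ _, fun q hq =>
      (hB q (mem_closedBall_zero_iff.2 hq)).trans (le_max_left _ _)⟩
  choose B hB0 hB using hcont
  have hzero2 : iteratedFDeriv ℝ 2 (well ε) 0 = 0 := by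
    have h0 : fderiv ℝ (well ε) 0 = 0 := by
      have := h1 0 (by rw [norm_zero]; linarith)
      simpa using this
    have hd : HasFDerivAt (fderiv ℝ (well ε)) (0 : ℂ →L[ℝ] ℂ →L[ℝ] ℝ) 0 := by
      refine HasFDerivAt.of_isLittleO ?_
      simp only [h0, sub_zero, zero_apply]
      refine Asymptotics.IsBigO.trans_isLittleO (g := fun q : ℂ => ‖q‖ ^ 2) ?_
        (Asymptotics.isLittleO_norm_pow_id one_lt_two)
      refine Asymptotics.IsBigO.of_bound C₁ ?_
      filter_upwards [Metric.closedBall_mem_nhds (0 : ℂ) one_pos] with q hq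
      rw [norm_pow, norm_norm]
      exact h1 q ((mem_closedBall_zero_iff.1 hq).trans hR')
    ext m
    simp [iteratedFDeriv_two_apply, hd.fderiv]
  have hS := Finset.sum_nonneg (s := Finset.range (k + 1)) (fun i _ => hB0 i)
  refine ⟨C₁ + B 3 + ∑ i ∈ Finset.range (k + 1), B i, by linarith [hB0 3],
    fun q hq i hi => ?_⟩
  have hq' : ‖q‖ ≤ R' := hq.trans (le_max_left _ _)
  have hmem : ∀ y ∈ Metric.closedBall (0 : ℂ) ‖q‖, ‖y‖ ≤ ‖q‖ := fun y hy =>
    mem_closedBall_zero_iff.1 hy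
  match i with
  | 0 =>
    have := (convex_closedBall (0 : ℂ) ‖q‖).norm_image_sub_le_of_norm_fderiv_le
      (𝕜 := ℝ) (f := well ε) (C := C₁ * ‖q‖ ^ 2) (fun y _ => hs.differentiable (by simp) y)
      (fun y hy => (h1 y ((hmem y hy).trans hq')).trans (mul_le_mul_of_nonneg_left
        (pow_le_pow_left₀ (norm_nonneg y) (hmem y hy) 2) hC₁))
      (x := 0) (y := q) (by simp) (by simp)
    rw [well_zero, sub_zero, sub_zero, mul_assoc, ← pow_succ] at this
    rw [norm_iteratedFDeriv_zero, Nat.sub_zero]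
    exact this.trans (mul_le_mul_of_nonneg_right (by linarith [hB0 3]) (by positivity))
  | 1 =>
    rw [norm_iteratedFDeriv_one]
    exact (h1 q hq').trans (mul_le_mul_of_nonneg_right (by linarith [hB0 3]) (sq_nonneg _))
  | 2 =>
    have := (convex_closedBall (0 : ℂ) ‖q‖).norm_image_sub_le_of_norm_fderiv_le
      (𝕜 := ℝ) (f := iteratedFDeriv ℝ 2 (well ε)) (C := B 3)
      (fun y _ => hs.differentiable_iteratedFDeriv (m := 2) (WithTop.coe_lt_coe.2 (ENat.natCast_lt_top 2)) y)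
      (fun y hy => (norm_fderiv_iteratedFDeriv).trans_le (hB 3 y ((hmem y hy).trans hq')))
      (x := 0) (y := q) (by simp) (by simp)
    rw [hzero2, sub_zero, sub_zero] at this
    refine this.trans ?_
    rw [show (3 : ℕ) - 2 = 1 from rfl, pow_one]
    exact mul_le_mul_of_nonneg_right (by linarith) (norm_nonneg q)
  | j + 3 =>
    have hterm : B (j + 3) ≤ ∑ l ∈ Finset.range (k + 1), B l :=
      Finset.single_le_sum (fun l _ => hB0 l) (Finset.mem_range.2 (Nat.lt_succ_of_le hi))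
    rw [show 3 - (j + 3) = 0 by omega, pow_zero, mul_one]
    exact (hB _ q hq').trans (by linarith [hB0 3])

end Vale.BDU
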