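import Vale.Agent.BDU.Setup

/-!
# P250: Wirtinger operators on functions on complex three-space
-/

open scoped ContDiff
open ComplexConjugate

namespace Vale.BDU

/-- The holomorphic derivative in direction `Z`. -/
noncomputable def pd (Z : C3) (f : C3 → ℂ) : C3 → ℂ :=
  fun q => (1 / 2) * (fderiv ℝ f q Z - Complex.I * fderiv ℝ f q (Complex.I • Z))

/-- The antiholomorphic derivative in direction `Z`. -/
noncomputable def pb (Z : C3) (f : C3 → ℂ) : C3 → ℂ :=
  fun q => (1 / 2) * (fderiv ℝ f q Z + Complex.I * fderiv ℝ f q (Complex.I • Z))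

variable {M : Set C3} {f g : C3 → ℂ}

lemma fderiv_eq_pd_add_pb (Z : C3) (q : C3) : fderiv ℝ f q Z = pd Z f q + pb Z f q := by
  simp only [pd, pb]; ring

lemma contDiffOn_fderiv_apply (hM : IsOpen M) (hf : ContDiffOn ℝ ∞ f M) (Z : C3) :
    ContDiffOn ℝ ∞ (fun q => fderiv ℝ f q Z) M :=
  (hf.fderiv_of_isOpen hM (by simp)).clm_apply contDiffOn_const

lemma contDiffOn_pd (hM : IsOpen M) (hf : ContDiffOn ℝ ∞ f M) (Z : C3) :
    ContDiffOn ℝ ∞ (pd Z f) M :=
  contDiffOn_const.mul ((contDiffOn_fderiv_apply hM hf Z).sub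
    (contDiffOn_const.mul (contDiffOn_fderiv_apply hM hf _)))

lemma contDiffOn_pb (hM : IsOpen M) (hf : ContDiffOn ℝ ∞ f M) (Z : C3) :
    ContDiffOn ℝ ∞ (pb Z f) M :=
  contDiffOn_const.mul ((contDiffOn_fderiv_apply hM hf Z).add
    (contDiffOn_const.mul (contDiffOn_fderiv_apply hM hf _)))

lemma differentiableAt_of_contDiffOn (hM : IsOpen M) (hf : ContDiffOn ℝ ∞ f M) {q : C3}
    (hq : q ∈ M) : DifferentiableAt ℝ f q :=
  (hf.contDiffAt (hM.mem_nhds hq)).differentiableAt (by simp)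

lemma smul_complex_eq (c : ℂ) (Z : C3) : c • Z = c.re • Z + c.im • (Complex.I • Z) := by
  conv_lhs => rw [← Complex.re_add_im c, add_smul, mul_smul]
  rw [RCLike.real_smul_eq_coe_smul (K := ℂ) c.re Z,
    RCLike.real_smul_eq_coe_smul (K := ℂ) c.im (Complex.I • Z)]
  rfl

lemma fderiv_smul_complex (c : ℂ) (Z : C3) (q : C3) :
    fderiv ℝ f q (c • Z) = c.re • fderiv ℝ f q Z + c.im • fderiv ℝ f q (Complex.I • Z) := by
  rw [smul_complex_eq, map_add, map_smul, map_smul]

lemma pd_smul (c : ℂ) (Z : C3) (q : C3) : pd (c • Z) f q = c * pd Z f q := by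
  simp only [pd, smul_smul]
  rw [fderiv_smul_complex c Z, fderiv_smul_complex (Complex.I * c) Z]
  simp only [Complex.real_smul]
  apply Complex.ext <;> simp <;> ring

lemma pb_smul (c : ℂ) (Z : C3) (q : C3) : pb (c • Z) f q = conj c * pb Z f q := by
  simp only [pb, smul_smul]
  rw [fderiv_smul_complex c Z, fderiv_smul_complex (Complex.I * c) Z]
  simp only [Complex.real_smul]
  apply Complex.ext <;> simp <;> ring

lemma pd_add (Z W : C3) (q : C3) : pd (Z + W) f q = pd Z f q + pd W f q := by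
  simp only [pd, smul_add, map_add]; ring

lemma pb_add (Z W : C3) (q : C3) : pb (Z + W) f q = pb Z f q + pb W f q := by
  simp only [pb, smul_add, map_add]; ring

lemma pd_congr {q : C3} (h : f =ᶠ[nhds q] g) (Z : C3) : pd Z f q = pd Z g q := by
  simp only [pd, h.fderiv_eq]

lemma pb_congr {q : C3} (h : f =ᶠ[nhds q] g) (Z : C3) : pb Z f q = pb Z g q := by
  simp only [pb, h.fderiv_eq]

lemma pd_congr_on (hM : IsOpen M) (h : Set.EqOn f g M) (Z : C3) :
    Set.EqOn (pd Z f) (pd Z g) M :=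
  fun _ hq => pd_congr (Filter.eventuallyEq_of_mem (hM.mem_nhds hq) h) Z

lemma pb_congr_on (hM : IsOpen M) (h : Set.EqOn f g M) (Z : C3) :
    Set.EqOn (pb Z f) (pb Z g) M :=
  fun _ hq => pb_congr (Filter.eventuallyEq_of_mem (hM.mem_nhds hq) h) Z

lemma fderiv_fderiv_apply (hM : IsOpen M) (hf : ContDiffOn ℝ ∞ f M) {q : C3} (hq : q ∈ M)
    (A B : C3) :
    fderiv ℝ (fun r => fderiv ℝ f r A) q B = fderiv ℝ (fun r => fderiv ℝ f r B) q A := by
  have hd : DifferentiableAt ℝ (fderiv ℝ f) q :=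
    ((hf.fderiv_of_isOpen hM (m := ∞) (by simp)).contDiffAt (hM.mem_nhds hq)).differentiableAt
      (by simp)
  have hs := (hf.contDiffAt (hM.mem_nhds hq)).isSymmSndFDerivAt
    (by simp only [minSmoothness_of_isRCLikeNormedField]; exact WithTop.coe_le_coe.2 le_top)
  have e : ∀ X Y : C3, fderiv ℝ (fun r => fderiv ℝ f r X) q Y = fderiv ℝ (fderiv ℝ f) q Y X := by
    intro X Y
    rw [fderiv_clm_apply hd (differentiableAt_const X)]
    simp
  rw [e, e]
  exact hs.eq B A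

lemma fderiv_pd (hM : IsOpen M) (hf : ContDiffOn ℝ ∞ f M) {q : C3} (hq : q ∈ M) (Z A : C3) :
    fderiv ℝ (pd Z f) q A = (1 / 2) * (fderiv ℝ (fun r => fderiv ℝ f r Z) q A
      - Complex.I * fderiv ℝ (fun r => fderiv ℝ f r (Complex.I • Z)) q A) := by
  have h1 := differentiableAt_of_contDiffOn hM (contDiffOn_fderiv_apply hM hf Z) hq
  have h2 := differentiableAt_of_contDiffOn hM
    (contDiffOn_fderiv_apply hM hf (Complex.I • Z)) hq
  unfold pd
  rw [((h1.hasFDerivAt.fun_sub (h2.hasFDerivAt.const_mul Complex.I)).const_mul (1 / 2 : ℂ)).fderiv]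
  simp [mul_sub]

lemma fderiv_pb (hM : IsOpen M) (hf : ContDiffOn ℝ ∞ f M) {q : C3} (hq : q ∈ M) (Z A : C3) :
    fderiv ℝ (pb Z f) q A = (1 / 2) * (fderiv ℝ (fun r => fderiv ℝ f r Z) q A
      + Complex.I * fderiv ℝ (fun r => fderiv ℝ f r (Complex.I • Z)) q A) := by
  have h1 := differentiableAt_of_contDiffOn hM (contDiffOn_fderiv_apply hM hf Z) hq
  have h2 := differentiableAt_of_contDiffOn hM
    (contDiffOn_fderiv_apply hM hf (Complex.I • Z)) hq
  unfold pb
  rw [((h1.hasFDerivAt.fun_add (h2.hasFDerivAt.const_mul Complex.I)).const_mul (1 / 2 : ℂ)).fderiv]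
  simp [mul_add]

lemma pd_pd_comm (hM : IsOpen M) (hf : ContDiffOn ℝ ∞ f M) (Z W : C3) :
    Set.EqOn (pd Z (pd W f)) (pd W (pd Z f)) M := by
  intro q hq
  show (1 / 2 : ℂ) * _ = (1 / 2 : ℂ) * _
  simp only [fderiv_pd hM hf hq]
  rw [fderiv_fderiv_apply hM hf hq W Z, fderiv_fderiv_apply hM hf hq (Complex.I • W) Z,
    fderiv_fderiv_apply hM hf hq W (Complex.I • Z),
    fderiv_fderiv_apply hM hf hq (Complex.I • W) (Complex.I • Z)]
  ring

lemma pd_pb_comm (hM : IsOpen M) (hf : ContDiffOn ℝ ∞ f M) (Z W : C3) :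
    Set.EqOn (pd Z (pb W f)) (pb W (pd Z f)) M := by
  intro q hq
  show (1 / 2 : ℂ) * _ = (1 / 2 : ℂ) * _
  simp only [fderiv_pd hM hf hq, fderiv_pb hM hf hq]
  rw [fderiv_fderiv_apply hM hf hq W Z, fderiv_fderiv_apply hM hf hq (Complex.I • W) Z,
    fderiv_fderiv_apply hM hf hq W (Complex.I • Z),
    fderiv_fderiv_apply hM hf hq (Complex.I • W) (Complex.I • Z)]
  ring

lemma pb_pb_comm (hM : IsOpen M) (hf : ContDiffOn ℝ ∞ f M) (Z W : C3) :
    Set.EqOn (pb Z (pb W f)) (pb W (pb Z f)) M := by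
  intro q hq
  show (1 / 2 : ℂ) * _ = (1 / 2 : ℂ) * _
  simp only [fderiv_pb hM hf hq]
  rw [fderiv_fderiv_apply hM hf hq W Z, fderiv_fderiv_apply hM hf hq (Complex.I • W) Z,
    fderiv_fderiv_apply hM hf hq W (Complex.I • Z),
    fderiv_fderiv_apply hM hf hq (Complex.I • W) (Complex.I • Z)]
  ring

lemma conj_pd {q : C3} (Z : C3) (hf : DifferentiableAt ℝ f q) :
    conj (pd Z f q) = pb Z (fun r => conj (f r)) q := by
  have h : fderiv ℝ (fun r => conj (f r)) q =
      (Complex.conjCLE.toContinuousLinearMap).comp (fderiv ℝ f q) :=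
    (Complex.conjCLE.toContinuousLinearMap.hasFDerivAt.comp q hf.hasFDerivAt).fderiv
  simp only [pd, pb, h]
  apply Complex.ext <;> simp <;> ring

lemma conj_pb {q : C3} (Z : C3) (hf : DifferentiableAt ℝ f q) :
    conj (pb Z f q) = pd Z (fun r => conj (f r)) q := by
  have h : fderiv ℝ (fun r => conj (f r)) q =
      (Complex.conjCLE.toContinuousLinearMap).comp (fderiv ℝ f q) :=
    (Complex.conjCLE.toContinuousLinearMap.hasFDerivAt.comp q hf.hasFDerivAt).fderiv
  simp only [pd, pb, h]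
  apply Complex.ext <;> simp <;> ring

end Vale.BDU
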